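import Vale.Agent.P261Z.T3.KMod

/-!
# P261, T3: the reverse comparison for Morava `K`-theory as a module

`KMod.kos_of_acyclic` : `K`-acyclic objects are acyclic for the Koszul object of height `n`.
-/

open CategoryTheory MonoidalCategory MonObj Limits Pretriangulated

set_option linter.unusedSectionVars false

universe v u

namespace Vale.Agent.P261Z.T3

open Vale.Agent.P251 Vale.Agent.P251.M Vale.Agent.P251.M.EvenSpheres Vale.Agent.P251.F
  Vale.Agent.P251.T Vale.Agent.P251.S Vale.Agent.P251.Z Vale.Agent.P251.I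
  Vale.Agent.P251.I.MUData

section alg

theorem bL_map {A B : Type*} [CommRing A] [CommRing B] (χ : A →+* B) (F : Law A) :
    (bL F).map (MvPolynomial.map χ) = bL (F.map χ) := by
  unfold bL
  rw [InvSeries.map_smul, map_strictMk, Law.map_map, Law.map_map]
  have h1 : (MvPolynomial.map χ : MvPolynomial ℕ A →+* MvPolynomial ℕ B).comp MvPolynomial.C =
      MvPolynomial.C.comp χ := RingHom.ext fun a => MvPolynomial.map_C χ a
  rw [h1]
  congr 2
  funext i
  exact MvPolynomial.map_X χ i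

theorem vv_bL_act {A S : Type*} [CommRing A] [Ring S] (σ : MvPolynomial ℕ A →+* S) {p h : ℕ}
    [Fact p.Prime] (F : Law A) (hF : ∀ i < h, σ (MvPolynomial.C (vv p i F)) = 0) :
    (∀ i < h, σ (vv p i (bL F)) = 0) ∧ σ (vv p h (bL F)) = σ (MvPolynomial.C (vv p h F)) := by
  let q := Ideal.Quotient.mk (RingHom.ker σ)
  have h1 : (bL F).map q = strictMk (fun i => q (MvPolynomial.X i)) •
      F.map (q.comp MvPolynomial.C) := by
    unfold bL
    rw [InvSeries.map_smul, map_strictMk, Law.map_map]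
  have h2 := vv_smul_of_zero p h (F.map (q.comp MvPolynomial.C))
    (strictMk fun i => q (MvPolynomial.X i)) (fun i hi => by
      rw [vv_map]
      exact Ideal.Quotient.eq_zero_iff_mem.2 (hF i hi))
  rw [← h1] at h2
  refine ⟨fun i hi => ?_, ?_⟩
  · have h3 := h2.1 i hi
    rw [vv_map] at h3
    exact Ideal.Quotient.eq_zero_iff_mem.1 h3
  · have h3 := h2.2
    rw [c_zero_strictMk, one_pow, _root_.mul_one, _root_.one_mul, vv_map, vv_map] at h3
    have h4 : σ (vv p h (bL F) - MvPolynomial.C (vv p h F)) = 0 := (Ideal.Quotient.eq.1 h3)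
    rwa [map_sub, sub_eq_zero] at h4

end alg

variable {T : Type u} [Category.{v} T] [Preadditive T] [HasZeroObject T]
    [HasShift T ℤ] [∀ n : ℤ, (shiftFunctor T n).Additive] [Pretriangulated T] [IsTriangulated T]
    [MonoidalCategory T] [SymmetricCategory T] [TensorTriangulated T] [MonoidalClosed T]
    [HasCoproducts.{0} T] [HasProducts.{0} T] [StableCat T]

section sig

variable (D : MUData T) {K : T} (M : ModStr D.R K)

/-- `π_*(MU)[b] ⟶ π_*(MU ⊗ MU)` -/
noncomputable def epsR : MvPolynomial ℕ (HRing (stdEven T) D.R) →+* HRing (stdEven T) (D.R ⊗ D.R) :=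
  epsH (bK D (𝟙 D.R))

theorem law_inrR : D.law.map (HRing.map (E := stdEven T) (inrM D.R D.R)) =
    (bL D.law).map (epsR D) := by
  have h := law_inr D (𝟙 D.R)
  unfold lawK at h
  rwa [HRing.map_id, Law.map_id] at h

/-- the action of `π_*(MU ⊗ MU)` on `K ⊗ P` -/
noncomputable def tauP : HRing (stdEven T) (D.R ⊗ D.R) →+* End (K ⊗ D.P) :=
  (M.tens (ModStr.self D.P)).smr.comp (theK (E := stdEven T) D.R D.R)

/-- the action of `π_*(MU)[b]` on `K ⊗ P` -/
noncomputable def sigB : MvPolynomial ℕ (HRing (stdEven T) D.R) →+* End (K ⊗ D.P) :=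
  (tauP D M).comp (epsR D)

theorem tauP_inr (x : HRing (stdEven T) D.R) :
    tauP D M (HRing.map (E := stdEven T) (inrM D.R D.R) x) =
      K ◁ (ModStr.self D.P).smul (sharpHom D.R x) := by
  unfold tauP
  rw [RingHom.comp_apply, theK_inr]
  have h1 := M.tens_smul_right (ModStr.self D.P) (Sc.hom (sharpHom D.R x))
  rw [scR_eq_inr] at h1
  exact h1

theorem whiskerLeft_vP_eq (p i : ℕ) : K ◁ vP (D.vs p) i = sigB D M (vv p i (bL D.law)) := by
  unfold sigB
  rw [RingHom.comp_apply, ← vv_map, ← law_inrR, vv_map, tauP_inr, D.vel_spec, sharpHom_of]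
  rfl

theorem jP_sigB (r : HRing (stdEven T) D.R) :
    (sigP (stdEven T) M r : _ ⟶ _) ≫ jP (stdEven T) K D.R =
      jP (stdEven T) K D.R ≫ (sigB D M (MvPolynomial.C r) : _ ⟶ _) := by
  have h1 : sigB D M (MvPolynomial.C r) = (M.tens (ModStr.self D.P)).smul
      (((sharpHom D.R r : Sc (D.R ⊗ (stdEven T).PS)).hom ≫ inlM D.R D.R ▷ (stdEven T).PS) ≫
        (α_ D.R D.R (stdEven T).PS).hom) := by
    unfold sigB epsR tauP theK
    rw [RingHom.comp_apply, epsH_C, RingHom.comp_apply, RingHom.comp_apply, ← sharpHom_map]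
    rfl
  rw [h1]
  exact jP_smul M _

/-- the summands of `K ⊗ P` -/
noncomputable def fB (a : ℕ →₀ ℕ) : K ⊗ (stdEven T).PS ⟶ K ⊗ D.P :=
  jP (stdEven T) K D.R ≫ (sigB D M (MvPolynomial.monomial a 1) : _ ⟶ _)

theorem fB_sigB (a : ℕ →₀ ℕ) (r : HRing (stdEven T) D.R) :
    fB D M a ≫ (sigB D M (MvPolynomial.C r) : _ ⟶ _) =
      (sigP (stdEven T) M r : _ ⟶ _) ≫ fB D M a := by
  unfold fB
  rw [← Category.assoc (sigP (stdEven T) M r : _ ⟶ _), jP_sigB, Category.assoc, Category.assoc]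
  congr 1
  have h1 : sigB D M (MvPolynomial.C r) * sigB D M (MvPolynomial.monomial a 1) =
      sigB D M (MvPolynomial.monomial a 1) * sigB D M (MvPolynomial.C r) := by
    rw [← map_mul, ← map_mul, mul_comm]
  exact h1

variable {D} {F : SpaceFunctor T} {e : F.S.obj CCF ≅ (stdEven T).L}

theorem epsR_bijective (hU : MUUniv e D) : Function.Bijective (epsR D) :=
  epsK_bijective (𝟙 D.R) hU

theorem isIso_fB (hU : MUUniv e D) : IsIso (Sigma.desc (fB D M)) := by
  obtain ⟨b, -, hb⟩ := D.exists_basis_of (𝟙 D.R) hU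
  have h1 := isIso_kun_per M b.k b.w b.isIso
  have h2 : fB D M = fun a => jP (stdEven T) K D.R ≫
      (M.tens (ModStr.self (D.R ⊗ (stdEven T).PS))).smul
        (sharp (b.w a) ≫ (α_ D.R D.R (stdEven T).PS).hom) := by
    funext a
    unfold fB sigB epsR tauP theK
    rw [RingHom.comp_apply, epsH_monomial, map_one, _root_.one_mul, ← class_bK, ← hb,
      RingHom.comp_apply, RingHom.comp_apply, sharpHom_of]
    rfl
  rw [h2]
  exact h1

end sig

namespace KMod

variable {D : MUData T} {p n : ℕ} {K : T} {M : ModStr D.R K} {g : 𝟙_ T ⟶ K} (H : KMod D p n M g)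
  {F : SpaceFunctor T} {e : F.S.obj CCF ≅ (stdEven T).L} (hU : MUUniv e D)

include H hU

theorem sigB_low {i : ℕ} (hi : i < n) : sigB D M (MvPolynomial.C (vv p i D.law)) = 0 := by
  have := isIso_fB M hU
  have h1 : Sigma.desc (fB D M) ≫ (sigB D M (MvPolynomial.C (vv p i D.law)) : _ ⟶ _) = 0 := by
    refine Sigma.hom_ext _ _ fun a => ?_
    rw [Sigma.ι_desc_assoc, fB_sigB, H.sigP_low hi, comp_zero]
    exact zero_comp
  exact (cancel_epi (Sigma.desc (fB D M))).1 (h1.trans comp_zero.symm)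

theorem sigB_top : IsIso (sigB D M (MvPolynomial.C (vv p n D.law)) : K ⊗ D.P ⟶ K ⊗ D.P) := by
  have h0 := isIso_fB M hU
  have := H.sigP_top
  have h1 := isIso_desc_comp (fB D M)
    (fun _ => (sigP (stdEven T) M (vv p n D.law) : K ⊗ (stdEven T).PS ⟶ _)) h0
  have h2 : (Sigma.desc fun a => (sigP (stdEven T) M (vv p n D.law) : K ⊗ (stdEven T).PS ⟶ _) ≫
      fB D M a) = Sigma.desc (fB D M) ≫
        (sigB D M (MvPolynomial.C (vv p n D.law)) : K ⊗ D.P ⟶ K ⊗ D.P) := by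
    refine Sigma.hom_ext _ _ fun a => ?_
    rw [Sigma.ι_desc_assoc, fB_sigB, Sigma.ι_desc]
  rw [h2] at h1
  exact IsIso.of_isIso_comp_left (Sigma.desc (fB D M)) _

theorem vP_low [Fact p.Prime] {i : ℕ} (hi : i < n) : K ◁ vP (D.vs p) i = 0 := by
  rw [whiskerLeft_vP_eq D M]
  exact (vv_bL_act (sigB D M) D.law fun i hi => H.sigB_low hU hi).1 i hi

theorem vP_top [Fact p.Prime] : IsIso (K ◁ vP (D.vs p) n) := by
  rw [whiskerLeft_vP_eq D M, (vv_bL_act (sigB D M) D.law fun i hi => H.sigB_low hU hi).2]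
  exact H.sigB_top hU

theorem odd_P (l : ℤ) (y : (𝟙_ T)⟦2 * l + 1⟧ ⟶ K ⊗ D.P) : y = 0 := by
  have := isIso_fB M hU
  obtain ⟨x, rfl⟩ := (bij_sum' (fB D M) (A := (𝟙_ T)⟦2 * l + 1⟧) ⟨_, ⟨Iso.refl _⟩⟩).2 y
  have h1 : x = 0 := by
    ext a
    exact odd_PS (E := stdEven T) (Iso.refl _) H.odd l _
  rw [h1, map_zero]

/-- **The homotopy of `K ⊗ P`.** -/
theorem exists_Theta [Fact p.Prime] (hn : 1 ≤ n) (A : Type*) [CommRing A]
    [Algebra (Polynomial (ZMod p)) A]
    [IsLocalization.Away (Polynomial.X : Polynomial (ZMod p)) A] :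
    ∃ (χ : HRing (stdEven T) D.R →+* A) (Θ : MvPolynomial ℕ A →+ (𝟙_ T ⟶ K ⊗ D.P)),
      Function.Bijective Θ ∧
      (∀ z y, Θ (MvPolynomial.map χ z * y) = Θ y ≫ (sigB D M z : _ ⟶ _)) ∧
      (∀ i < n, χ (vv p i D.law) = 0) ∧
      χ (vv p n D.law) = algebraMap (Polynomial (ZMod p)) A Polynomial.X := by
  obtain ⟨χ, θ, hθ, hχ, hX⟩ := H.exists_chi hn A
  have := isIso_fB M hU
  obtain ⟨Θ, hΘ, hz⟩ := T3.exists_Theta (M := HM (sigP (stdEven T) M) (𝟙_ T))
    (Y := HM (sigB D M) (𝟙_ T)) (pc (𝟙_ T) (jP (stdEven T) K D.R))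
    (fun r x => comp_smul_aux _ _ _ (jP_sigB D M r) x) (fun a => pc (𝟙_ T) (fB D M a))
    (fun a x => (Category.assoc _ _ _).symm) (bij_sum' (fB D M) isSphere_unit) χ θ hθ hχ
  refine ⟨χ, Θ, hΘ, hz, fun i hi => hθ.1 ?_, hX⟩
  have h1 := hχ (vv p i D.law) 1
  rw [_root_.mul_one] at h1
  rw [h1, map_zero, HM.smul_def, H.sigP_low hi]
  exact comp_zero

variable {C : T} {i : 𝟙_ T ⟶ C} {δ : C ⟶ (𝟙_ T)⟦(1 : ℤ)⟧} [Fact p.Prime] (hp : MUAt D p)
  (hC : Triangle.mk ((p : ℤ) • 𝟙 (𝟙_ T)) i δ ∈ distTriang T)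

include hp hC

/-- the good map at the unit -/
theorem exists_goodMap_one (hn : 1 ≤ n) : ∃ g0 : Small (kdeg p n) → (𝟙_ T ⟶ K ⊗ D.P),
    GoodMap n (fun j => pc (𝟙_ T) (vP (D.vs p) j)) (pc (𝟙_ T) (K ◁ vP (D.vs p) n))
      (fun e => pc (𝟙_ T) (mulEl (g0 e))) := by
  obtain ⟨χ, Θ, hΘ, hz, h0, hX⟩ := H.exists_Theta hU hn
    (Localization.Away (Polynomial.X : Polynomial (ZMod p)))
  let ε := RingEquiv.ofBijective (epsR D) (epsR_bijective hU)
  let ρ₀ : HRing (stdEven T) D.R →+* MvPolynomial ℕ (HRing (stdEven T) D.R) :=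
    (ε.symm : _ →+* _).comp (HRing.map (E := stdEven T) (inrM D.R D.R))
  have hρ₀ : ∀ x, epsR D (ρ₀ x) = HRing.map (E := stdEven T) (inrM D.R D.R) x := fun x =>
    ε.apply_symm_apply _
  have hlaw : D.law.map ρ₀ = bL D.law := by
    have h1 : (ε.symm : _ →+* _).comp (epsR D) = RingHom.id _ :=
      RingHom.ext fun z => ε.symm_apply_apply z
    rw [← Law.map_map, law_inrR, Law.map_map, h1, Law.map_id]
  have hρ : ∀ x y, Θ (MvPolynomial.map χ (ρ₀ x) * y) =
      Θ y ≫ K ◁ (ModStr.self D.P).smul (sharpHom D.R x) := fun x y => by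
    rw [hz, ← tauP_inr D M, ← hρ₀]
    rfl
  have G := goodMap_ring (p := p) (h := n) (by omega) (D.law.map χ)
    (fun i hi => by rw [vv_map, h0 i hi]) (by rw [vv_map, hX]) D.law (RingHom.id _)
    Function.bijective_id ((MvPolynomial.map χ).comp ρ₀)
    (by rw [← Law.map_map, hlaw, bL_map, Law.map_id]) (exists_L0_addAt D hp hC)
  refine ⟨fun e => Θ (MvPolynomial.monomial (e : ℕ →₀ ℕ) 1), ?_⟩
  refine G.congr (fun j l x => by simp only [mulA_apply]; ring)
    (sharpTot (stdEven T) D.R) (sharpTot_bijective D.R) Θ hΘ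
    (fun j x => ?_) (fun x => ?_) (fun s x => ?_)
  · have h1 : sharpEquiv (stdEven T) D.R (vv p j D.law * x) =
        Sc.of (D.vs p j) * sharpEquiv (stdEven T) D.R x := by
      rw [map_mul, sharpHom_vv]
    exact h1.trans (scMul_eq_smul (R := D.P) (D.vs p j) _)
  · refine (hρ _ x).trans ?_
    rw [D.vel_spec, sharpHom_of]
    rfl
  · refine (comp_mulEl' _ _).trans ?_
    refine Eq.trans ?_ (congrArg Θ (mul_comm _ _))
    exact (hρ x _).symm

/-- the good map at all spheres, from the unit -/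
theorem goodMap_of_one (hn : 1 ≤ n) {I : Type}
    {φ : I → (D.P ⟶ K ⊗ D.P)} (hφ : ∀ e, Lin (φ e))
    (G : GoodMap n (fun j => pc (𝟙_ T) (vP (D.vs p) j)) (pc (𝟙_ T) (K ◁ vP (D.vs p) n))
      (fun e => pc (𝟙_ T) (φ e))) (A : T) (hA : IsSphere A) :
    GoodMap n (fun j => pc A (vP (D.vs p) j)) (pc A (K ◁ vP (D.vs p) n))
      (fun e => pc A (φ e)) := by
  rcases sphere_cases (E := stdEven T) (Iso.refl _) hA with ⟨m, ⟨a⟩⟩ | ⟨l, ⟨a⟩⟩
  · obtain ⟨y, hy', hy⟩ := exists_twist (stdEven T) D.R m a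
    exact G.quot (twP y) hy.2 (fun k x => twP_vP y (D.vs p) k x) (twY K y) (hy' K)
      (fun g0 => twY_v K y (D.vs p n) g0) (fun e x => twY_lin y (hφ e) x)
  · have h1 : ∀ x : A ⟶ K ⊗ D.P, x = 0 := odd_of_iso a (H.odd_P hU)
    have h0 : vP (D.vs p) 0 = (p : ℤ) • 𝟙 D.P := vP_zero (D.invData p 1)
    refine ⟨fun e x => ?_, fun y => ⟨0, 0, ?_⟩, fun x _ e => ⟨0, ?_⟩⟩
    · rw [h1 (pc A (φ e) _), h1 (pc A (K ◁ vP (D.vs p) n) _)]
    · rw [h1 y]
      simp
    · obtain ⟨y, hy⟩ := P_divisible_oddAt D hp hC (n := 2 * l + 1) ⟨l, rfl⟩ (a.inv ≫ x e)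
      have h2 : (x e : A ⟶ D.P) = pc A (vP (D.vs p) 0) (a.hom ≫ y) := by
        rw [pc_apply, h0, Preadditive.comp_zsmul, Category.comp_id, ← Preadditive.comp_zsmul, hy,
          Iso.hom_inv_id_assoc]
      change (x e : A ⟶ D.P) ∈ _
      rw [h2]
      exact apply_mem_VI (fun j => pc A (vP (D.vs p) j)) hn _

omit hC in
/-- **Comparison (b)** for modules. -/
theorem kos_of_acyclic (hn : 1 ≤ n) (Z : KosData D.P (p : ℤ) n (D.vs p)) {W : T}
    (hW : Acyclic K W) : Acyclic Z.K W := by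
  obtain ⟨C, i, δ, hC⟩ := distinguished_cocone_triangle ((p : ℤ) • 𝟙 (𝟙_ T))
  obtain ⟨b', -, -⟩ := hU.basis
  obtain ⟨J, f, hf, hf'⟩ := exists_free_of_basis (E := stdEven T) (GBasis.ofAm b')
  have hI : Nonempty (Small (kdeg p n)) :=
    ⟨⟨0, fun j => by simpa using kdeg_pos (Fact.out : p.Prime).ne_zero n j⟩⟩
  obtain ⟨g0, hg0⟩ := H.exists_goodMap_one hU hp hC hn
  have hR : RevData D.P (p : ℤ) n (D.vs p) K (fun e => mulEl (g0 e)) f :=
    { inv := D.invData p n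
      char := H.char hn
      zero := fun j _ hj => H.vP_low hU hj
      unit := H.vP_top hU
      linφ := fun e => lin_mulEl _
      linf := hf
      free := hf'
      reg := fun A hA => goodReg_PAt D hp hC n A hA
      map := H.goodMap_of_one hU hp hC hn (fun e => lin_mulEl _) hg0 }
  exact hR.acyclic Z hW

omit hC in
/-- **The comparison** of `K` with the Koszul object of height `n`. -/
theorem acyclic_iff (hn : 1 ≤ n) (Z : KosData D.P (p : ℤ) n (D.vs p)) (W : T) :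
    Acyclic K W ↔ Acyclic Z.K W :=
  ⟨H.kos_of_acyclic hU hp hn Z, H.acyclic_of_kos hn Z⟩

end KMod

end Vale.Agent.P261Z.T3
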