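import Vale.Agent.P261Z.T3.GTop
import Vale.Agent.P261Z.D.Nd
import Vale.Agent.P261Z.D.Step
import Vale.Agent.P261Z.D.Cup
import Vale.Agent.P261Z.D.Tr
import Vale.Agent.P261Z.D.Kos
import Vale.Agent.P261Z.D.Unif

/-!
# P261, T3: Poincare duality relative to the class `Cl`, at every prime
-/

set_option linter.unusedSectionVars false

namespace Vale.Agent.P261Z.T3

open Vale.Agent.P251 Vale.Agent.P251.C Vale.Agent.P261Z.D Vale.Agent.P261Z.D.NdH

section pd

variable {G : Type} [Group G] {p : ℕ} (χ : G →* (ZMod p)ˣ) {E A B : Type}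
  [AddCommGroup E] [DistribMulAction G E] [AddCommGroup A] [DistribMulAction G A]
  [AddCommGroup B] [DistribMulAction G B]

/-- the pairing with values in the dual of the operators -/
def bp (act : E →+ A →+ B) : A →+ Dl χ B →+ Dl χ E :=
  AddMonoidHom.mk' (fun m => AddMonoidHom.mk'
    (fun y => (Dl.val χ E).symm ((Dl.val χ B y).comp (act.flip m))) fun _ _ => rfl)
    fun m m' => AddMonoidHom.ext fun y => Dl.ext χ fun a =>
      (congrArg (Dl.val χ B y) (map_add (act a) m m')).trans (map_add _ _ _)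

theorem bp_smul {act : E →+ A →+ B} (h : ∀ (g : G) a m, act (g • a) (g • m) = g • act a m) (g : G)
    (m : A) (y : Dl χ B) : bp χ act (g • m) (g • y) = g • bp χ act m y := Dl.ext χ fun a => by
  change (χ g : ZMod p) * Dl.val χ B y (g⁻¹ • act a (g • m)) =
    (χ g : ZMod p) * Dl.val χ B y (act (g⁻¹ • a) m)
  rw [← h, inv_smul_smul]

/-- evaluation at an invariant element -/
def evo {o : E} (ho : ∀ g : G, g • o = o) : Dl χ E →+[G] Tw χ where
  toFun φ := (Tw.val χ).symm (Dl.val χ E φ o)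
  map_smul' g φ := congrArg (fun x => (χ g : ZMod p) * Dl.val χ E φ x) (ho g⁻¹)
  map_zero' := rfl
  map_add' _ _ := rfl

/-- operators on functions -/
def actF (X : Type) (act : E →+ A →+ A) : E →+ Fn X A →+ Fn X A :=
  AddMonoidHom.mk' (fun a => AddMonoidHom.mk' (fun f => Fn.mk fun x => act a (f x))
    fun _ _ => Fn.ext fun _ => map_add (act a) _ _)
    fun a a' => AddMonoidHom.ext fun f => Fn.ext fun x =>
      DFunLike.congr_fun (map_add act a a') (f x)

/-- operators on a kernel -/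
def actK (t : B →+[G] A) (act : E →+ B →+ B) (h : ∀ a b, t b = 0 → t (act a b) = 0) :
    E →+ Ker t →+ Ker t :=
  AddMonoidHom.mk' (fun a => AddMonoidHom.mk'
    (fun k => (⟨act a (Ker.inc t k), h _ _ (Ker.map_inc t k)⟩ : (t : B →+ A).ker))
    fun _ _ => Ker.inc_injective t (map_add (act a) _ _))
    fun a a' => AddMonoidHom.ext fun _ => Ker.inc_injective t
      (DFunLike.congr_fun (map_add act a a') _)

theorem hm_act (g : G) (a : Hm G A B) (m : A) :
    (Hm.val G A B).toAddMonoidHom (g • a) (g • m) = g • (Hm.val G A B).toAddMonoidHom a m :=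
  congrArg (fun x => g • Hm.val G A B a x) (inv_smul_smul g m)

theorem hm_inv (u : A →+[G] B) (g : G) :
    g • (Hm.val G A B).symm (u : A →+ B) = (Hm.val G A B).symm (u : A →+ B) :=
  Hm.ext fun a => (map_smul u g _).symm.trans (congrArg u (smul_inv_smul g a))

variable [TopologicalSpace G]

/-- Poincare duality on the class: if the transpose `w` of `u` is zero on `H^b`, then `u` is zero
on `H^s`, `s + b = d`. -/
def PDMc {p : ℕ} (d : ℕ) (χ : G →* (ZMod p)ˣ) : Prop :=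
  ∀ (M' M D D' : Type) [AddCommGroup M'] [DistribMulAction G M'] [AddCommGroup M]
    [DistribMulAction G M] [AddCommGroup D] [DistribMulAction G D] [AddCommGroup D']
    [DistribMulAction G D'] [DiscMod G M] [Finite M] [DiscMod G M'] [Finite M'],
    (∀ m : M, p • m = 0) → Cl p G M → Cl p G M' →
    ∀ (β : M →+ D →+ ZMod p) (β' : M' →+ D' →+ ZMod p),
    (∀ (g : G) m y, β (g • m) (g • y) = (χ g : ZMod p) * β m y) →
    (∀ (g : G) m y, β' (g • m) (g • y) = (χ g : ZMod p) * β' m y) →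
    Function.Bijective β.flip →
    ∀ (u : M' →+[G] M) (w : D →+[G] D'), (∀ m y, β' m (w y) = β (u m) y) →
    ∀ s b : ℕ, s + b = d → HZ G b w → HZ G s u

variable [IsTopologicalGroup G] [Fact p.Prime] {χ} {d : ℕ} {V : Subgroup G} [V.Normal]
  [Finite (G ⧸ V)]

theorem ndgc (hχ : IsOpen (χ.ker : Set G)) (hcd : CDc G p d) (hV : IsOpen (V : Set G))
    (hR : Rho G (Tw χ) V d) (hB : Basec G d χ V) (hL : LowM G p d) [Finite E] [DiscMod G E]
    (cE : Cl p G E) {o : E} (ho : ∀ g : G, g • o = o) (b : ℕ) :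
    ∀ (s : ℕ) (h : s + b = d) (M : Type) [AddCommGroup M] [DistribMulAction G M]
      [DiscMod G M] [Finite M], (∀ m : M, p • m = 0) → Cl p G M → ∀ act : E →+ M →+ M,
      (∀ (g : G) a m, act (g • a) (g • m) = g • act a m) → (∀ m, act o m = m) → ∀ F ∈ ZZ G M s,
      (∀ Z ∈ ZZ G (Dl χ M) b, cup (bp χ act) h F Z ∈ TrZ V (evo χ ho) d) → F ∈ BB G M s := by
  have := discMod_Dl (M := E) χ hχ
  induction b with
  | zero =>
    intro s h M _ _ _ _ hM cM act h1 h2 F hF k
    obtain rfl : s = d := h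
    refine hB M hM cM F hF fun φ => ?_
    let y := (Dl.val χ M).symm ((Tw.val χ).toAddMonoidHom.comp (φ : M →+ Tw χ))
    have hy : ∀ g : G, g • y = y := fun g => Dl.ext χ fun m => congrArg (Tw.val χ)
      ((map_smul φ g _).symm.trans (congrArg φ (smul_inv_smul g m)))
    let j : M →+[G] Dl χ E :=
      { toFun := fun m => bp χ act m y
        map_smul' := fun g m => (congrArg _ (hy g).symm).trans (bp_smul χ h1 g m y)
        map_zero' := map_zero ((bp χ act).flip y)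
        map_add' := map_add ((bp χ act).flip y) }
    exact TrZ.reflect hcd hM cM (Dl.nsmul_eq_zero χ) (cE.dl χ) hV hR j
      (fun m => congrArg φ (h2 m)) hF (k _ (const_mem_ZZ hy))
  | succ b ih =>
    intro s h M _ _ _ _ hM cM act a1 a2 F hF k
    obtain ⟨U, _, hU, _, hz⟩ := hL s (by omega) M hM
    have := discMod_FnQ (M := M) hU
    have := discMod_Dl (M := Fn (G ⧸ U) M) χ hχ
    have h1 := Fn.nsmul_eq_zero (X := G ⧸ U) hM
    have h2 := tot_surjective (G := G) (X := G ⧸ U) (M := M)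
    have a3 : ∀ a f, tot G (G ⧸ U) M (actF _ act a f) = act a (tot G (G ⧸ U) M f) := fun a f => by
      have := Fintype.ofFinite (G ⧸ U)
      rw [tot_apply, tot_apply, map_sum]
      rfl
    have a4 : ∀ (g : G) a (f : Fn (G ⧸ U) M), actF _ act (g • a) (g • f) = g • actF _ act a f :=
      fun g a f => Fn.ext fun x => a1 g a _
    have a5 : ∀ f : Fn (G ⧸ U) M, actF _ act o f = f := fun f => Fn.ext fun x => a2 _
    have cF : Cl p G (Fn (G ⧸ U) M) := cM.fn
    generalize tot G (G ⧸ U) M = t at hz h2 a3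
    generalize actF (G ⧸ U) act = aB at a3 a4 a5
    have h3 := Ker.nsmul_eq_zero t h1
    obtain ⟨Y, hY, rfl, F₁, h4, e⟩ :=
      exists_delta (Ker.inc t) t (Ker.inc_injective t) h2 (Ker.exact t) hF
    obtain ⟨X, hX, rfl⟩ := ih (s + 1) (by omega) (Ker t) h3 (cF.ker cM h1 t h2)
      (actK t aB fun a b hb => by rw [a3, hb, map_zero])
      (fun g a m => Ker.inc_injective t (a4 g a _)) (fun m => Ker.inc_injective t (a5 _)) F₁ h4
      fun Z hZ => by
      obtain ⟨W, hW, rfl, Z₁, h5, e'⟩ := exists_delta (dl χ t) (dl χ (Ker.inc t)) (dl_inj χ h2)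
        (dl_surj χ (Ker.inc_injective t) h3 h1) (dl_ex χ h2 (Ker.exact t)) hZ
      obtain rfl : d = s + b + 1 := h.symm
      have k' := TrZ.of_bb (V := V) (evo χ ho) (dd_mem_BB (coch (bp_smul χ a4) rfl hY hW))
      rw [cup_dd, ← e, ← e',
        show cup (bp χ aB) _ Y (dl χ t ∘ Z₁) = cup (bp χ act) h (t ∘ Y) Z₁ from
        funext fun x => Dl.ext χ fun a => congrArg (Dl.val χ M _) (a3 a _)] at k'
      exact (add_mem_cancel_right (zsmul_mem (k Z₁ h5) _)).1 k'
    have h6 := hz (Y - Ker.inc t ∘ X)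
      ⟨hY.sub (hX.map _), by rw [dd_sub, dd_comp_G, e, sub_self]⟩
    rwa [comp_sub_G, show t ∘ Ker.inc t ∘ X = 0 from funext fun x => Ker.map_inc t _,
      sub_zero] at h6

/-- composition with an equivariant map, on the left -/
def hmL {A B C : Type} [AddCommGroup A] [DistribMulAction G A] [AddCommGroup B]
    [DistribMulAction G B] [AddCommGroup C] [DistribMulAction G C] (u : B →+[G] C) :
    Hm G A B →+[G] Hm G A C where
  toFun f := (Hm.val G A C).symm ((u : B →+ C).comp (Hm.val G A B f))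
  map_smul' g _ := Hm.ext fun _ => map_smul u g _
  map_zero' := Hm.ext fun _ => map_zero u
  map_add' _ _ := Hm.ext fun _ => map_add u _ _

/-- composition with an equivariant map, on the right -/
def hmR {A B C : Type} [AddCommGroup A] [DistribMulAction G A] [AddCommGroup B]
    [DistribMulAction G B] [AddCommGroup C] [DistribMulAction G C] (u : A →+[G] B) :
    Hm G B C →+[G] Hm G A C where
  toFun f := (Hm.val G A C).symm ((Hm.val G B C f).comp (u : A →+ B))
  map_smul' g f := Hm.ext fun a =>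
    congrArg (fun x => g • Hm.val G B C f x) (map_smul u g⁻¹ a).symm
  map_zero' := rfl
  map_add' _ _ := rfl

theorem pdmc (hχ : IsOpen (χ.ker : Set G)) (hcd : CDc G p d) (hV : IsOpen (V : Set G))
    (hR : Rho G (Tw χ) V d) (hB : Basec G d χ V) (hL : LowM G p d) : PDMc d χ := by
  intro M' M D D' _ _ _ _ _ _ _ _ _ _ _ _ hM cM cM' β β' hβ hβ' hb u w e s b h hw F hF
  have := discMod_Hm (G := G) (A := M) (B := M)
  have := discMod_Hm (G := G) (A := M') (B := M)
  have := discMod_Hm (G := G) (A := M') (B := M')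
  have := discMod_Dl (M := Hm G M' M) χ hχ
  have := discMod_Dl (M := Hm G M' M') χ hχ
  refine ndgc hχ hcd hV hR hB hL cM.hm (hm_inv (DistribMulActionHom.id G)) b s h M hM cM
    (Hm.val G M M).toAddMonoidHom hm_act (fun _ => rfl) _ (ZZ.map hF u) fun Z hZ => ?_
  let j : D →+[G] Dl χ M :=
    { toFun := fun y => (Dl.val χ M).symm (β.flip y)
      map_smul' := fun g y => Dl.ext χ fun m =>
        (congrArg (fun x => β x (g • y)) (smul_inv_smul g m).symm).trans (hβ g _ y)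
      map_zero' := map_zero β.flip
      map_add' := map_add β.flip }
  let j' : D' →+[G] Dl χ M' :=
    { toFun := fun y => (Dl.val χ M').symm (β'.flip y)
      map_smul' := fun g y => Dl.ext χ fun m =>
        (congrArg (fun x => β' x (g • y)) (smul_inv_smul g m).symm).trans (hβ' g _ y)
      map_zero' := map_zero β'.flip
      map_add' := map_add β'.flip }
  obtain ⟨Z₀, h1, h2⟩ := IsCoch.of_inj j hb.1 hZ.1 fun x => hb.2 _
  obtain rfl : j ∘ Z₀ = Z := funext h2
  have h3 := cup_bb cup_dd (bp_smul χ (hm_act (A := M') (B := M'))) h hF (BB.map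
    (hw Z₀ ⟨h1, funext fun x => hb.1
      ((congrFun ((dd_comp_G j Z₀).symm.trans hZ.2) x).trans (map_zero β.flip).symm)⟩) j')
  have h4 : cup (bp χ (Hm.val G M' M).toAddMonoidHom) h F (j ∘ Z₀) ∈ ZZ G _ d := by
    refine ⟨coch (bp_smul χ hm_act) h hF.1 hZ.1, ?_⟩
    rw [cup_dd, hF.2, hZ.2]
    funext x
    simp [cup]
  refine TrZ.map (φ := evo χ (hm_inv u)) (dl χ (hmR u)) (fun _ => rfl)
    (TrZ.reflect hcd (Dl.nsmul_eq_zero χ) (cM.hm.dl χ) (Dl.nsmul_eq_zero χ) (cM'.hm.dl χ) hV hR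
      (φ' := evo χ (hm_inv (DistribMulActionHom.id G))) (dl χ (hmL u)) (fun _ => rfl) h4
      (TrZ.of_bb _ ?_))
  rwa [show cup (bp χ (Hm.val G M' M').toAddMonoidHom) h F (j' ∘ w ∘ Z₀) =
    dl χ (hmL u) ∘ cup (bp χ (Hm.val G M' M).toAddMonoidHom) h F (j ∘ Z₀) from
    funext fun x => Dl.ext χ fun a => e _ _] at h3

end pd

/-- **Finiteness and Poincare duality on the class `Cl`, at every prime.** -/
theorem pdallc {p d : ℕ} [Fact p.Prime] {G : Type} [Group G] [TopologicalSpace G]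
    [IsTopologicalGroup G] [CompactSpace G] [T2Space G] [TotallyDisconnectedSpace G]
    (V : I.VirtUnif p d G) (hV : IsUnifS p d V.U) :
    FinG G p ∧ ∃ χ : G →* (ZMod p)ˣ, (∀ g ∈ V.S, χ g = 1) ∧ PDMc d χ := by
  have := V.U_normal
  have hUc : CompactSpace V.U :=
    isCompact_iff_compactSpace.1 (Subgroup.isClosed_of_isOpen V.U V.isOpen).isCompact
  obtain ⟨D, hD1, hD2⟩ := exists_npDataS hV
  have hD : D.IsTop := ⟨hD1, hD2⟩
  obtain ⟨Φ, hΦ⟩ := D.exists_good d
  have hΦ' := tr p d V.U D Φ (fun M => Subgroup.quotient_finite_of_isOpen _ (hD1 M)) hΦ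
  obtain ⟨k1, k2⟩ := kos p d V.U D Φ hD hΦ hΦ'
  obtain ⟨u1, u2, u3⟩ := unif p d V.U D Φ hD hΦ k1 k2
  obtain ⟨g1, g2, g3⟩ := glb sh p d G V.U V.isOpen
  have hcd : CDc G p d := fun M _ _ _ => hZero_cl V hV (d + 1) (Nat.lt_succ_self d) M
  obtain ⟨χ, hχ, W, _, _, hW, hR, hB⟩ := topc V.isOpen hV.tf hcd (g2 u2)
  refine ⟨g1 u1, χ, fun g hg => ?_, pdmc hχ hcd hW hR hB (low p d G V.U V.isOpen (g3 u3))⟩
  obtain ⟨k, hk⟩ := V.relIndex
  obtain ⟨B, e, he, hB⟩ := hV.exists
  have h1 : g ^ p ^ k ∈ V.U := hk ▸ V.U.pow_relIndex_mem hg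
  obtain ⟨l, hl⟩ := Unif.exists_lev_subset he (V := Subtype.val ⁻¹' (χ.ker : Set G))
    ((hχ.preimage continuous_subtype_val).mem_nhds χ.ker.one_mem)
  have h2 : χ ((g ^ p ^ k) ^ p ^ l) = 1 :=
    hl (pow_pow_memS he (fun _ _ => e_pow_pS he hB) ⟨_, h1⟩ l)
  rw [← pow_mul, ← pow_add, map_pow] at h2
  refine Units.ext ?_
  simpa only [Units.val_pow_eq_pow_val, ZMod.pow_card_pow] using congrArg Units.val h2

/-- The tower step: `M i k` is the module of weight number `i` at level `k`, `M' i k` its quotient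
by `v`, `D i k` the dual module. -/
def STEPc : Prop :=
  ∀ (p d : ℕ) (G : Type) [Group G] [TopologicalSpace G] [IsTopologicalGroup G]
    (χ : G →* (ZMod p)ˣ), PDMc d χ → FinG G p →
    ∀ (M M' D : ℕ → ℕ → Type) [∀ i k, AddCommGroup (M i k)] [∀ i k, DistribMulAction G (M i k)]
      [∀ i k, AddCommGroup (M' i k)] [∀ i k, DistribMulAction G (M' i k)]
      [∀ i k, AddCommGroup (D i k)] [∀ i k, DistribMulAction G (D i k)]
      [∀ i k, DiscMod G (M i k)] [∀ i k, Finite (M i k)]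
      [∀ i k, DiscMod G (D i k)] [∀ i k, Finite (D i k)],
      (∀ i k (m : M i k), p • m = 0) → (∀ i k, Cl p G (M i k)) →
      (∀ i k (y : D i k), p • y = 0) →
    ∀ (r : ∀ i {k k' : ℕ}, k ≤ k' → M i k' →+[G] M i k)
      (r' : ∀ i {k k' : ℕ}, k ≤ k' → M' i k' →+[G] M' i k)
      (π : ∀ i k, M i k →+[G] M' i k) (v : ∀ i k, M (i + 1) k →+[G] M i k)
      (V : ∀ A k, M A k →+[G] M 0 k)
      (ι : ∀ i {k k' : ℕ}, k ≤ k' → D i k →+[G] D i k') (W : ∀ A k, D 0 k →+[G] D A k)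
      (β : ∀ i k, M i k →+ D i k →+ ZMod p),
      (∀ i k k' k'' (h : k ≤ k') (h' : k' ≤ k'') x, r i h (r i h' x) = r i (h.trans h') x) →
      (∀ i k k' (h : k ≤ k') x, π i k (r i h x) = r' i h (π i k' x)) →
      (∀ i k k' (h : k ≤ k') x, v i k (r (i + 1) h x) = r i h (v i k' x)) →
      (∀ i k, Function.Surjective (π i k)) →
      (∀ i k x, π i k x = 0 → ∃ y, v i k y = x) →
      (∀ i k y, v i (k + 1) y = 0 → r (i + 1) (Nat.le_succ k) y = 0) →
      (∀ k x, V 0 k x = x) → (∀ A k x, V (A + 1) k x = V A k (v A k x)) →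
      (∀ i k k' k'' (h : k ≤ k') (h' : k' ≤ k'') y, ι i h' (ι i h y) = ι i (h.trans h') y) →
      (∀ i k (g : G) m y, β i k (g • m) (g • y) = (χ g : ZMod p) * β i k m y) →
      (∀ k, Function.Bijective (β 0 k).flip) →
      (∀ A k k' (h : k ≤ k') m y, β A k' m (ι A h (W A k y)) = β 0 k (V A k (r A h m)) y) →
    ∀ s b : ℕ, s + b = d →
      (∃ A, ∀ k, ∀ Z ∈ ZZ G (D 0 k) b, ∃ k', ∃ h : k ≤ k',
        (fun y => ι A h (W A k y)) ∘ Z ∈ BB G (D A k') b) →
      (∀ i, PF G s (M' i) fun h => r' i h) → PF G s (M 0) fun h => r 0 h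

theorem stepc : STEPc := by
  intro p d G _ _ _ χ hPD hF M M' D _ _ _ _ _ _ _ _ _ _ hM hC hD r r' π v V ι W β rr πr vr πs πk vi
    V0 Vs ιι βs βb βa s b hsb ⟨A, hA⟩ hP
  have key := Step.down (P := fun i => ∃ n, ∀ k, ∃ k', ∃ h : k ≤ k',
    Bd G s ((V i k).comp (r i h)) n) ?_ A ⟨1, fun k => ?_⟩
  · obtain ⟨n, hn⟩ := key
    refine ⟨n, fun k => ?_⟩
    obtain ⟨k', h, h1⟩ := hn k
    refine ⟨k', h, ?_⟩
    rwa [show ⇑((V 0 k).comp (r 0 h)) = r 0 h from funext fun x => V0 k _] at h1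
  · rintro i ⟨n₁, h₁⟩
    obtain ⟨n₂, h₂⟩ := hP i
    refine ⟨n₂ * n₁, fun k => ?_⟩
    obtain ⟨k₀, e₀, S, hS, hS'⟩ := h₁ k
    obtain ⟨k₂, e₂, hB⟩ := h₂ (k₀ + 1)
    have e₁ : k ≤ k₀ + 1 := e₀.trans (Nat.le_succ k₀)
    refine ⟨k₂, e₁.trans e₂, Bd.of_ker ((r' i e₂).comp (π i k₂)) _ (hB.comp_right (π i k₂)) S hS
      fun F hF0 h0 => ?_⟩
    obtain ⟨X, hX, Y, h1, h2⟩ := Step.mid (v i (k₀ + 1)) (π i (k₀ + 1))
      (r (i + 1) (Nat.le_succ k₀)) (vi i k₀) (πs i _) (πk i _) (ZZ.map hF0 (r i e₂))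
      (by convert h0 using 1; exact funext fun x => πr i _ _ e₂ _)
    obtain ⟨z, hz, h3⟩ := hS' _ h2
    refine ⟨z, hz, ?_⟩
    convert add_mem h3 (BB.map hX ((V i k).comp (r i e₁))) using 1
    funext x
    have h4 : v i (k₀ + 1) (Y x) = r i e₂ (F x) - X x := congrFun h1 x
    change V i k (r i _ (F x)) - z x =
      V (i + 1) k (r (i + 1) e₀ (r (i + 1) _ (Y x))) - z x + V i k (r i e₁ (X x))
    rw [rr, Vs, vr, h4, map_sub, map_sub, rr]
    abel
  · obtain ⟨n, hn⟩ := hF (D 0 k) (hD 0 k) b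
    obtain ⟨S, -, h1, h2⟩ := hn.reps
    choose! c hc hc' using hA k
    have e : k ≤ max k (S.sup c) := le_max_left _ _
    refine ⟨_, e, HZ.bd (hPD _ _ _ _ (hM 0 k) (hC 0 k) (hC A _) (β 0 k) (β A _) (βs 0 k) (βs A _) (βb k)
      ((V A k).comp (r A e)) ((ι A e).comp (W A k)) (βa A k _ e) s b hsb fun Z hZ => ?_)⟩
    obtain ⟨z, hz, h3⟩ := h2 Z hZ
    have e' : c z ≤ max k (S.sup c) := (Finset.le_sup hz).trans (le_max_right _ _)
    convert add_mem (BB.map h3 ((ι A e).comp (W A k))) (BB.map (hc' z (h1 z hz)) (ι A e'))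
      using 1
    funext x
    change ι A e (W A k (Z x)) = ι A e (W A k (Z x - z x)) + ι A e' (ι A _ (W A k (z x)))
    rw [ιι, map_sub, map_sub, sub_add_cancel]

end Vale.Agent.P261Z.T3
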