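import Vale.Agent.P261Z.T3.GIter
import Vale.Agent.P261Z.D.Glb
import Vale.Agent.P261Z.D.Sh

/-!
# P261, T3: modules which are projective over the finite `p`-subgroups

`Cl p G M` is Higman's condition for the identity of `M`. Closure properties of the class, and the
vanishing of the cohomology above the dimension on the class.
-/

set_option linter.unusedSectionVars false

namespace Vale.Agent.P261Z.T3

open Vale.Agent.P251 Vale.Agent.P251.C Vale.Agent.P251.I Vale.Agent.P261Z.D

/-- `M` is projective over the finite `p`-subgroups of `G`. -/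
def Cl (p : ℕ) (G M : Type) [Group G] [AddCommGroup M] [DistribMulAction G M] : Prop :=
  ∀ (P : Subgroup G) [Fintype P], IsPGroup p P →
    ∃ θ : M →+ M, ∀ m, ∑ g : P, (g : G) • θ ((g : G)⁻¹ • m) = m

/-- Additive maps with the action by conjugation. -/
def Hm (_G A B : Type) [AddCommGroup A] [AddCommGroup B] : Type := A →+ B

section cl

variable {p : ℕ} {G : Type} [Group G] {A B C X : Type} [AddCommGroup A] [DistribMulAction G A]
  [AddCommGroup B] [DistribMulAction G B] [AddCommGroup C] [DistribMulAction G C] [MulAction G X]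

theorem cl_iff : Cl p G A ↔ Hig p G (id : A → A) := by
  refine ⟨fun h P _ hP => ?_, fun h P _ hP => ?_⟩
  · have := Fintype.ofFinite P
    simpa only [HigAt, finsum_eq_sum_of_fintype, id] using h P hP
  · simpa only [HigAt, finsum_eq_sum_of_fintype, id] using h P inferInstance hP

/-- no elements of order `p` -/
theorem Cl.of_free [Fact p.Prime] (hno : ∀ g : G, g ^ p = 1 → g = 1) : Cl p G A := fun P _ hP => by
  have h : ∀ g : P, g = 1 := fun g => by
    obtain ⟨k, hk⟩ := hP g
    induction k generalizing g with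
    | zero => rwa [pow_zero, pow_one] at hk
    | succ k ih =>
      rw [pow_succ', pow_mul] at hk
      exact Subtype.ext (hno _ (congrArg Subtype.val (ih _ hk)))
  refine ⟨AddMonoidHom.id A, fun m => ?_⟩
  rw [Finset.sum_eq_single 1 (fun g _ hg => absurd (h g) hg)
    (fun h => absurd (Finset.mem_univ _) h)]
  simp

/-- retracts -/
theorem Cl.retract (h : Cl p G A) (i : B →+[G] A) (r : A →+[G] B) (e : ∀ b, r (i b) = b) :
    Cl p G B := fun P _ hP => by
  obtain ⟨θ, hθ⟩ := h P hP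
  refine ⟨(r : A →+ B).comp (θ.comp (i : B →+ A)), fun m => ?_⟩
  conv_rhs => rw [← e m, ← hθ (i m), map_sum]
  refine Finset.sum_congr rfl fun g _ => ?_
  rw [map_smul r, ← map_smul i]
  rfl

theorem Cl.fn (h : Cl p G A) : Cl p G (Fn X A) := fun P _ hP => by
  obtain ⟨θ, hθ⟩ := h P hP
  refine ⟨⟨⟨fun f => Fn.mk fun x => θ (f x), Fn.ext fun _ => map_zero θ⟩,
    fun f f' => Fn.ext fun x => map_add θ _ _⟩, fun f => Fn.ext fun x => ?_⟩
  rw [Fn.sum_apply, ← hθ (f x)]
  refine Finset.sum_congr rfl fun g _ => ?_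
  change (g : G) • θ ((g : G)⁻¹ • f ((g : G)⁻¹⁻¹ • (g : G)⁻¹ • x)) = _
  rw [inv_smul_smul]

theorem Cl.pi {ι : Type} (h : Cl p G A) : Cl p G (ι → A) := fun P _ hP => by
  obtain ⟨θ, hθ⟩ := h P hP
  refine ⟨θ.compLeft ι, fun f => funext fun x => ?_⟩
  rw [Finset.sum_apply, ← hθ (f x)]
  rfl

/-- functions on a set on which the finite `p`-subgroups act freely -/
theorem Cl.free (h : ∀ (P : Subgroup G) [Fintype P], IsPGroup p P → ∀ (g : P) (x : X),
    (g : G) • x = x → g = 1) : Cl p G (Fn X A) := fun P _ hP => by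
  classical
  let o : X → X := fun x => (Quotient.mk (MulAction.orbitRel P X) x).out
  refine ⟨⟨⟨fun f => Fn.mk fun x => if o x = x then f x else 0, Fn.ext fun _ => ite_self _⟩,
    fun f f' => Fn.ext fun x => ?_⟩, fun f => Fn.ext fun x => ?_⟩
  · change (if o x = x then f x + f' x else 0) =
      (if o x = x then f x else 0) + if o x = x then f' x else 0
    split_ifs <;> simp
  obtain ⟨a, ha⟩ : o x ∈ MulAction.orbit P x := Quotient.mk_out (s := MulAction.orbitRel P X) x
  have e : ∀ g : P, o ((g : G)⁻¹ • x) = a • x := fun g =>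
    (congrArg Quotient.out (Quotient.sound (MulAction.mem_orbit x g⁻¹))).trans ha.symm
  have e' : ∀ g : P, ((g : G) • (Fn.mk fun y => if o y = y then ((g : G)⁻¹ • f) y else 0)) x =
      if a • x = (g : G)⁻¹ • x then f x else 0 := fun g => by
    change (g : G) • (if o ((g : G)⁻¹ • x) = (g : G)⁻¹ • x then
      (g : G)⁻¹ • f ((g : G)⁻¹⁻¹ • (g : G)⁻¹ • x) else 0) = _
    rw [e, inv_smul_smul]
    split_ifs
    · exact smul_inv_smul _ _
    · exact smul_zero _
  rw [Fn.sum_apply]
  refine (Finset.sum_congr rfl fun g _ => e' g).trans ?_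
  rw [Finset.sum_eq_single a⁻¹ (fun g _ hg => if_neg fun h' => hg ?_)
    (fun h => absurd (Finset.mem_univ _) h), if_pos]
  · rw [Subgroup.coe_inv, inv_inv]
    rfl
  · refine eq_inv_of_mul_eq_one_left (h P hP _ x ?_)
    rw [Subgroup.coe_mul, mul_smul]
    exact (congrArg ((g : G) • ·) h').trans (smul_inv_smul _ _)

/-- kernels of surjections -/
theorem Cl.ker [Fact p.Prime] (hA : Cl p G A) (hC : Cl p G C) (pA : ∀ a : A, p • a = 0)
    (q : A →+[G] C) (hq : Function.Surjective q) : Cl p G (Ker q) := fun P _ hP => by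
  obtain ⟨θ, hθ⟩ := hA P hP
  obtain ⟨η, hη⟩ := hC P hP
  have pC : ∀ c : C, p • c = 0 := fun c => by
    obtain ⟨a, rfl⟩ := hq c
    rw [← map_nsmul, pA, map_zero]
  obtain ⟨_⟩ : Nonempty (Module (ZMod p) A) := ⟨AddCommGroup.zmodModule pA⟩
  obtain ⟨_⟩ : Nonempty (Module (ZMod p) C) := ⟨AddCommGroup.zmodModule pC⟩
  obtain ⟨σ, hσ⟩ := ((q : A →+ C).toZModLinearMap p).exists_rightInverse_of_surjective
    (LinearMap.range_eq_top.2 hq)
  have h1 : ∀ c, q (σ c) = c := fun c => LinearMap.congr_fun hσ c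
  let τ : C →+ A := ∑ g : P, (DistribSMul.toAddMonoidHom A (g : G)).comp
    (σ.toAddMonoidHom.comp (η.comp (DistribSMul.toAddMonoidHom C (g : G)⁻¹)))
  have h2 : ∀ c, τ c = ∑ g : P, (g : G) • σ (η ((g : G)⁻¹ • c)) := fun c =>
    AddMonoidHom.finsetSum_apply _ _ _
  have h3 : ∀ c, q (τ c) = c := fun c => by
    simp only [h2, map_sum, map_smul, h1, hη]
  have h4 : ∀ (a : P) c, (a : G) • τ c = τ ((a : G) • c) := fun a c => by
    rw [h2, h2, Finset.smul_sum, ← Equiv.sum_comp (Equiv.mulLeft a)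
      fun g : P => (g : G) • σ (η ((g : G)⁻¹ • (a : G) • c))]
    refine Finset.sum_congr rfl fun g _ => ?_
    rw [Equiv.coe_mulLeft, Subgroup.coe_mul, mul_smul, mul_inv_rev, mul_smul, inv_smul_smul]
  let r : A →+ Ker q := (AddMonoidHom.id A - τ.comp (q : A →+ C)).codRestrict (q : A →+ C).ker
    fun a => (map_sub q a (τ (q a))).trans (by rw [h3, sub_self])
  have h5 : ∀ a, Ker.inc q (r a) = a - τ (q a) := fun _ => rfl
  refine ⟨r.comp (θ.comp (Ker.inc q : Ker q →+ A)), fun k => Ker.inc_injective q ?_⟩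
  have h6 : ∀ g : P, Ker.inc q ((g : G) • r (θ (Ker.inc q ((g : G)⁻¹ • k)))) =
      (g : G) • θ ((g : G)⁻¹ • Ker.inc q k) - τ (q ((g : G) • θ ((g : G)⁻¹ • Ker.inc q k))) :=
    fun g => by
      rw [map_smul (Ker.inc q), h5, smul_sub, h4, map_smul (Ker.inc q), map_smul q]
  rw [map_sum]
  refine (Finset.sum_congr rfl fun g _ => h6 g).trans ?_
  rw [Finset.sum_sub_distrib, ← map_sum, ← map_sum, hθ, Ker.map_inc, map_zero, sub_zero]

theorem Cl.dl (χ : G →* (ZMod p)ˣ) (h : Cl p G A) : Cl p G (Dl χ A) := fun P _ hP => by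
  obtain ⟨θ, hθ⟩ := h P hP
  refine ⟨⟨⟨fun φ => (Dl.val χ A).symm ((Dl.val χ A φ).comp θ), rfl⟩, fun _ _ => rfl⟩,
    fun φ => Dl.ext χ fun m => ?_⟩
  rw [map_sum, AddMonoidHom.finsetSum_apply, ← hθ m, map_sum]
  refine Finset.sum_congr rfl fun g _ => ?_
  change (χ g : ZMod p) * (χ (g : G)⁻¹ * Dl.val χ A φ ((g : G)⁻¹⁻¹ • θ ((g : G)⁻¹ • _))) = _
  rw [hθ, ← mul_assoc, ← Units.val_mul, ← map_mul, mul_inv_cancel, map_one, Units.val_one, one_mul,
    inv_inv]

instance : AddCommGroup (Hm G A B) := inferInstanceAs (AddCommGroup (A →+ B))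

variable (G A B) in
/-- the underlying homomorphism -/
def Hm.val : Hm G A B ≃+ (A →+ B) := AddEquiv.refl _

theorem Hm.ext {f f' : Hm G A B} (h : ∀ a, Hm.val G A B f a = Hm.val G A B f' a) : f = f' :=
  (Hm.val G A B).injective (AddMonoidHom.ext h)

instance : DistribMulAction G (Hm G A B) where
  smul g f := (Hm.val G A B).symm ((DistribSMul.toAddMonoidHom B g).comp
    ((Hm.val G A B f).comp (DistribSMul.toAddMonoidHom A g⁻¹)))
  one_smul f := Hm.ext fun a => by
    change (1 : G) • Hm.val G A B f ((1 : G)⁻¹ • a) = _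
    rw [inv_one, one_smul, one_smul]
  mul_smul g h f := Hm.ext fun a => by
    change (g * h) • Hm.val G A B f ((g * h)⁻¹ • a) = g • h • Hm.val G A B f (h⁻¹ • g⁻¹ • a)
    rw [mul_smul, mul_inv_rev, mul_smul]
  smul_zero g := Hm.ext fun _ => smul_zero g
  smul_add g _ _ := Hm.ext fun _ => smul_add g _ _

theorem Hm.val_smul (g : G) (f : Hm G A B) (a : A) :
    Hm.val G A B (g • f) a = g • Hm.val G A B f (g⁻¹ • a) := rfl

instance [Finite A] [Finite B] : Finite (Hm G A B) :=
  Finite.of_injective (fun f => (Hm.val G A B f : A → B)) fun _ _ h => Hm.ext (congrFun h)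

theorem Cl.hm (h : Cl p G B) : Cl p G (Hm G A B) := fun P _ hP => by
  obtain ⟨θ, hθ⟩ := h P hP
  refine ⟨⟨⟨fun f => (Hm.val G A B).symm (θ.comp (Hm.val G A B f)), Hm.ext fun _ => map_zero θ⟩,
    fun _ _ => Hm.ext fun _ => map_add θ _ _⟩, fun f => Hm.ext fun a => ?_⟩
  rw [map_sum, AddMonoidHom.finsetSum_apply, ← hθ (Hm.val G A B f a)]
  refine Finset.sum_congr rfl fun g _ => ?_
  change (g : G) • θ ((g : G)⁻¹ • Hm.val G A B f ((g : G)⁻¹⁻¹ • (g : G)⁻¹ • a)) = _
  rw [inv_smul_smul]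

theorem discMod_Hm [TopologicalSpace G] [IsTopologicalGroup G] [Finite A] [DiscMod G A]
    [DiscMod G B] : DiscMod G (Hm G A B) := ⟨fun f => by
  have h1 : IsOpen (⋂ a : A, {g : G | g • a = a} ∩
      {g : G | g • Hm.val G A B f a = Hm.val G A B f a}) :=
    isOpen_iInter_of_finite fun a => (DiscMod.isOpen_stab _).inter (DiscMod.isOpen_stab _)
  refine Subgroup.isOpen_of_mem_nhds (MulAction.stabilizer G f) (g := 1)
    (Filter.mem_of_superset (h1.mem_nhds (by simp)) fun g hg => Hm.ext fun a => ?_)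
  have h2 := Set.mem_iInter.1 hg a
  rw [Hm.val_smul, show g⁻¹ • a = a from inv_smul_eq_iff.2 h2.1.symm]
  exact h2.2⟩

/-- the finite `p`-subgroups meet `U` trivially -/
def Tf (p : ℕ) (U : Subgroup G) : Prop := ∀ g ∈ U, ∀ k : ℕ, g ^ p ^ k = 1 → g = 1

theorem Cl.quot {U V : Subgroup G} [V.Normal] (hU : Tf p U) (h : V ≤ U) : Cl p G (Fn (G ⧸ V) A) :=
  Cl.free fun P _ hP g x hx => by
    obtain ⟨x, rfl⟩ := QuotientGroup.mk_surjective x
    obtain ⟨k, hk⟩ := hP g
    have h1 : ((g : G) : G ⧸ V) * x = x := hx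
    exact Subtype.ext (hU _ (h ((QuotientGroup.eq_one_iff _).1 (mul_eq_right.1 h1))) k
      (congrArg Subtype.val hk))

end cl

section cd

variable {p d : ℕ} [Fact p.Prime] {G : Type} [Group G] [TopologicalSpace G] [IsTopologicalGroup G]

omit [IsTopologicalGroup G] in
theorem IsUnifS.tf {U : Subgroup G} (h : IsUnifS p d U) : Tf p U := fun g hg k hk => by
  obtain ⟨B, e, he, hB⟩ := h.exists
  have key : ∀ (j : ℕ) (x : U), x ^ p = 1 → x ∈ Unif.Lev he j := fun j x hx => by
    induction j with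
    | zero => exact Unif.P_zero _
    | succ j ih =>
      have h1 := e_pow_pS he hB ih
      rw [hx, Unif.e_one he, zero_sub] at h1
      exact Unif.of_p_smul_P ((neg_mem_iff).1 h1)
  have h1 : ∀ x : U, x ^ p = 1 → x = 1 := fun x hx =>
    e.injective ((Unif.eq_zero_of_forall fun j => key j x hx).trans (Unif.e_one he).symm)
  induction k generalizing g with
  | zero => rwa [pow_zero, pow_one] at hk
  | succ k ih =>
    rw [pow_succ', pow_mul] at hk
    exact congrArg Subtype.val (h1 ⟨g, hg⟩ (Subtype.ext (ih _ (U.pow_mem hg p) hk)))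

variable [CompactSpace G] [T2Space G] [TotallyDisconnectedSpace G]

theorem IsUnifS.hZero (h : IsUnifS p d G) (M : Type) [AddCommGroup M] [DistribMulAction G M]
    [DiscMod G M] (hM : ∀ m : M, p • m = 0) (s : ℕ) (hs : d < s) : HZero G M s := by
  have hc : Nat.card (G ⧸ (⊤ : Subgroup G)) = 1 := by
    rw [← Subgroup.index_eq_card, Subgroup.index_top]
  refine hZero_of_res (⊤ : Subgroup G) isOpen_univ (hasResS (h.of_equiv Subgroup.topEquiv
    continuous_subtype_val (Continuous.subtype_mk continuous_id _))) (hc ▸ odd_one)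
    (fun P _ hP => by rwa [inf_top_eq] at hP) M hM s ?_
  rwa [hc, mul_one]

/-- **Vanishing above the dimension on the class.** -/
theorem hZero_cl (V : VirtUnif p d G) (hV : IsUnifS p d V.U) (s : ℕ) (hs : d < s) (M : Type)
    [AddCommGroup M] [DistribMulAction G M] [DiscMod G M] (hM : ∀ m : M, p • m = 0)
    (h : Cl p G M) : HZero G M s := by
  obtain ⟨K, hK⟩ := vanish_hig V hV
  have := V.U_normal
  have : CompactSpace V.U :=
    isCompact_iff_compactSpace.1 (Subgroup.isClosed_of_isOpen V.U V.isOpen).isCompact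
  have : Finite (G ⧸ V.U) := Subgroup.quotient_finite_of_isOpen _ V.isOpen
  have o1 : IsOpen (V.U.subgroupOf V.U : Set V.U) := V.isOpen.preimage continuous_subtype_val
  have : Finite (V.U ⧸ V.U.subgroupOf V.U) := Subgroup.quotient_finite_of_isOpen _ o1
  obtain ⟨j, hj⟩ : ∃ j, K ≤ s + j := ⟨K, Nat.le_add_left _ _⟩
  induction j generalizing s M with
  | zero =>
    intro F h1 h2
    obtain ⟨Y, h3, h4⟩ := hK (fun _ => M) (fun _ => DistribMulActionHom.id G) (fun _ => hM)
      (fun _ => cl_iff.1 h) s hj F h1 h2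
    exact ⟨Y, h3, h4.trans (funext fun x => compT_id _ _)⟩
  | succ j ih =>
    have := discMod_FnQ (M := M) V.isOpen
    have := discMod_FnQ (M := M) o1
    have h1 := Fn.nsmul_eq_zero (X := G ⧸ V.U) hM
    refine HZero.right (Ker.inc _) (tot G (G ⧸ V.U) M) (Ker.inc_injective _) tot_surjective
      (Ker.map_inc _) (Ker.exact _) ?_ (ih (s + 1) (by omega) _ (Ker.nsmul_eq_zero _ h1)
        (h.fn.ker h h1 _ tot_surjective) (by omega))
    obtain ⟨s, rfl⟩ : ∃ t, s = t + 1 := ⟨s - 1, by omega⟩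
    intro F h2 h3
    have he : ∀ (q : V.U) (m : M), AddEquiv.refl M ((q : G) • m) = q • AddEquiv.refl M m :=
      fun _ _ => rfl
    exact Glb.sh sh V.isOpen le_rfl he ⟨h2, h3⟩ (mem_BB_of_hzero
      (hV.hZero _ (Fn.nsmul_eq_zero hM) _ hs) (Glb.res_mem _ (Glb.eps_smul he) ⟨h2, h3⟩))

end cd

end Vale.Agent.P261Z.T3
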