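import Mathlib.LinearAlgebra.Matrix.Kronecker
import Mathlib.Algebra.BigOperators.Ring.Finset
import Mathlib.Data.Matrix.Basis

/-!
# P261, T3: the norm trick, matrix form

`Coc P A I`: a semilinear action of the finite group `P` on `A ^ I`. If the norm of the action has
an invertible entry, then an operator `E` on the tensor power which commutes with the diagonal
operators and kills the words that miss a letter is a trace: `Coc.norm`.
-/

open Finset Matrix

namespace Vale.Agent.P261Z.T3.Nm

variable {A A' : Type} [CommRing A] [CommRing A'] {I ι : Type} [Fintype I] [DecidableEq I]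
  [Fintype ι] [DecidableEq ι]

/-- The Kronecker product of a family of matrices. -/
def K (X : ι → Matrix I I A) : Matrix (ι → I) (ι → I) A :=
  Matrix.of fun s t => ∏ b, X b (s b) (t b)

omit [Fintype I] [DecidableEq I] [DecidableEq ι] in
theorem K_apply (X : ι → Matrix I I A) (s t : ι → I) : K X s t = ∏ b, X b (s b) (t b) := rfl

omit [DecidableEq I] in
theorem K_mul (X Y : ι → Matrix I I A) : K (fun b => X b * Y b) = K X * K Y := by
  ext s t
  simp only [K_apply, Matrix.mul_apply]
  rw [Finset.prod_univ_sum, Fintype.piFinset_univ]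
  exact Finset.sum_congr rfl fun u _ => Finset.prod_mul_distrib

omit [Fintype I] [DecidableEq ι] in
theorem K_one : K (fun _ : ι => (1 : Matrix I I A)) = 1 := by
  ext s t
  simp only [K_apply, Matrix.one_apply]
  rw [Finset.prod_ite_zero]
  simp [funext_iff]

omit [Fintype I] [DecidableEq I] [DecidableEq ι] in
theorem K_map (φ : A →+* A') (X : ι → Matrix I I A) :
    (K X).map φ = K fun b => (X b).map φ := by
  ext s t
  simp only [K_apply, Matrix.map_apply, map_prod]

omit [Fintype I] [DecidableEq I] in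
theorem K_update (X : ι → Matrix I I A) (b : ι) (Y : Matrix I I A) (s t : ι → I) :
    K (Function.update X b Y) s t = Y (s b) (t b) * ∏ c ∈ univ.erase b, X c (s c) (t c) := by
  rw [K_apply, ← Finset.mul_prod_erase univ _ (mem_univ b), Function.update_self]
  congr 1
  exact Finset.prod_congr rfl fun c hc => by rw [Function.update_of_ne (ne_of_mem_erase hc)]

omit [Fintype I] [DecidableEq I] in
theorem K_update_sum {P : Type} [Fintype P] (X : ι → Matrix I I A) (b : ι)
    (Y : P → Matrix I I A) :
    K (Function.update X b (∑ g, Y g)) = ∑ g, K (Function.update X b (Y g)) := by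
  ext s t
  simp only [Matrix.sum_apply, K_update, Finset.sum_mul]

omit [Fintype I] [DecidableEq I] in
theorem K_update_sub (X : ι → Matrix I I A) (b : ι) (Y Z : Matrix I I A) :
    K (Function.update X b (Y - Z)) = K (Function.update X b Y) - K (Function.update X b Z) := by
  ext s t
  simp only [Matrix.sub_apply, K_update, sub_mul]

/-- A semilinear action `v ↦ S g (φ g v)`. -/
structure Coc (P A I : Type) [Group P] [CommRing A] [Fintype I] [DecidableEq I] where
  /-- the action on the coefficients -/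
  φ : P → A →+* A
  /-- the matrices -/
  S : P → Matrix I I A
  φ_one : φ 1 = RingHom.id A
  φ_mul : ∀ g h, φ (g * h) = (φ g).comp (φ h)
  S_one : S 1 = 1
  S_mul : ∀ g h, S (g * h) = S g * (S h).map (φ g)

namespace Coc

variable {P : Type} [Group P] (C : Coc P A I)

theorem map_map (g h : P) (X : Matrix I I A) :
    (X.map (C.φ h)).map (C.φ g) = X.map (C.φ (g * h)) := by
  rw [C.φ_mul, Matrix.map_map]; rfl

theorem map_one' (X : Matrix I I A) : X.map (C.φ 1) = X := by
  rw [C.φ_one]; rfl

theorem mul_inv (g : P) : C.S g * (C.S g⁻¹).map (C.φ g) = 1 := by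
  rw [← C.S_mul, mul_inv_cancel, C.S_one]

theorem inv_mul (g : P) : (C.S g⁻¹).map (C.φ g) * C.S g = 1 := by
  have h := congrArg (fun X : Matrix I I A => X.map (C.φ g)) (C.mul_inv g⁻¹)
  simp only [Matrix.map_mul, inv_inv] at h
  rwa [C.map_map, mul_inv_cancel, C.map_one', Matrix.map_one _ (map_zero _) (map_one _)] at h

/-- The action on the operators. -/
def act (g : P) : Matrix I I A →+* Matrix I I A where
  toFun X := C.S g * X.map (C.φ g) * (C.S g⁻¹).map (C.φ g)
  map_one' := by rw [Matrix.map_one _ (map_zero _) (map_one _), mul_one, C.mul_inv]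
  map_mul' X Y := by
    rw [Matrix.map_mul]
    simp only [mul_assoc]
    rw [← mul_assoc ((C.S g⁻¹).map _) (C.S g), C.inv_mul, one_mul]
  map_zero' := by rw [Matrix.map_zero _ (map_zero _), mul_zero, zero_mul]
  map_add' X Y := by rw [Matrix.map_add _ (map_add _), mul_add, add_mul]

theorem act_apply (g : P) (X : Matrix I I A) :
    C.act g X = C.S g * X.map (C.φ g) * (C.S g⁻¹).map (C.φ g) := rfl

theorem act_act (g h : P) (X : Matrix I I A) : C.act g (C.act h X) = C.act (g * h) X := by
  have h1 : C.S (g * h)⁻¹ = C.S h⁻¹ * (C.S g⁻¹).map (C.φ h⁻¹) := by rw [_root_.mul_inv_rev, C.S_mul]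
  simp only [act_apply, Matrix.map_mul, C.map_map, h1, C.S_mul, mul_assoc, mul_inv_cancel,
    mul_one]

variable (ι) in
/-- The tensor power. -/
def kron : Coc P A (ι → I) where
  φ := C.φ
  S g := K fun _ => C.S g
  φ_one := C.φ_one
  φ_mul := C.φ_mul
  S_one := by rw [C.S_one, K_one]
  S_mul g h := by rw [C.S_mul, K_mul, K_map]

theorem act_K (g : P) (X : ι → Matrix I I A) :
    (C.kron ι).act g (K X) = K fun b => C.act g (X b) := by
  simp only [act_apply, K_mul, ← K_map]
  rfl

variable [Fintype P]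

theorem act_sum (h : P) (X : Matrix I I A) : C.act h (∑ g, C.act g X) = ∑ g, C.act g X := by
  rw [map_sum, ← Equiv.sum_comp (Equiv.mulLeft h) fun g => C.act g X]
  exact Finset.sum_congr rfl fun g _ => C.act_act h g X

/-- `1 - ψ ⊗ ⋯ ⊗ ψ` is a trace if `1 - ψ` is. -/
theorem exists_K (θ : Matrix I I A) (T : Finset ι) : ∃ Θ, ∑ g, (C.kron ι).act g Θ =
    1 - K fun b => if b ∈ T then 1 - ∑ g, C.act g θ else 1 := by
  induction T using Finset.induction_on with
  | empty => exact ⟨0, by simp [K_one]⟩
  | insert b T hb ih =>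
    obtain ⟨Θ, hΘ⟩ := ih
    let X : ι → Matrix I I A := fun c => if c ∈ T then 1 - ∑ g, C.act g θ else 1
    have hX : ∀ g c, C.act g (X c) = X c := fun g c => by
      simp only [X]
      split_ifs
      · rw [map_sub, map_one, C.act_sum]
      · exact map_one _
    have h1 : (fun c => if c ∈ insert b T then 1 - ∑ g, C.act g θ else 1) =
        Function.update X b (1 - ∑ g, C.act g θ) := by
      funext c
      rcases eq_or_ne c b with rfl | h
      · simp
      · simp [X, h]
    have h2 : Function.update X b 1 = X := Function.update_eq_self_iff.2 (by simp [X, hb])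
    refine ⟨Θ + K (Function.update X b θ), ?_⟩
    rw [h1, K_update_sub, h2, K_update_sum]
    simp only [map_add, Finset.sum_add_distrib]
    rw [hΘ, sub_add_eq_add_sub, sub_sub_eq_add_sub]
    congr 2
    refine Finset.sum_congr rfl fun g _ => ?_
    rw [act_K]
    congr 1
    funext c
    rcases eq_or_ne c b with rfl | h
    · simp
    · simp [h, hX]

/-- If the norm has an invertible entry then `1 - ψ` is a trace for some `ψ` of smaller rank. -/
theorem exists_Q {i j : I} (h : IsUnit ((∑ g, C.S g) i j)) :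
    ∃ θ Q : Matrix I I A, (∀ t, Q i t = 0) ∧
      (1 - ∑ g, C.act g θ) * Q = 1 - ∑ g, C.act g θ := by
  obtain ⟨u, hu⟩ := h.exists_right_inv
  set N := ∑ g, C.S g with hN
  have h1 : ∀ g, (C.S g⁻¹).map (C.φ g) * N = N.map (C.φ g) := fun g => by
    have h2 : C.S g * N.map (C.φ g) = N := by
      rw [hN, ← RingHom.mapMatrix_apply, map_sum, Finset.mul_sum,
        ← Equiv.sum_comp (Equiv.mulLeft g) C.S]
      exact Finset.sum_congr rfl fun h _ => (C.S_mul g h).symm
    rw [← h2, ← mul_assoc, C.inv_mul, one_mul, h2]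
  have h3 : single j i u * N * single j i (1 : A) = single j i 1 := by
    rw [Matrix.single_mul_mul_single, mul_one, mul_comm, hu]
  have h4 : (∑ g, C.act g (single j i u)) * (N * single j i (1 : A)) = N * single j i 1 := by
    rw [Finset.sum_mul]
    conv_rhs => rw [hN, Finset.sum_mul]
    refine Finset.sum_congr rfl fun g _ => ?_
    have h5 : (single j i (1 : A)).map (C.φ g) = single j i 1 := by
      rw [Matrix.map_single, map_one]
    rw [act_apply, mul_assoc, ← mul_assoc _ N, h1, mul_assoc]
    congr 1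
    conv_lhs => rw [← h5, ← Matrix.map_mul, ← Matrix.map_mul, ← mul_assoc, h3, h5]
  refine ⟨single j i u, 1 - u • (N * single j i 1), fun t => ?_, ?_⟩
  · rcases eq_or_ne t i with rfl | ht
    · simp [mul_comm u, hu]
    · simp [ht, Matrix.one_apply_ne ht.symm]
  · rw [mul_sub, mul_one, mul_smul_comm, sub_mul, one_mul, h4, sub_self, smul_zero, sub_zero]

/-- **The norm trick.** -/
theorem norm {i j : I} (h : IsUnit ((∑ g, C.S g) i j)) (E : Matrix (ι → I) (ι → I) A)
    (hc : ∀ X : Matrix I I A, E * K (fun _ => X) = K (fun _ => X) * E)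
    (hk : ∀ a s : ι → I, (∀ b, s b ≠ i) → E a s = 0) :
    ∃ Θ, E * ∑ g, (C.kron ι).act g Θ = E := by
  obtain ⟨θ, Q, hQ, hψ⟩ := C.exists_Q h
  obtain ⟨Θ, hΘ⟩ := C.exists_K θ (univ : Finset ι)
  have h1 : E * K (fun _ : ι => Q) = 0 := by
    ext a t
    rw [Matrix.mul_apply, Matrix.zero_apply]
    refine Finset.sum_eq_zero fun s _ => ?_
    by_cases hs : ∀ b, s b ≠ i
    · rw [hk a s hs, zero_mul]
    · push Not at hs
      obtain ⟨b, hb⟩ := hs
      rw [K_apply, Finset.prod_eq_zero (mem_univ b) (by rw [hb, hQ]), mul_zero]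
  refine ⟨Θ, ?_⟩
  simp only [mem_univ, if_true] at hΘ
  rw [hΘ, mul_sub, mul_one, ← hψ, K_mul, ← mul_assoc, hc, mul_assoc, h1, mul_zero, sub_zero]

omit [Fintype P] in
theorem mulVec_act (g : P) (Θ : Matrix I I A) (v : I → A) :
    C.S g *ᵥ (C.φ g ∘ (Θ *ᵥ (C.S g⁻¹ *ᵥ (C.φ g⁻¹ ∘ v)))) = C.act g Θ *ᵥ v := by
  have h1 : ∀ (X : Matrix I I A) (x : I → A),
      C.φ g ∘ (X *ᵥ x) = X.map (C.φ g) *ᵥ (C.φ g ∘ x) := fun X x =>
    funext fun i => RingHom.map_mulVec _ _ _ i
  have h2 : C.φ g ∘ (C.φ g⁻¹ ∘ v) = v := by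
    funext i
    have := RingHom.congr_fun (C.φ_mul g g⁻¹) (v i)
    rw [mul_inv_cancel, C.φ_one] at this
    exact this.symm
  rw [h1, h1, h2, act_apply, Matrix.mulVec_mulVec, Matrix.mulVec_mulVec]

end Coc

end Vale.Agent.P261Z.T3.Nm
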