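import Vale.Agent.P261Z.X.Bas
import Vale.Agent.P261Z.T3.GNmA

/-!
# P261, T3: the norm trick, coordinates

`co`, `un`: the coordinates on `Tr N ι M`; the matrices of `sub` and `epsT`: `co_sub`, `co_epsT`.
`hig_of_unit`: Higman's condition for `epsT` from an invertible entry of the norm.
-/

open Finset Matrix

namespace Vale.Agent.P261Z.T3.Nm

open Vale.Agent.P251 Vale.Agent.P251.F Vale.Agent.P251.M Vale.Agent.P261Z.T2 Vale.Agent.P261Z.X
  Vale.Agent.P261Z.JM

variable {N N' : Type} [CommRing N] [CommRing N'] {ι : Type} [Fintype ι] {M : ℕ}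

/-- the coordinates -/
noncomputable def co : Tr N ι M →+ ((ι → Fin M) → N) := AddMonoidHom.pi fun t => cf t

theorem co_apply (y : Tr N ι M) (t : ι → Fin M) : co y t = cf t y := rfl

theorem co_C_mul (a : N) (y : Tr N ι M) : co (Tr.C ι M a * y) = a • co y :=
  funext fun t => cf_C_mul t a y

variable [DecidableEq ι]

theorem co_mon (t s : ι → Fin M) : co (Tr.mon N t) s = if t = s then 1 else 0 := by
  rw [← cf_mon, map_one, one_mul, co_apply]

/-- the element with given coordinates -/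
noncomputable def un : ((ι → Fin M) → N) →+ Tr N ι M :=
  AddMonoidHom.mk' (fun v => ∑ t, Tr.C ι M (v t) * Tr.mon N t) fun v v' => by
    simp only [Pi.add_apply, map_add, add_mul, Finset.sum_add_distrib]

theorem un_apply (v : (ι → Fin M) → N) : un v = ∑ t, Tr.C ι M (v t) * Tr.mon N t := rfl

theorem co_un (v : (ι → Fin M) → N) : co (un v) = v := funext fun t => cf_sum t v

theorem un_co (y : Tr N ι M) : un (co y) = y := sum_cf y

theorem co_injective : Function.Injective (co : Tr N ι M → _) :=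
  Function.LeftInverse.injective un_co

/-- The matrix of a semilinear map. -/
theorem co_hom (ψ : Tr N ι M →+ Tr N' ι M) (φ : N → N')
    (h : ∀ a y, ψ (Tr.C ι M a * y) = Tr.C ι M (φ a) * ψ y)
    (X : Matrix (ι → Fin M) (ι → Fin M) N') (hX : ∀ s t, co (ψ (Tr.mon N t)) s = X s t)
    (y : Tr N ι M) : co (ψ y) = X *ᵥ (φ ∘ co y) := by
  conv_lhs => rw [← un_co y, un_apply, map_sum, map_sum]
  funext s
  simp only [h, co_C_mul, Finset.sum_apply, Pi.smul_apply, hX, smul_eq_mul]
  exact Finset.sum_congr rfl fun t _ => mul_comm _ _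

variable (M) in
/-- The matrix of the substitution of `f` on `N[y] / y ^ M`. -/
noncomputable def Sm (f : PowerSeries N) : Matrix (Fin M) (Fin M) N :=
  Matrix.of fun i j => PowerSeries.coeff i (f ^ (j : ℕ))

theorem co_sub_mon (φ : N →+* N') (f : InvSeries N') (s t : ι → Fin M) :
    co (sub ι M φ f (Tr.mon N t)) s = K (fun _ => Sm M f.val) s t := by
  have h : ∀ b, sub ι M φ f (Tr.x N M b ^ (t b : ℕ)) =
      ∑ i : Fin M, Tr.C ι M (Sm M f.val i (t b)) * Tr.x N' M b ^ (i : ℕ) := fun b => by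
    have h1 := Q.nev_pow (a := fun _ : Unit => Tr.x N' M b) (fun _ => ⟨M, Tr.x_pow b⟩)
      (PowerSeries.map (Tr.C ι M) f.val) (t b)
    rw [map_pow, sub_x]
    refine h1.symm.trans ?_
    change nev1 (Tr.x N' M b) (PowerSeries.map (Tr.C ι M) f.val ^ (t b : ℕ)) = _
    rw [← map_pow, nev1_eq_sum (Tr.x_pow b), Finset.sum_range]
    exact Finset.sum_congr rfl fun i _ => by rw [PowerSeries.coeff_map, smul_eq_mul]; rfl
  have h2 : sub ι M φ f (Tr.mon N t) = un fun s => K (fun _ => Sm M f.val) s t := by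
    rw [Tr.mon, map_prod]
    simp only [h]
    rw [Finset.prod_univ_sum, Fintype.piFinset_univ, un_apply]
    exact Finset.sum_congr rfl fun s _ => by rw [Finset.prod_mul_distrib, K_apply, map_prod]; rfl
  rw [h2, co_un]

theorem co_sub (φ : N →+* N') (f : InvSeries N') (y : Tr N ι M) :
    co (sub ι M φ f y) = K (fun _ => Sm M f.val) *ᵥ (φ ∘ co y) :=
  co_hom (sub ι M φ f).toAddMonoidHom φ
    (fun a y => (map_mul (sub ι M φ f) _ y).trans (by rw [sub_C]; rfl)) _ (co_sub_mon φ f) y

theorem Sm_mul (φ : N →+* N') (f : InvSeries N') (g : InvSeries N) :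
    Sm M (InvSeries.map φ g * f).val = Sm M f.val * (Sm M g.val).map φ := by
  ext i j
  have h1 := congrArg (fun y => co y fun _ : Unit => i) (RingHom.congr_fun
    (sub_comp (ι := Unit) (M := M) φ f (RingHom.id N) g) (Tr.mon N fun _ => j))
  have h2 : φ ∘ co (sub Unit M (RingHom.id N) g (Tr.mon N fun _ => j)) =
      fun s => K (fun _ => (Sm M g.val).map φ) s fun _ => j := funext fun s => by
    rw [Function.comp_apply, co_sub_mon, ← K_map, Matrix.map_apply]
  simp only [RingHom.comp_apply] at h1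
  rw [co_sub, co_sub_mon, h2] at h1
  have h3 := congrFun₂ (K_mul (fun _ : Unit => Sm M f.val) fun _ => (Sm M g.val).map φ)
    (fun _ => i) fun _ => j
  rw [K_apply, Fintype.prod_unique] at h1 h3
  exact h1.symm.trans h3.symm

theorem Sm_one : Sm M (1 : InvSeries N).val = 1 := by
  ext i j
  rw [InvSeries.one_val, Sm, Matrix.of_apply, PowerSeries.coeff_X_pow, Matrix.one_apply]
  exact if_congr Fin.ext_iff.symm rfl rfl

variable (N M) in
/-- The matrix of an element of the group ring. -/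
def Em (c : MonoidAlgebra ℤ (Equiv.Perm ι)) : Matrix (ι → Fin M) (ι → Fin M) N :=
  Matrix.of fun a b => (mat c a b : N)

theorem co_epsT (c : MonoidAlgebra ℤ (Equiv.Perm ι)) (y : Tr N ι M) :
    co (epsT N M c y) = Em N M c *ᵥ co y := by
  refine co_hom (epsT N M c) id (fun a y => ?_) _ (fun s t => ?_) y
  · simp only [epsT_apply, map_mul, Tr.mapP_C, Finset.mul_sum, mul_smul_comm, RingHom.id_apply, id]
  · rw [epsT_apply, map_sum, Finset.sum_apply, Em, Matrix.of_apply, mat, Int.cast_sum]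
    refine Finset.sum_congr rfl fun σ _ => ?_
    have h : Tr.perm N M σ (Tr.mon N t) = Tr.mon N (t ∘ σ.symm) := by
      rw [← Tr.mapP_mon (RingHom.id N) σ (t ∘ σ.symm), Function.comp_assoc, Equiv.symm_comp_self,
        Function.comp_id]
    rw [map_zsmul, Pi.smul_apply, h, co_mon, if_congr ((σ.comp_symm_eq s t).trans eq_comm) rfl rfl]
    split_ifs <;> simp

theorem Em_comm (c : MonoidAlgebra ℤ (Equiv.Perm ι)) (X : Matrix (Fin M) (Fin M) N) :
    Em N M c * K (fun _ => X) = K (fun _ => X) * Em N M c := by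
  ext a t
  simp only [Matrix.mul_apply, Em, Matrix.of_apply, mat, Int.cast_sum, Int.cast_ite, Int.cast_zero,
    Finset.sum_mul, Finset.mul_sum, ite_mul, mul_ite, zero_mul, mul_zero]
  rw [Finset.sum_comm, eq_comm, Finset.sum_comm]
  refine Finset.sum_congr rfl fun σ _ => ?_
  rw [Finset.sum_ite_eq]
  simp only [← σ.eq_comp_symm, Finset.sum_ite_eq', mem_univ, if_true]
  rw [mul_comm, K_apply, K_apply, ← Equiv.prod_comp σ]
  simp

theorem Em_kill {p : ℕ} {c : MonoidAlgebra ℤ (Equiv.Perm ι)} {m : ℤ} (h : IsIdem p M c m)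
    (i : Fin M) (a s : ι → Fin M) (hs : ∀ b, s b ≠ i) : Em N M c a s = 0 := by
  have h1 : (univ.image s).card < M := by
    have h2 : univ.image s ⊂ univ := ssubset_univ_iff.2 fun h3 => by
      obtain ⟨b, -, hb⟩ := mem_image.1 (h3 ▸ mem_univ i : i ∈ univ.image s)
      exact hs b hb
    simpa using card_lt_card h2
  rw [Em, Matrix.of_apply, h.kill _ a s h1, Int.cast_zero]

theorem epsT_epsT (c c' : MonoidAlgebra ℤ (Equiv.Perm ι)) (y : Tr N ι M) :
    epsT N M c (epsT N M c' y) = epsT N M (c * c') y := by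
  apply co_injective
  rw [co_epsT, co_epsT, co_epsT, Matrix.mulVec_mulVec]
  congr 1
  ext a b
  simp only [Matrix.mul_apply, Em, Matrix.of_apply, mat_mul, Int.cast_sum, Int.cast_mul]

theorem epsT_smul (m : ℤ) (c : MonoidAlgebra ℤ (Equiv.Perm ι)) (y : Tr N ι M) :
    epsT N M (m • c) y = m • epsT N M c y := by
  rw [epsT_apply, epsT_apply, Finset.smul_sum]
  exact Finset.sum_congr rfl fun σ _ => by rw [smul_smul]; rfl

/-- Some power sum of finitely many distinct series is non-zero modulo `X ^ M`. -/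
theorem exists_coeff_ne {k P : Type} [Field k] [Fintype P] (s : P → PowerSeries k) (g₀ : P)
    {c M : ℕ} (hs : ∀ g, g ≠ g₀ → ¬ PowerSeries.X ^ c ∣ s g₀ - s g)
    (hM : (c + 1) * Fintype.card P < M) :
    ∃ i j : Fin M, PowerSeries.coeff (i : ℕ) (∑ g, s g ^ (j : ℕ)) ≠ 0 := by
  classical
  by_contra h
  push Not at h
  have h1 : ∀ j ∈ range M, PowerSeries.X ^ M ∣ ∑ g, s g ^ j := fun j hj =>
    PowerSeries.X_pow_dvd_iff.2 fun i hi => h ⟨i, hi⟩ ⟨j, mem_range.1 hj⟩
  let f : Polynomial (PowerSeries k) := ∏ g ∈ univ.erase g₀, (Polynomial.X - Polynomial.C (s g))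
  have hc : (univ.erase g₀).card ≤ Fintype.card P := card_le_univ _
  have hf : f.natDegree < M := by
    rw [Polynomial.natDegree_finsetProd_X_sub_C_eq_card]
    nlinarith
  have h2 : PowerSeries.X ^ M ∣ ∑ g, f.eval (s g) := by
    simp only [Polynomial.eval_eq_sum_range' hf]
    rw [Finset.sum_comm]
    exact Finset.dvd_sum fun j hj => by rw [← Finset.mul_sum]; exact (h1 j hj).mul_left _
  have h3 : ∑ g, f.eval (s g) = ∏ g ∈ univ.erase g₀, (s g₀ - s g) := by
    rw [Finset.sum_eq_single g₀ (fun g _ hg => ?_) (by simp)]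
    · simp [f, Polynomial.eval_prod]
    · rw [Polynomial.eval_prod]
      exact Finset.prod_eq_zero (mem_erase.2 ⟨hg, mem_univ _⟩) (by simp)
  rw [h3, pow_dvd_iff_le_emultiplicity, Finset.emultiplicity_prod PowerSeries.X_prime] at h2
  have h4 := h2.trans (Finset.sum_le_card_nsmul _ _ (c : ℕ∞) fun g hg =>
    (emultiplicity_lt_iff_not_dvd.2 (hs g (ne_of_mem_erase hg))).le)
  rw [nsmul_eq_mul, ← Nat.cast_mul, Nat.cast_le] at h4
  nlinarith

end Vale.Agent.P261Z.T3.Nm
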