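import Vale.Agent.P261Z.T3.GIter
import Vale.Agent.P251.F.VirtUnif

/-!
# P261, T3: the subgroup `1 + p ^ 2 O` of the automorphism group of a Honda law
-/

namespace Vale.Agent.P261Z.T3

open Vale.Agent.P217 Vale.Agent.P251 Vale.Agent.P251.F Vale.Agent.P251.F.HondaOver

variable {p h : ℕ} [hp : Fact p.Prime] {k : Type*} [Field k] [CharP k p] {H : FormalGroup k}
  [H.IsComm] (hH : HondaOver p h H) [Finite k] (hk : Nat.card k = p ^ h)

include hH in
theorem mem_congr_two {σ : AutF H} : σ ∈ AutF.congr H (p ^ (h * 2)) ↔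
    ∃ x, onePlus (p := p) ((p : EndF H) * x) = σ := by
  rw [hH.mem_congr_iff, hH.D.mem_I_mul_iff hH.p_eq]
  refine exists_congr fun x => ?_
  rw [← AutF.toEnd_injective.eq_iff, onePlus_toEnd, pow_two, mul_assoc, sub_eq_iff_eq_add', eq_comm]

include hH in
theorem relIndex_two (hh : 1 ≤ h) :
    ∃ j : ℕ, (AutF.congr H (p ^ (h * 2))).relIndex (AutF.congr H (p ^ 1)) = p ^ j := by
  have hUo : IsOpen ((AutF.congr H (p ^ (h * 2))).subgroupOf (AutF.congr H (p ^ 1)) :
      Set (AutF.congr H (p ^ 1))) := (AutF.isOpen_congr _).preimage continuous_subtype_val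
  have := Subgroup.quotient_finite_of_isOpen' (AutF.congr H (p ^ 1))
    ((AutF.congr H (p ^ (h * 2))).subgroupOf (AutF.congr H (p ^ 1))) (AutF.isOpen_congr _) hUo
  have h1 : IsPGroup p (AutF.congr H (p ^ 1) ⧸
      (AutF.congr H (p ^ (h * 2))).subgroupOf (AutF.congr H (p ^ 1))) := by
    intro q
    obtain ⟨σ, rfl⟩ := QuotientGroup.mk_surjective q
    refine ⟨h * 2, ?_⟩
    rw [← QuotientGroup.mk_pow, QuotientGroup.eq_one_iff, Subgroup.mem_subgroupOf,
      Subgroup.coe_pow]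
    have h2 := hH.pow_pow_mem hh σ.2 (h * 2)
    exact Agr.mono (Nat.pow_le_pow_right hp.out.pos (by omega)) h2
  exact IsPGroup.iff_card.1 h1

include hH hk in
theorem isUnifS (hh : 1 ≤ h) : IsUnifS p (h * h) (AutF.congr H (p ^ (h * 2))) := by
  obtain ⟨e, he1, he2⟩ := hH.exists_homeo hk hh
  let f0 : EndF H → AutF.congr H (p ^ (h * 2)) := fun x =>
    ⟨onePlus (p := p) ((p : EndF H) * x), (mem_congr_two hH).2 ⟨x, rfl⟩⟩
  have hf0 : Function.Bijective f0 := by
    constructor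
    · intro x y hxy
      have h2 := hH.onePlus_injective (congrArg Subtype.val hxy)
      exact sub_eq_zero.1 (hH.D.p_reg hH.p_eq (by rw [mul_sub, h2, sub_self]))
    · rintro ⟨σ, hσ⟩
      obtain ⟨x, hx⟩ := (mem_congr_two hH).1 hσ
      exact ⟨x, Subtype.ext hx⟩
  have hf0c : Continuous (Equiv.ofBijective f0 hf0) := by
    refine Continuous.subtype_mk (coeffTop_continuous fun f m => ⟨m, fun g hg => ?_⟩) _
    exact EndF.agr_add (Agr.refl _ _ _)
      (EndF.agr_mul (Agr.refl _ _ _) (EndF.agr_mul (Agr.refl _ _ _) hg))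
  let f1 : EndF H ≃ₜ AutF.congr H (p ^ (h * 2)) := hf0c.homeoOfEquivCompactToT2
  have hf1 : ∀ x, ((f1 x : AutF.congr H (p ^ (h * 2))) : AutF H) =
      onePlus (p := p) ((p : EndF H) * x) := fun x => rfl
  have hs1 : ∀ x y, e.symm (x + y) = e.symm x + e.symm y := by
    intro x y
    apply e.injective
    rw [he1, e.apply_symm_apply, e.apply_symm_apply, e.apply_symm_apply]
  have hs2 : ∀ (c : ℤ_[p]) x, e.symm ((hH.CD hh).iotaHom c * x) = c • e.symm x := by
    intro c x
    apply e.injective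
    rw [he2, e.apply_symm_apply, e.apply_symm_apply]
  let B : (Fin (h * h) → ℤ_[p]) →ₗ[ℤ_[p]] (Fin (h * h) → ℤ_[p]) →ₗ[ℤ_[p]]
      (Fin (h * h) → ℤ_[p]) := LinearMap.mk₂ ℤ_[p] (fun a b => e.symm (e a * e b))
    (fun a a' b => by rw [he1, add_mul, hs1])
    (fun c a b => by rw [he2, mul_assoc, hs2])
    (fun a b b' => by rw [he1, mul_add, hs1])
    (fun c a b => by rw [he2, ← mul_assoc, ← (hH.CD hh).iota_comm, mul_assoc, hs2])
  have hB : ∀ a b, B a b = e.symm (e a * e b) := fun _ _ => rfl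
  refine ⟨B, f1.symm.trans e.symm, fun x y => ?_⟩
  obtain ⟨x, rfl⟩ := f1.surjective x
  obtain ⟨y, rfl⟩ := f1.surjective y
  have h1 : f1 x * f1 y = f1 (x + y + (p : EndF H) ^ 2 * (x * y)) := by
    apply Subtype.ext
    rw [Subgroup.coe_mul, hf1, hf1, hf1, onePlus_mul, mul_add, mul_add, pow_two, mul_assoc _ x,
      ← mul_assoc x, ← (Nat.cast_commute p x).eq, mul_assoc, mul_assoc]
  rw [h1, Homeomorph.trans_apply, Homeomorph.trans_apply, Homeomorph.trans_apply,
    f1.symm_apply_apply, f1.symm_apply_apply, f1.symm_apply_apply, hB, e.apply_symm_apply,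
    e.apply_symm_apply, hs1, hs1, ← hs2, map_pow, map_natCast]

/-- The automorphism group of a Honda law is virtually uniform, with `U = 1 + p ^ 2 O`. -/
noncomputable def virtUnifS (hh : 1 ≤ h) : I.VirtUnif p (h * h) (AutF H) where
  S := AutF.congr H (p ^ 1)
  U := AutF.congr H (p ^ (h * 2))
  S_normal := inferInstance
  U_normal := inferInstance
  le := fun _ hσ => Agr.mono (Nat.pow_le_pow_right hp.out.pos (by omega)) hσ
  isOpen := AutF.isOpen_congr _
  coprime := hH.index_coprime hk hh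
  relIndex := relIndex_two hH hh
  unif := (isUnifS hH hk hh).isUnif

theorem virtUnifS_unifS (hh : 1 ≤ h) : IsUnifS p (h * h) (virtUnifS hH hk hh).U :=
  isUnifS hH hk hh

end Vale.Agent.P261Z.T3
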