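import Vale.Agent.P261Z.X.Copt
import Vale.Agent.P261Z.T3.GNmB
import Vale.Agent.P261Z.T3.GCl
import Vale.Agent.P261Z.T3.GVirt
import Vale.Agent.P251.F.LTCyc

/-!
# P261, T3: the norm trick and the vanishing line, at every prime

`hig_epsV`: for large `M` the quasi-idempotents satisfy Higman's condition on
`E_j[y_b] / (y_b ^ M) ω^w`; `vanX`: the vanishing line.
-/

open Finset Matrix

namespace Vale.Agent.P261Z.T3

open Vale.Agent.P251 Vale.Agent.P251.F Vale.Agent.P251.C Vale.Agent.P251.M Vale.Agent.P261Z.T2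
  Vale.Agent.P261Z.T1 Vale.Agent.P261Z.X Vale.Agent.P261Z.JM Nm

section gen

variable {p : ℕ} {G : Type} [Group G] {A B : Type} [AddCommGroup A] [DistribMulAction G A]
  [AddCommGroup B] [DistribMulAction G B]

/-- A module through which a map with Higman's condition induces the identity. -/
theorem Cl.of_hig {u : A → A} (hu : Hig p G u) (i : B →+[G] A) (r : A →+[G] B)
    (h : ∀ x, r (u (i x)) = x) : Cl p G B := fun P _ hP => by
  obtain ⟨θ, hθ⟩ := hu P inferInstance hP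
  refine ⟨(r : A →+ B).comp (θ.comp (i : B →+ A)), fun x => ?_⟩
  conv_rhs => rw [← h x, ← hθ, finsum_eq_sum_of_fintype, map_sum]
  exact Finset.sum_congr rfl fun g _ => by simp

/-- A quasi-idempotent with Higman's condition is zero in the cohomology above the dimension. -/
theorem hmapZero_of_hig {d : ℕ} [Fact p.Prime] [TopologicalSpace G] [IsTopologicalGroup G]
    [CompactSpace G] [T2Space G] [TotallyDisconnectedSpace G] (V : I.VirtUnif p d G)
    (hV : IsUnifS p d V.U) [DiscMod G A] (hA : ∀ a : A, p • a = 0) (u : A →+[G] A)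
    (hu : Hig p G u) {m : ℤ} (hm : ¬ (p : ℤ) ∣ m) (hs : ∀ a, u (u a) = m • u a) (s : ℕ)
    (h : d < s) : HMapZero G s u := by
  obtain ⟨a, b, hab⟩ := ((Nat.prime_iff_prime_int.1 (Fact.out : p.Prime)).irreducible
    |>.coprime_iff_not_dvd).2 hm
  have h1 : ∀ x : A, (b * m) • x = x := fun x => by
    rw [eq_sub_of_add_eq' hab, sub_smul, one_smul, mul_smul, natCast_zsmul, hA, smul_zero, sub_zero]
  let R : AddSubgroup A := (u : A →+ A).range
  have hR : ∀ (g : G) (x : A), x ∈ R → g • x ∈ R := by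
    rintro g _ ⟨x, rfl⟩
    exact ⟨g • x, map_smul u g x⟩
  let _ : DistribMulAction G R := subAct R hR
  have : DiscMod G R := discMod_sub R hR
  let i : R →+[G] A :=
    { toFun := fun z => z.1
      map_smul' := fun _ _ => rfl
      map_zero' := rfl
      map_add' := fun _ _ => rfl }
  let r : ℤ → A →+[G] R := fun l =>
    { toFun := fun x => ⟨l • u x, R.zsmul_mem ⟨x, rfl⟩ l⟩
      map_smul' := fun g x => Subtype.ext (by
        change l • u (g • x) = g • (l • u x)
        rw [map_smul, smul_comm])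
      map_zero' := Subtype.ext (by simp)
      map_add' := fun x y => Subtype.ext (by simp) }
  have h2 : Cl p G R := Cl.of_hig hu i (r (b * b)) (by
    rintro ⟨_, x, rfl⟩
    refine Subtype.ext ?_
    change (b * b) • u (u (u x)) = u x
    rw [hs, hs, smul_smul, smul_smul, mul_assoc, mul_mul_mul_comm, mul_smul, h1, h1])
  have h3 := ((hZero_cl V hV s h R (fun z => Subtype.ext (hA z.1)) h2).hmapZero i).comp_right (r 1)
  convert h3 using 1
  funext x
  exact (one_smul ℤ (u x)).symm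

end gen

section ring

variable {G : Type} [Group G] {A : Type} [CommRing A] {ι : Type} [Fintype ι] [DecidableEq ι]
  {M : ℕ} (τ : TwAct G A) (f : G → InvSeries A) (f1 : f 1 = 1)
  (fm : ∀ g h, f (g * h) = InvSeries.map (τ.phi g) (f h) * f g)

variable (M) in
/-- The action on `A[y] / y ^ M` in matrix form. -/
noncomputable def coc (P : Subgroup G) : Coc P A (Fin M) where
  φ g := τ.phi g
  S g := Sm M (f g).val
  φ_one := τ.phi_one
  φ_mul g h := τ.phi_mul g h
  S_one := by rw [OneMemClass.coe_one, f1, Sm_one]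
  S_mul g h := by rw [Subgroup.coe_mul, fm, Sm_mul]

include f1 fm in
/-- **The norm trick** for a twisted action on `A[y_b] / (y_b ^ M)`. -/
theorem higAt_of_unit (τ' : TwAct G (Tr A ι M)) (hφ : ∀ g, τ'.phi g = sub ι M (τ.phi g) (f g))
    (ha : ∀ g, τ'.a g = Units.map ((Tr.C ι M : A →+* Tr A ι M) : A →* Tr A ι M) (τ.a g))
    (P : Subgroup G) [Fintype P] {i j : Fin M} (hu : IsUnit ((∑ g : P, Sm M (f g).val) i j)) {p : ℕ}
    {c : MonoidAlgebra ℤ (Equiv.Perm ι)} {m : ℤ} (hc : IsIdem p M c m) (w : ℤ) :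
    HigAt P fun y : τ'.Wt w => τ'.of w (epsT A M c (τ'.val w y)) := by
  obtain ⟨Θ, hΘ⟩ := (coc M τ f f1 fm P).norm hu (Em A M c) (Em_comm c) (Em_kill hc i)
  have h1 : ∀ (g : G) (y : τ'.Wt w), co (τ'.val w (g • y)) = ((τ.a g ^ w : Aˣ) : A) •
      (K (fun _ => Sm M (f g).val) *ᵥ (τ.phi g ∘ co (τ'.val w y))) := fun g y => by
    rw [TwAct.smul_def, ha, ← map_zpow, hφ, ← co_sub, ← co_C_mul]
    rfl
  have h2 : ∀ g : G, ((τ.a g ^ w : Aˣ) : A) * τ.phi g ((τ.a g⁻¹ ^ w : Aˣ) : A) = 1 := fun g => by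
    have h3 := τ.a_mul g g⁻¹
    rw [mul_inv_cancel, τ.a_one] at h3
    have h4 := congrArg (fun x : Aˣ => ((x ^ w : Aˣ) : A)) h3
    simp only [_root_.one_zpow, Units.val_one, mul_zpow, ← map_zpow, Units.val_mul] at h4
    exact h4.symm
  obtain ⟨θ, hθ⟩ : ∃ θ : τ'.Wt w →+ τ'.Wt w, ∀ y,
      co (τ'.val w (θ y)) = (Em A M c * Θ) *ᵥ co (τ'.val w y) :=
    ⟨AddMonoidHom.mk' (fun y => τ'.of w (un ((Em A M c * Θ) *ᵥ co (τ'.val w y)))) fun x y => by
      simp only [map_add, Matrix.mulVec_add], fun y => co_un _⟩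
  refine ⟨θ, fun y => (τ'.val w).injective (co_injective ?_)⟩
  rw [finsum_eq_sum_of_fintype, map_sum, map_sum, TwAct.val_of, co_epsT, ← hΘ, Finset.mul_sum,
    Matrix.sum_mulVec]
  refine Finset.sum_congr rfl fun g _ => ?_
  have h3 : ((coc M τ f f1 fm P).kron ι).act g (Em A M c) = Em A M c := by
    have h4 : (Em A M c).map (τ.phi g) = Em A M c := by
      ext a b
      exact map_intCast (τ.phi g) _
    have h5 : K (fun _ : ι => Sm M (f g).val) * (K fun _ => Sm M (f (g : G)⁻¹).val).map (τ.phi g) =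
      1 := ((coc M τ f f1 fm P).kron ι).mul_inv g
    change K (fun _ : ι => Sm M (f g).val) * (Em A M c).map (τ.phi g) *
      (K fun _ => Sm M (f (g : G)⁻¹).val).map (τ.phi g) = _
    rw [h4, ← Em_comm, mul_assoc, h5, mul_one]
  have h4 : ∀ (a : A) (v : (ι → Fin M) → A), τ.phi g ∘ (a • v) = τ.phi g a • (τ.phi g ∘ v) :=
    fun a v => funext fun s => map_mul _ _ _
  have h5 := ((coc M τ f f1 fm P).kron ι).mulVec_act g (Em A M c * Θ) (co (τ'.val w y))
  rw [map_mul, h3] at h5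
  rw [← h5, h1, hθ, h1, Matrix.mulVec_smul, h4, Matrix.mulVec_smul, smul_smul, h2, one_smul]
  rfl

end ring

section LT

variable {p n : ℕ} [Fact p.Prime] {k : Type} [Field k] (D : LTD p n k)

/-- The bound for `M`. -/
noncomputable def bnd : ℕ :=
  (p ^ (n * 2) + 1) * (AutF.congr D.H.toFG (p ^ (n * 2))).index + 1

omit [Fact p.Prime] in
theorem one_le_bnd : 1 ≤ bnd D := Nat.le_add_left _ _

/-- The norm of a finite `p`-subgroup on `k[y] / y ^ M` is not zero. -/
theorem exists_ne {M : ℕ} (hM : bnd D ≤ M) (P : Subgroup D.GG) [Fintype P] (hP : IsPGroup p P) :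
    ∃ i j : Fin M, PowerSeries.coeff (i : ℕ) (∑ g : P, ((g : D.GG)⁻¹).val ^ (j : ℕ)) ≠ 0 := by
  have := D.finite
  have := D.charP
  have hU := (isUnifS D.honda D.card (Nat.one_le_iff_ne_zero.2 D.hh)).tf
  have h1 : ∀ g : P, (g : D.GG) ∈ AutF.congr D.H.toFG (p ^ (n * 2)) → g = 1 := fun g hg => by
    obtain ⟨l, hl⟩ := hP g
    exact Subtype.ext (hU g hg l (congrArg Subtype.val hl))
  have := Subgroup.quotient_finite_of_isOpen _ (AutF.isOpen_congr (H := D.H.toFG) (p ^ (n * 2)))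
  have h2 : Fintype.card P ≤ (AutF.congr D.H.toFG (p ^ (n * 2))).index := by
    rw [← Nat.card_eq_fintype_card]
    refine Nat.card_le_card_of_injective (fun g : P => ((g : D.GG) : D.GG ⧸ _)) fun g h e => ?_
    exact inv_mul_eq_one.1 (h1 (g⁻¹ * h) (QuotientGroup.eq.1 e))
  refine exists_coeff_ne (c := p ^ (n * 2)) _ 1 (fun g hg hd => hg (h1 g ?_))
    (lt_of_le_of_lt (Nat.mul_le_mul_left _ h2) hM)
  rw [← inv_mem_iff]
  intro i hi
  have h3 := PowerSeries.X_pow_dvd_iff.1 hd i hi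
  rw [map_sub, sub_eq_zero, OneMemClass.coe_one, inv_one] at h3
  exact h3.symm

theorem exists_unit {M : ℕ} (hM : bnd D ≤ M) (P : Subgroup D.GG) [Fintype P] (hP : IsPGroup p P) :
    ∃ i i' : Fin M, ∀ j, IsUnit ((∑ g : P, Sm M (serX D j g).val) i i') := by
  obtain ⟨i, i', h⟩ := exists_ne D hM P hP
  refine ⟨i, i', fun j => (EE.isUnit_iff k (n - 1) j).2 ?_⟩
  convert h using 1
  rw [Matrix.sum_apply, map_sum, map_sum]
  refine Finset.sum_congr rfl fun g _ => ?_
  have h1 := congrArg InvSeries.val (D.map_π_ser_inv (j := j) g)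
  rw [Sm, Matrix.of_apply, ← PowerSeries.coeff_map, map_pow]
  exact congrArg (fun x => PowerSeries.coeff (i : ℕ) (x ^ (i' : ℕ))) h1

variable {ι : Type} [Fintype ι] [DecidableEq ι] {M : ℕ} {c : MonoidAlgebra ℤ (Equiv.Perm ι)} {m : ℤ}

/-- **The norm trick.** -/
theorem hig_epsV (hM : bnd D ≤ M) (hc : IsIdem p M c m) (j : ℕ) (w : ℤ) :
    Hig p D.GG (epsV D j M c w) := fun P _ hP => by
  have := Fintype.ofFinite P
  obtain ⟨i, i', h⟩ := exists_unit D hM P hP
  obtain ⟨θ, hθ⟩ := higAt_of_unit (tw D j) (serX D j) (serX_one D j) (serX_mul D j) (twX D j ι M)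
    (fun _ => rfl) (fun _ => rfl) P (h j) hc w
  exact ⟨θ, fun y => (hθ y).trans (val_epsV D j M c w y).symm⟩

theorem discMod_VX (j : ℕ) (w : ℤ) : DiscMod D.GG (VX D j ι M w) := ⟨fun y => by
  have h := ((coTr ι M (D.coPt j)).discMod_wt (fun g : D.GG => (coTr ι M (D.coPt j)).comm_of_lawAction
    (isCo_coTr ι M (D.isCo j)) g) w).isOpen_stab ((twCmp D j ι M).map w y)
  convert h using 3 with g
  exact ⟨fun e => (map_smul ((twCmp D j ι M).map w) g y).symm.trans (congrArg _ e),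
    fun e => (map_smul ((twCmp D j ι M).map w) g y).trans e⟩⟩

omit [Fintype ι] [DecidableEq ι] in
theorem nsmul_VX (j : ℕ) (w : ℤ) (y : VX D j ι M w) : p • y = 0 := by
  refine TwAct.nsmul_eq_zero _ w ?_ y
  rw [← map_natCast ((Tr.C ι M).comp (algebraMap k (D.EJ j))), D.p_eq_zero, map_zero]

theorem epsV_epsV (hc : IsIdem p M c m) (j : ℕ) (w : ℤ) (y : VX D j ι M w) :
    epsV D j M c w (epsV D j M c w y) = m • epsV D j M c w y := by
  apply ((twX D j ι M).val w).injective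
  rw [map_zsmul, val_epsV, val_epsV, epsT_epsT, hc.sq, epsT_smul]

/-- **The vanishing line**, sharp form. -/
theorem hmapZero_epsV (hM : bnd D ≤ M) (hc : IsIdem p M c m) (j : ℕ) (w : ℤ) (s : ℕ)
    (hs : n * n < s) : HMapZero D.GG s (epsV D j M c w) := by
  have := D.finite
  have := D.charP
  have := discMod_VX D (ι := ι) (M := M) j w
  exact hmapZero_of_hig (virtUnifS D.honda D.card (Nat.one_le_iff_ne_zero.2 D.hh))
    (virtUnifS_unifS _ _ _) (nsmul_VX D j w) _ (hig_epsV D hM hc j w) hc.unit (epsV_epsV D hc j w)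
    s hs

theorem vanX (hM : bnd D ≤ M) (hc : IsIdem p M c m) : VanX D M c :=
  ⟨n * n + 1, fun j w s hs => hmapZero_epsV D hM hc j w s hs⟩

/-- The form used by the base case. -/
theorem exists_vanX : ∃ M₀ : ℕ, 1 ≤ M₀ ∧ ∀ M, M₀ ≤ M → ∀ (ι : Type) [Fintype ι] [DecidableEq ι]
    (c : MonoidAlgebra ℤ (Equiv.Perm ι)) (m : ℤ), IsIdem p M c m →
      (∀ j w, Hig p D.GG (epsV D j M c w)) ∧ VanX D M c :=
  ⟨bnd D, one_le_bnd D, fun _ hM _ _ _ _ _ hc => ⟨hig_epsV D hM hc, vanX D hM hc⟩⟩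

end LT

end Vale.Agent.P261Z.T3
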