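import Vale.Agent.P261Z.T3.St
import Vale.Agent.P261Z.T3.KRev
import Vale.Agent.P257.H702.Under
import Vale.Agent.P257.H702.LawS
import Vale.Agent.P251.St.Result2
import Vale.Agent.P251.St.ToChrom
import Vale.Agent.P251.X.KExists

/-!
# P261, T3: Morava `K`-theories of the statement layer

* `IsK.exists_kMod` : a Morava `K`-theory as a module over `MU`.
* `IsK.acyclic_iff` : it has the Bousfield class of the Koszul object of height `n`.
* `isK_of_isMorava`, `exists_isK_odd` : the commutative ring spectra `K(n)` at odd primes.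
-/

open CategoryTheory MonoidalCategory Limits Pretriangulated MonObj

set_option linter.unusedSectionVars false

noncomputable section

namespace Vale.Agent.P261Z.T3

open Vale.Agent.P251 Vale.Agent.P251.I Vale.Agent.P251.T Vale.Agent.P251.M Vale.Agent.P251.St
  Vale.Agent.P251.F Vale.Agent.P251.S Vale.Agent.P257.H702 Vale.Agent.P261Z.St
open Vale.Agent.P251.M.EvenSpheres

variable {T : SHCat} {S : Susp T}

/-- a module of the statement layer as a module of the library -/
def toModStr {R : RingSp T} (K : ModSp R) : ModStr R.obj K.obj := ⟨K.act, K.one_act, K.mul_act⟩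

/-- a module of the library as a module of the statement layer -/
def ofModStr {R : RingSp T} {K : T.C} (M : ModStr R.obj K) : ModSp R :=
  ⟨K, M.act, M.one_act, M.mul_act⟩

theorem exists_kMod {D : MUData T.C} (hD : MUUniv (M.lineIso S.toSpaceFunctor) D) {p n : ℕ}
    (hp : 1 ≤ p) {K : T.C} (h : IsK S p n K) :
    ∃ (M : ModStr D.R K) (g : 𝟙_ T.C ⟶ K), KMod D p n M g := by
  obtain ⟨R, o, c, K, rfl, h⟩ := h
  obtain ⟨u, hu, hv⟩ := exists_under hD hp h.series
  obtain ⟨g, hg, -, hgen⟩ := h.field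
  have key : ∀ i, D.vel p i ▷ K.obj ≫ ((toModStr K).restr u).act =
      (spI S hp i).inv ▷ K.obj ≫ K.mulBy (c (p ^ i - 1)) := by
    intro i
    have h1 : D.vel p i ≫ u = (spI S hp i).inv ≫ c (p ^ i - 1) := hv i
    change D.vel p i ▷ K.obj ≫ u ▷ K.obj ≫ K.act =
      (spI S hp i).inv ▷ K.obj ≫ c (p ^ i - 1) ▷ K.obj ≫ K.act
    rw [← comp_whiskerRight_assoc, h1, comp_whiskerRight_assoc]
  refine ⟨(toModStr K).restr u, g, fun k f hk => h.sparse k f hk, hg, hgen, fun i hi => ?_, ?_⟩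
  · rw [key, h.low i hi]
    exact comp_zero
  · rw [key]
    have := h.top
    infer_instance

/-- **A Morava `K`-theory has the Bousfield class of the Koszul object.** -/
theorem isK_acyclic_iff {D : MUData T.C} (hD : MUUniv (M.lineIso S.toSpaceFunctor) D) {p n : ℕ}
    [Fact p.Prime] (hp : MUAt D p) (hn : 1 ≤ n) {K : T.C} (h : IsK S p n K)
    (Z : KosData D.P (p : ℤ) n (D.vs p)) (W : T.C) :
    P251.S.Acyclic K W ↔ P251.S.Acyclic Z.K W := by
  obtain ⟨M, g, H⟩ := exists_kMod hD (Fact.out : p.Prime).one_le h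
  exact H.acyclic_iff hD hp hn Z W

theorem isK_acyclic_iff' {D : MUData T.C} (hD : MUUniv (M.lineIso S.toSpaceFunctor) D) {p n : ℕ}
    [Fact p.Prime] (hp : MUAt D p) (hn : 1 ≤ n) {K : T.C} (h : IsK S p n K)
    (Z : KosData D.P (p : ℤ) n (D.vs p)) (W : T.C) :
    St.Acyclic K W ↔ P251.S.Acyclic Z.K W :=
  (St.acyclic_iff K W).trans (isK_acyclic_iff hD hp hn h Z W)

/-- A commutative ring spectrum which is a Morava `K`-theory is one as a module over itself. -/
theorem isK_of_isMorava {p n : ℕ} (hp : 1 < p) (hn : n ≠ 0) {R : RingSp T}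
    (h : St.IsMorava S R p n) : IsK S p n R.obj := by
  have h' : IsPeriodicField R p (2 * ((p : ℤ) ^ n - 1)) ∧
      ∃ o : St.Oriented S R, HasPSeries S R p (p ^ n - 1) o := by
    simpa [St.IsMorava, hn] using h
  obtain ⟨hf, o, ho⟩ := h'
  obtain ⟨c, hc⟩ := exists_isPSeries p o
  have hK : Z.IsMoravaPos S.toSpaceFunctor p n (zOriented o) :=
    ⟨fun k hk f => hf.sparse k f hk, hf.char, hf.ne, fun f => hf.gen f, fun N hN => by
      obtain rfl : N = p ^ n - 1 := by omega
      exact height_of S R ho⟩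
  have hpi : ∀ i, p ^ i - 1 + 1 = p ^ i := fun i =>
    Nat.sub_add_cancel (Nat.one_le_pow _ _ (by omega))
  obtain ⟨v, w, hw, h1, h2⟩ := Z.IsFam.vv (hF := cofTriangles S.toSpaceFunctor)
    (hs := isSusp_lineCls (M.lineIso S.toSpaceFunctor) (SeqMonoid.const R.obj))
    (Z.isFam_famK (M.lineIso S.toSpaceFunctor) (zOriented o)) hp hK (p ^ n - 1) (hpi n)
  have key : ∀ i, vv p i (lawS o) = HRing.of (stdEven T.C) R.obj ((p ^ i - 1 : ℕ) : ℤ)
      ((isoE S (p ^ i - 1)).inv ≫ c (p ^ i - 1)) := by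
    intro i
    rw [← isPSeries_iff_lawS.1 hc (p ^ i - 1), hpi]
    rfl
  refine ⟨R, o, c, ofModStr (ModStr.self R.obj), rfl, hc, fun k f hk => hf.sparse k f hk,
    ⟨R.unit, hf.ne, hf.char, hf.gen⟩, fun i hi => ?_, ?_⟩
  · have h3 : HRing.of (stdEven T.C) R.obj ((p ^ i - 1 : ℕ) : ℤ)
        ((isoE S (p ^ i - 1)).inv ≫ c (p ^ i - 1)) =
        HRing.of (stdEven T.C) R.obj ((p ^ i - 1 : ℕ) : ℤ) 0 :=
      ((key i).symm.trans (h1 i hi)).trans (map_zero _).symm
    have h4 := DirectSum.of_injective (β := (stdEven T.C).Gr R.obj) _ h3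
    have h5 : c (p ^ i - 1) = 0 := by
      rw [← cancel_epi (isoE S (p ^ i - 1)).inv]
      exact h4.trans comp_zero.symm
    change c (p ^ i - 1) ▷ R.obj ≫ μ[R.obj] = 0
    rw [h5, MonoidalPreadditive.zero_whiskerRight, zero_comp]
  · have h4 := DirectSum.of_injective (β := (stdEven T.C).Gr R.obj) _ ((key n).symm.trans h2)
    have h5 : c (p ^ n - 1) = v := (cancel_epi (isoE S (p ^ n - 1)).inv).1 h4
    have h7 : IsIso (R.obj ◁ c (p ^ n - 1) ≫ μ[R.obj]) := by
      rw [h5]
      exact St.isIso_actV (St.braiding_SC S.toSpaceFunctor (p ^ n - 1)) w v hw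
    change IsIso (c (p ^ n - 1) ▷ R.obj ≫ μ[R.obj])
    have h8 : c (p ^ n - 1) ▷ R.obj ≫ μ[R.obj] =
        (β_ _ _).hom ≫ R.obj ◁ c (p ^ n - 1) ≫ μ[R.obj] := by
      rw [← BraidedCategory.braiding_naturality_left_assoc, IsCommMonObj.mul_comm]
    rw [h8]
    infer_instance

/-- **Existence of Morava `K`-theories at odd primes.** -/
theorem exists_isK_odd (S : Susp T) {p n : ℕ} [Fact p.Prime] (hp : p ≠ 2) (hn : n ≠ 0) :
    ∃ K : T.C, IsK S p n K := by
  have hp' : p.Prime := Fact.out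
  obtain ⟨K, hK⟩ := exists_morava p hp'.ne_zero T S
    (fun n => X.exists_isMorava S.toSpaceFunctor hp n)
  exact ⟨(K n).obj, isK_of_isMorava hp'.one_lt hn (hK n)⟩

end Vale.Agent.P261Z.T3
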