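import Vale.Agent.P261Z.T3.GUnif

/-!
# P261, T3: tensor induction and vanishing in high degrees at every prime

`iterSP`: the main step of part C of P251, also in characteristic two.
`Hig`: Higman's condition; `vanish`: towers whose maps vanish on the finite `p`-subgroups.
-/

open Finset Function

namespace Vale.Agent.P261Z.T3

open Vale.Agent.P251 Vale.Agent.P251.C Vale.Agent.P251.I

theorem wo_tour (Q : Type*) : IsTournament (WellOrderingRel : Q → Q → Prop) := by
  refine ⟨fun c => irrefl_of WellOrderingRel _, fun c e hce =>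
    ⟨asymm_of WellOrderingRel, fun h => ?_⟩⟩
  rcases trichotomous_of WellOrderingRel c e with h1 | h1 | h1
  · exact h1
  · exact absurd h1 hce
  · exact absurd h1 h

section dJ

variable {R : Type*} [CommRing R] {S : Type*} [Group S] {U : Subgroup S} [Fintype (S ⧸ U)]
  {X : Type*} [TopologicalSpace X] [CompactSpace X] (ρ : ResData R X)
  {M : Type*} [AddCommGroup M] [Module R M]
  (hns : (∀ (g : S) (c e : S ⧸ U), g • c = e → g • e = c → c = e) ∨ (-1 : R) = 1)
include hns

theorem exists_tour [DecidableEq (S ⧸ U)] : ∃ r : S ⧸ U → S ⧸ U → Prop, IsTournament r ∧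
    ∀ F : LocallyConstant (S ⧸ U → X) M, DD ρ (orbTour S (S ⧸ U)) F = DD ρ r F := by
  rcases hns with h | h
  · exact ⟨_, orbTour_isTournament S (S ⧸ U) h, fun _ => rfl⟩
  · refine ⟨_, wo_tour _, fun F => ?_⟩
    rw [DD_apply, DD_apply]
    refine Finset.sum_congr rfl fun c _ => ?_
    ext x
    rw [sm_apply, sm_apply, h, one_pow, one_pow]

theorem dJ_dJS (F : LC (IndSp U X) M) : dJ ρ U M (dJ ρ U M F) = 0 := by
  let _ := Classical.decEq (S ⧸ U)
  obtain ⟨r, hr, h⟩ := exists_tour (M := M) ρ hns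
  rw [dJ_apply, dJ_apply, toPi_ofPi, h, h, DD_DD ρ hr]
  rfl

theorem exactJ_posS {j : ℕ} {F : LC (IndSp U X) M} (hF : F ∈ JMod U ρ M (j + 1))
    (hD : dJ ρ U M F = 0) : ∃ G ∈ JMod U ρ M j, dJ ρ U M G = F := by
  let _ := Classical.decEq (S ⧸ U)
  obtain ⟨r, hr, h⟩ := exists_tour (M := M) ρ hns
  have h0 : DD ρ r (toPi F) = 0 := by
    have := congrArg toPi hD
    rw [dJ_apply, toPi_ofPi, h] at this
    exact this
  obtain ⟨G, hG, hGF⟩ := exact_pos ρ hr ((toPi_mem ρ).2 hF) h0
  refine ⟨ofPi G, (ofPi_mem ρ).2 hG, ?_⟩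
  rw [dJ_apply, toPi_ofPi, h, hGF, ofPi_toPi]

theorem exactJ_zeroS {F : LC (IndSp U X) M} (hF : F ∈ JMod U ρ M 0)
    (hD : dJ ρ U M F = 0) : ∃ m, augJ ρ U M m = F := by
  let _ := Classical.decEq (S ⧸ U)
  obtain ⟨r, hr, h⟩ := exists_tour (M := M) ρ hns
  have h0 : DD ρ r (toPi F) = 0 := by
    have := congrArg toPi hD
    rw [dJ_apply, toPi_ofPi, h] at this
    exact this
  obtain ⟨m, hm⟩ := exact_zero ρ hr ((toPi_mem ρ).2 hF) h0
  refine ⟨m, ?_⟩
  have h1 : toPi (augJ ρ U M m) = aug ρ m := rfl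
  rw [← ofPi_toPi (augJ ρ U M m), h1, hm, ofPi_toPi]

end dJ

section iterS

variable {p : ℕ} {S : Type} [Group S] [TopologicalSpace S] [IsTopologicalGroup S] [CompactSpace S]
  [T2Space S] [TotallyDisconnectedSpace S] (U : Subgroup S) [U.Normal]
  {X : Type} [TopologicalSpace X] [CompactSpace X] [T2Space X] [TotallyDisconnectedSpace X]
  [MulAction U X] [ContinuousSMul U X] (ρ : ResData (ZMod p) X)

/-- The main step: if the maps of a tower of discrete modules killed by `p` are zero in the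
cohomology (in positive degrees) of the finite subgroups meeting `U` trivially, then the composite
of `d * [S : U] + 1` maps is zero in the cohomology of `S` in degrees above `d * [S : U]`. -/
theorem iterSP (hU : IsOpen (U : Set S)) (hρ : Equi ρ U) {d : ℕ} (hd : ∀ x, ρ.deg x ≤ d)
    (hfree : ∀ (u : U) (z : X), u • z = z → u = 1) (hodd : Odd (Nat.card (S ⧸ U)) ∨ p = 2)
    (M : ℕ → Type) [∀ k, AddCommGroup (M k)] [∀ k, DistribMulAction S (M k)]
    [∀ k, DiscMod S (M k)] (hM : ∀ k (m : M k), p • m = 0) (u : ∀ k, M (k + 1) →+[S] M k)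
    (hu : ∀ (P : Subgroup S), Finite P → P ⊓ U = ⊥ → ∀ k s, 1 ≤ s → HMapZero P s (u k))
    (s : ℕ) (hs : d * Nat.card (S ⧸ U) + 1 ≤ s) :
    HMapZero S s (compT u (d * Nat.card (S ⧸ U) + 1)) := by
  classical
  have : Finite (S ⧸ U) := Subgroup.quotient_finite_of_isOpen U hU
  let _ : Fintype (S ⧸ U) := Fintype.ofFinite _
  let _ : ∀ k, Module (ZMod p) (M k) := fun k => AddCommGroup.zmodModule (hM k)
  have : ∀ k, SMulCommClass S (ZMod p) (M k) := fun k => smulComm_zmod
  have : ContinuousSMul S (IndSp U X) := continuousSMul_indSp hU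
  have hns : (∀ (g : S) (c e : S ⧸ U), g • c = e → g • e = c → c = e) ∨ (-1 : ZMod p) = 1 :=
    hodd.imp (noSwap U) fun h => by subst h; rfl
  have : ∀ k, DiscMod S (LC (IndSp U X) (M k)) := fun k => discMod_LC
  let J : ℕ → ℕ → Type := fun k i => JMod U ρ (M k) i
  have hst : ∀ k i (g : S) (a : LC (IndSp U X) (M k)), a ∈ JMod U ρ (M k) i →
      g • a ∈ JMod U ρ (M k) i := fun k i g a ha => smul_mem_JMod ρ hρ g ha
  let _ : ∀ k i, DistribMulAction S (J k i) := fun k i => subAct _ (hst k i)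
  have : ∀ k i, DiscMod S (J k i) := fun k i => discMod_sub _ (hst k i)
  let w : ∀ k i, J (k + 1) i →+[S] J k i := fun k i =>
    { toFun := fun z => ⟨LC.mapG (IndSp U X) (u k) z.1,
        map_mem_JMod ρ (u k : M (k + 1) →+ M k) z.2⟩
      map_smul' := fun g z => Subtype.ext (map_smul (LC.mapG (IndSp U X) (u k)) g z.1)
      map_zero' := Subtype.ext (map_zero (LC.mapG (IndSp U X) (u k)))
      map_add' := fun a b => Subtype.ext (map_add (LC.mapG (IndSp U X) (u k)) a.1 b.1) }
  let ε : ∀ k, M k →+[S] J k 0 := fun k =>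
    { toFun := fun m => ⟨augJ ρ U (M k) m, augJ_mem ρ m⟩
      map_smul' := fun g m => Subtype.ext (augJ_smul ρ hρ g m)
      map_zero' := Subtype.ext (map_zero (augJ ρ U (M k)))
      map_add' := fun a b => Subtype.ext (map_add (augJ ρ U (M k)) a b) }
  let δ : ∀ k i, J k i →+[S] J k (i + 1) := fun k i =>
    { toFun := fun z => ⟨dJ ρ U (M k) z.1, dJ_mem ρ z.2⟩
      map_smul' := fun g z => Subtype.ext (dJ_smul ρ hρ g z.1)
      map_zero' := Subtype.ext (map_zero (dJ ρ U (M k)))
      map_add' := fun a b => Subtype.ext (map_add (dJ ρ U (M k)) a.1 b.1) }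
  have hcard : Fintype.card (S ⧸ U) = Nat.card (S ⧸ U) := (Nat.card_eq_fintype_card).symm
  refine HMapZero.iter (G := S) (d * Nat.card (S ⧸ U)) M J u w ε δ ?_ ?_ ?_ ?_ ?_ ?_ ?_ s hs
  · intro k a b hab
    exact augJ_injective (ZMod p) ρ (congrArg Subtype.val hab)
  · intro k x
    constructor
    · intro h
      obtain ⟨m, hm⟩ := exactJ_zeroS ρ hns x.2 (congrArg Subtype.val h)
      exact ⟨m, Subtype.ext hm⟩
    · rintro ⟨m, rfl⟩
      exact Subtype.ext (dJ_augJ ρ m)
  · intro k i x
    constructor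
    · intro h
      obtain ⟨y, hy, hyx⟩ := exactJ_posS ρ hns x.2 (congrArg Subtype.val h)
      exact ⟨⟨y, hy⟩, Subtype.ext hyx⟩
    · rintro ⟨y, rfl⟩
      exact Subtype.ext (dJ_dJS ρ hns y.1)
  · intro k m
    exact Subtype.ext (map_augJ ρ (u k : M (k + 1) →+ M k) m)
  · intro k i x
    exact Subtype.ext (dJ_map ρ (linOf (p := p) (u k)) x.1).symm
  · intro k x
    refine Subtype.ext (JMod_eq_bot ρ hd ?_ x.2)
    rw [hcard]
    exact Nat.lt_succ_self _
  · intro k i s hs
    have h1 : HMapZero S s (LC.mapG (IndSp U X) (u k)) := by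
      refine lemmaX (u k) (fun x => finite_stab hfree x) fun x => ?_
      refine hu _ (finite_stab hfree x) ?_ k s hs
      rw [eq_bot_iff]
      rintro g ⟨hg1, hg2⟩
      exact stab_inf hfree x hg2 hg1
    let ι : J (k + 1) i →+[S] LC (IndSp U X) (M (k + 1)) :=
      { toFun := fun z => z.1
        map_smul' := fun g z => rfl
        map_zero' := rfl
        map_add' := fun a b => rfl }
    let π : LC (IndSp U X) (M k) →+[S] J k i :=
      { toFun := fun F => ⟨cmpJ ρ U (M k) i F, cmpJ_mem ρ i F⟩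
        map_smul' := fun g F => Subtype.ext (cmpJ_smul ρ hρ i g F)
        map_zero' := Subtype.ext (map_zero (cmpJ ρ U (M k) i))
        map_add' := fun a b => Subtype.ext (map_add (cmpJ ρ U (M k) i) a b) }
    have h2 := (h1.comp_right ι).comp_left π
    have h3 : (π ∘ (LC.mapG (IndSp U X) (u k)) ∘ ι : J (k + 1) i → J k i) = w k i := by
      funext z
      exact Subtype.ext (cmpJ_of_mem ρ (map_mem_JMod ρ (u k : M (k + 1) →+ M k) z.2))
    rw [← h3]
    exact h2

end iterS

section hig

variable {G : Type*} [Group G] {M N : Type*} [AddCommGroup M] [DistribMulAction G M]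
  [AddCommGroup N] [DistribMulAction G N]

/-- The map `u` is a trace from the trivial subgroup to `P`. -/
def HigAt (P : Subgroup G) (u : M → N) : Prop :=
  ∃ θ : M →+ N, ∀ m, ∑ᶠ g : P, (g : G) • θ ((g : G)⁻¹ • m) = u m

/-- Higman's condition for all finite `p`-subgroups of `G`. -/
def Hig (p : ℕ) (G : Type*) [Group G] {M N : Type*} [AddCommGroup M] [DistribMulAction G M]
    [AddCommGroup N] [DistribMulAction G N] (u : M → N) : Prop :=
  ∀ P : Subgroup G, Finite P → IsPGroup p P → HigAt P u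

theorem HigAt.hmapZero [TopologicalSpace G] {P : Subgroup G} [Finite P] {u : M → N}
    (h : HigAt P u) (s : ℕ) : HMapZero P (s + 1) u := by
  obtain ⟨θ, hθ⟩ := h
  have := Fintype.ofFinite P
  simp only [finsum_eq_sum_of_fintype] at hθ
  intro F hF hd
  refine ⟨∑ g : P, fun x => g • θ (g⁻¹ • F (Fin.cons g x)), ⟨?_, fun a x => ?_⟩, ?_⟩
  · have h1 : ∀ g : P, IsLocallyConstant fun x : Fin (s + 1) → P =>
        g • θ (g⁻¹ • F (Fin.cons g x)) := fun g =>
      (hF.lc.comp_continuous (continuous_const.finCons continuous_id)).comp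
        fun m => g • θ (g⁻¹ • m)
    exact Finset.sum_induction _ IsLocallyConstant (fun _ _ a b => a.add b)
      (IsLocallyConstant.const 0) fun g _ => h1 g
  · rw [Finset.sum_apply, Finset.sum_apply, Finset.smul_sum, ← Equiv.sum_comp (Equiv.mulLeft a)]
    refine Finset.sum_congr rfl fun g _ => ?_
    have h1 : (Fin.cons (a * g) fun i => a * x i : Fin (s + 2) → P) =
        fun i => a * (Fin.cons g x : Fin (s + 2) → P) i := by
      funext i
      refine Fin.cases rfl (fun _ => rfl) i
    rw [Equiv.coe_mulLeft, h1, hF.equi, mul_smul, mul_inv_rev, mul_smul, inv_smul_smul]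
  · funext x
    rw [dd_sum, Finset.sum_apply, Function.comp_apply, ← hθ]
    refine Finset.sum_congr rfl fun g _ => ?_
    have h1 := dd_cons F g x
    rw [hd, Pi.zero_apply, eq_comm, sub_eq_zero] at h1
    rw [h1]
    exact congrFun (dd_map ((DistribSMul.toAddMonoidHom N g).comp
      (θ.comp (DistribSMul.toAddMonoidHom M g⁻¹))) fun y => F (Fin.cons g y)) x

end hig

section vanish

variable {p d : ℕ} [Fact p.Prime] {G : Type} [Group G] [TopologicalSpace G] [IsTopologicalGroup G]
  [CompactSpace G] [T2Space G] [TotallyDisconnectedSpace G] (V : VirtUnif p d G)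

omit [IsTopologicalGroup G] [CompactSpace G] [T2Space G] [TotallyDisconnectedSpace G] in
theorem unifS_W (hV : IsUnifS p d V.U) : IsUnifS p d V.W := by
  refine hV.of_equiv (Subgroup.subgroupOfEquivOfLe V.le) ?_ ?_
  · exact Continuous.subtype_mk (continuous_subtype_val.comp continuous_subtype_val) _
  · exact Continuous.subtype_mk (Continuous.subtype_mk continuous_subtype_val _) _

/-- Towers whose maps vanish in the cohomology of the finite `p`-subgroups. -/
theorem vanish (hV : IsUnifS p d V.U) : ∃ K : ℕ,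
    ∀ (M : ℕ → Type) [∀ i, AddCommGroup (M i)] [∀ i, DistribMulAction G (M i)]
      [∀ i, DiscMod G (M i)] (f : ∀ i, M (i + 1) →+[G] M i), (∀ i, ∀ m : M i, p • m = 0) →
      (∀ P : Subgroup G, Finite P → IsPGroup p P → ∀ i s, 1 ≤ s → HMapZero P s (f i)) →
      ∀ s : ℕ, K ≤ s → HMapZero G s (compT f K) := by
  have := V.W_normal
  have := V.compact_S
  refine ⟨d * Nat.card (V.S ⧸ V.W) + 1, ?_⟩
  intro M _ _ _ f hM hP s hs
  obtain ⟨X, _, _, _, _, _, _, ρ, hρ, hd, hfree⟩ := hasResS (unifS_W V hV)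
  have h1 := iterSP V.W ρ V.isOpen_W hρ hd hfree
    ((eq_or_ne p 2).elim Or.inr fun h => Or.inl (V.odd_quot h)) M hM
    (fun k => resHom V.S (f k)) (fun P hPf hP' k s hs => by
      let φ := P.equivMapOfInjective V.S.subtype V.S.subtype_injective
      have hf : Finite (P.map V.S.subtype) := Finite.of_equiv _ φ.toEquiv
      exact HMapZero.transport (u := f k) (u' := resHom V.S (f k)) φ
        continuous_of_discreteTopology continuous_of_discreteTopology (AddEquiv.refl (M (k + 1)))
        (AddMonoidHom.id (M k)) (fun _ _ => rfl) (fun _ _ => rfl) (fun _ => rfl)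
        (hP _ hf ((V.isPGroup P hP').map V.S.subtype) k s hs)) s hs
  have h2 : HMapZero V.S s (compT f (d * Nat.card (V.S ⧸ V.W) + 1)) := by
    intro F hF hdF
    obtain ⟨Y, hY, hdY⟩ := h1 F hF hdF
    refine ⟨Y, hY, hdY.trans ?_⟩
    funext x
    have h5 : ∀ k (m : M k), compT (fun k => resHom V.S (f k)) k m = compT f k m := by
      intro k
      induction k with
      | zero => intro m; rfl
      | succ k ih => intro m; exact ih _
    exact h5 _ (F x)
  exact HMapZero.of_coprime_index (P := V.S) V.isOpen_S (shapiroAt G V.S V.isOpen_S)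
    (Nat.Coprime.symm V.coprime) (hM 0) (compT f (d * Nat.card (V.S ⧸ V.W) + 1)) (s := s)
    (by omega) h2

/-- The same under Higman's condition. -/
theorem vanish_hig (hV : IsUnifS p d V.U) : ∃ K : ℕ,
    ∀ (M : ℕ → Type) [∀ i, AddCommGroup (M i)] [∀ i, DistribMulAction G (M i)]
      [∀ i, DiscMod G (M i)] (f : ∀ i, M (i + 1) →+[G] M i), (∀ i, ∀ m : M i, p • m = 0) →
      (∀ i, Hig p G (f i)) → ∀ s : ℕ, K ≤ s → HMapZero G s (compT f K) := by
  obtain ⟨K, hK⟩ := vanish V hV
  refine ⟨K, fun M _ _ _ f hM h => hK M f hM fun P hf hP i s hs => ?_⟩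
  obtain ⟨s, rfl⟩ := Nat.exists_eq_add_of_le' hs
  exact (h i P hf hP).hmapZero s

end vanish

end Vale.Agent.P261Z.T3
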