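import Vale.Agent.P251.S.Final4
import Vale.Agent.P251.S.MUCobar
import Vale.Agent.P251.Z.LazMod

/-!
# P261, block T3: the homotopy of `MU` modulo `p` as a hypothesis

`MUAt D p` : the fields `odd`, `surj`, `ker` of `MUData` at the prime `p` (which may be `2`).
The consequences of these fields in the P251 tree, under this hypothesis (same names, with `At`).
-/

open CategoryTheory MonoidalCategory MonObj Limits Pretriangulated

set_option linter.unusedSectionVars false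

universe v u

namespace Vale.Agent.P261Z.T3

open Vale.Agent.P251 Vale.Agent.P251.M Vale.Agent.P251.M.EvenSpheres Vale.Agent.P251.F
  Vale.Agent.P251.T Vale.Agent.P251.S Vale.Agent.P251.S.GD Vale.Agent.P251.Z Vale.Agent.P251.I
  Vale.Agent.P251.I.MUData

variable {T : Type u} [Category.{v} T] [Preadditive T] [HasZeroObject T]
    [HasShift T ℤ] [∀ n : ℤ, (shiftFunctor T n).Additive] [Pretriangulated T] [IsTriangulated T]
    [MonoidalCategory T] [SymmetricCategory T] [TensorTriangulated T] [MonoidalClosed T]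
    [HasCoproducts.{0} T] [HasProducts.{0} T] [StableCat T]

/-- The homotopy of the tensor powers of `MU` modulo `p`. -/
structure MUAt (D : MUData T) (p : ℕ) : Prop where
  /-- the odd homotopy of `R^{⊗ (s+1)} ⊗ S/p` vanishes -/
  odd (s : ℕ) (C : T) (i : 𝟙_ T ⟶ C) (δ : C ⟶ (𝟙_ T)⟦(1 : ℤ)⟧)
    (hC : Triangle.mk ((p : ℤ) • 𝟙 (𝟙_ T)) i δ ∈ distTriang T) (k : ℤ)
    (f : (𝟙_ T)⟦2 * k + 1⟧ ⟶ Am D.R (s + 1) ⊗ C) : f = 0
  /-- `Cob Laz s → π_{2w}(R^{⊗ (s+1)} ⊗ S/p)` is onto -/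
  surj (s : ℕ) (C : T) (i : 𝟙_ T ⟶ C) (δ : C ⟶ (𝟙_ T)⟦(1 : ℤ)⟧)
    (hC : Triangle.mk ((p : ℤ) • 𝟙 (𝟙_ T)) i δ ∈ distTriang T) (w : ℤ)
    (f : (stdEven T).S w ⟶ Am D.R (s + 1) ⊗ C) :
    ∃ (z : Cob Laz s) (a : (stdEven T).S w ⟶ Am D.R (s + 1)), Cob.IsWt w z ∧
      D.ev s z = HRing.of (stdEven T) (Am D.R (s + 1)) w a ∧
      f = a ≫ (ρ_ (Am D.R (s + 1))).inv ≫ (Am D.R (s + 1) ◁ i)
  /-- its kernel is `p · Cob Laz s` -/
  ker (s : ℕ) (C : T) (i : 𝟙_ T ⟶ C) (δ : C ⟶ (𝟙_ T)⟦(1 : ℤ)⟧)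
    (hC : Triangle.mk ((p : ℤ) • 𝟙 (𝟙_ T)) i δ ∈ distTriang T) (w : ℤ) (z : Cob Laz s)
    (hz : Cob.IsWt w z) (a : (stdEven T).S w ⟶ Am D.R (s + 1))
    (ha : D.ev s z = HRing.of (stdEven T) (Am D.R (s + 1)) w a)
    (h : a ≫ (ρ_ (Am D.R (s + 1))).inv ≫ (Am D.R (s + 1) ◁ i) = 0) :
    ∃ y : Cob Laz s, Cob.IsWt w y ∧ z = (p : ℤ) • y

/-- odd primes -/
theorem MUAt.of_odd (D : MUData T) {p : ℕ} [Fact p.Prime] (hp : p ≠ 2) : MUAt D p :=
  ⟨D.odd p hp, D.surj p hp, D.ker p hp⟩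

variable (D : MUData T)

section grB

variable {C : T} (i : 𝟙_ T ⟶ C) {p : ℕ} [Fact p.Prime] (hp : MUAt D p)
  {δ : C ⟶ (𝟙_ T)⟦(1 : ℤ)⟧} (hC : Triangle.mk ((p : ℤ) • 𝟙 (𝟙_ T)) i δ ∈ distTriang T)

include hp hC

/-- `π_0 N_s` is generated by the unit over `Cob Laz s`. -/
theorem exists_smul_uNAt (s : ℕ) (f : 𝟙_ T ⟶ (Am D.R (s + 1) ⊗ C) ⊗ (stdEven T).PS) :
    ∃ z : Cob Laz s, uN D i s ≫ rN D C s z = f := by
  obtain ⟨x, rfl⟩ := sharpTot_surjective (E := stdEven T) (Am D.R (s + 1) ⊗ C) f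
  induction x using DirectSum.induction_on with
  | zero =>
    refine ⟨0, ?_⟩
    rw [map_zero, map_zero]
    exact comp_zero
  | of w a =>
    obtain ⟨z, b, -, hz, rfl⟩ := hp.surj s C i δ hC w a
    refine ⟨z, ?_⟩
    rw [sharpTot_of, uN_rN D i s hz]
  | add x y hx hy =>
    obtain ⟨z, hz⟩ := hx
    obtain ⟨z', hz'⟩ := hy
    refine ⟨z + z', ?_⟩
    rw [map_add, map_add, ← hz, ← hz']
    exact Preadditive.comp_add _ _ _ _ _ _

/-- The annihilator of the unit is generated by `p`. -/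
theorem mem_span_of_smul_uNAt (s : ℕ) (z : Cob Laz s)
    (hz : uN D i s ≫ rN D C s z = 0) : z ∈ Ideal.span {(p : Cob Laz s)} := by
  choose a ha ha' using fun w => γ_wt D (Cob.isWt_proj w z)
  have h1 : ∀ w ∈ Cob.wts z, ∃ y : Cob Laz s, Cob.proj w z = (p : ℤ) • y := by
    intro w hw
    have h2 : uN D i s ≫ rN D C s z = ∑ v ∈ Cob.wts z,
        sharp (a v ≫ (ρ_ (Am D.R (s + 1))).inv ≫ (Am D.R (s + 1) ◁ i)) := by
      conv_lhs => rw [← Cob.sum_proj z, map_sum]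
      refine (Preadditive.comp_sum _ _ _).trans (Finset.sum_congr rfl fun v _ => ?_)
      exact uN_rN D i s (ha v)
    rw [h2] at hz
    have h3 := congrArg (fun f => f ≫ ((Am D.R (s + 1) ⊗ C) ◁ wq (stdEven T) w)) hz
    simp only [Preadditive.sum_comp, zero_comp] at h3
    rw [Finset.sum_eq_single w (fun v _ hvw => sharp_wq_ne _ _ hvw _)
      (fun hw' => absurd hw hw'), sharp_wq _ _ rfl] at h3
    obtain ⟨y, -, hy⟩ := hp.ker s C i δ hC w _ (Cob.isWt_proj w z) (a w) (ha w)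
      (sharp_injective w h3)
    exact ⟨y, hy⟩
  rw [← Cob.sum_proj z]
  refine sum_mem fun w hw => ?_
  obtain ⟨y, hy⟩ := h1 w hw
  rw [hy, zsmul_eq_mul, Int.cast_natCast]
  exact Ideal.mul_mem_right _ _ (Ideal.mem_span_singleton_self _)

end grB

section reg

variable {C : T} {i : 𝟙_ T ⟶ C} {p : ℕ} [Fact p.Prime] (hp : MUAt D p)
  {δ : C ⟶ (𝟙_ T)⟦(1 : ℤ)⟧} (hC : Triangle.mk ((p : ℤ) • 𝟙 (𝟙_ T)) i δ ∈ distTriang T)

include hp hC

theorem oddZero_XAt (s : ℕ) : OddZero (Am D.R (s + 1) ⊗ C) := by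
  intro n hn f
  obtain ⟨k, rfl⟩ := hn
  exact hp.odd s C i δ hC k f

theorem oddZero_NAt (s : ℕ) : OddZero ((Am D.R (s + 1) ⊗ C) ⊗ (stdEven T).PS) :=
  OddZero.coprod fun m => (oddZero_XAt D hp hC s).tensS m

theorem lamN_surjAt (s : ℕ) (x : 𝟙_ T ⟶ (Am D.R (s + 1) ⊗ C) ⊗ (stdEven T).PS) :
    ∃ z, lamN D i s z = x := exists_smul_uNAt D i hp hC s x

/-- Regularity on `π_0 N_s = Cob Laz s / p`. -/
theorem regW_oneAt (h s : ℕ) : RegW 1 h (fun k => (MP D C s).smul (D.vs p k)) (𝟙_ T) := by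
  refine ⟨fun k hk x => ?_, fun j hj hjh x y hx => ?_⟩
  · obtain rfl : k = 0 := by omega
    obtain ⟨z, rfl⟩ := lamN_surjAt D hp hC s x
    dsimp only
    have h0 : Laz.v p 0 = (p : Laz) := vv_zero p _
    rw [← lamN_mul, h0, map_natCast, lamN_p D hC]
  · obtain ⟨a, rfl⟩ := lamN_surjAt D hp hC s x
    choose b hb using fun k => lamN_surjAt D hp hC s (y k)
    have h1 : lamN D i s (MvPolynomial.C (Laz.v p j) * a -
        ∑ k ∈ Finset.range j, MvPolynomial.C (Laz.v p k) * b k) = 0 := by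
      rw [map_sub, map_sum, sub_eq_zero, lamN_mul]
      refine hx.trans (Finset.sum_congr rfl fun k _ => ?_)
      rw [lamN_mul, hb]
    have h3 := mem_span_of_smul_uNAt D i hp hC s _ h1
    have h4 : MvPolynomial.C (Laz.v p j) * a ∈
        (Laz.I p j).map (MvPolynomial.C : Laz →+* Cob Laz s) := by
      have h5 : ∀ k < j, (MvPolynomial.C (Laz.v p k) : Cob Laz s) ∈
          (Laz.I p j).map (MvPolynomial.C : Laz →+* Cob Laz s) := fun k hk =>
        Ideal.mem_map_of_mem _ (vv_mem_Ih hk _)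
      have h6 : Ideal.span {(p : Cob Laz s)} ≤
          (Laz.I p j).map (MvPolynomial.C : Laz →+* Cob Laz s) := by
        rw [Ideal.span_singleton_le_iff_mem]
        have h0 : Laz.v p 0 = (p : Laz) := vv_zero p _
        have := h5 0 (by omega)
        rwa [h0, map_natCast] at this
      have h7 : ∑ k ∈ Finset.range j, MvPolynomial.C (Laz.v p k) * b k ∈
          (Laz.I p j).map (MvPolynomial.C : Laz →+* Cob Laz s) :=
        sum_mem fun k hk => Ideal.mul_mem_right _ _ (h5 k (Finset.mem_range.1 hk))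
      have h8 := add_mem (h6 h3) h7
      rwa [sub_add_cancel] at h8
    obtain ⟨c, hc⟩ := mem_map_C_I (mem_map_C_I_of_v_mul p le_rfl h4)
    refine ⟨fun k => lamN D i s (c k), ?_⟩
    rw [hc, map_sum]
    exact Finset.sum_congr rfl fun k _ => lamN_mul D s k (c k)

/-- The homotopy of `N_s` is even and `v_1, v_2, …` is regular on it. -/
theorem evReg_NAt (h s : ℕ) : EvReg 1 h (fun k => (MP D C s).smul (D.vs p k)) := by
  refine ⟨oddZero_NAt D hp hC s, fun n hn => ?_⟩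
  obtain ⟨w, rfl⟩ := hn
  let eS : (stdEven T).S w ≅ Sph T (w + w) :=
    (stdEven T).sphIso (Iso.refl _) w ≪≫ eqToIso (by rw [two_mul])
  refine RegW.iso_src eS ?_
  refine RegW.of_whiskerRight ((stdEven T).S (-w)) ?_
  refine RegW.iso_src ((stdEven T).unitIso w) ?_
  refine (regW_oneAt D hp hC h s).conj (perN _ (-w)) fun k => ?_
  have h1 := ModStr.IsLinear.smul (perN_linear (XR D C s) (-w)) (D.vs p k)
  rw [← MP_eq, ModStr.tensorRight_smul] at h1
  rw [← cancel_mono (perN _ (-w)).inv, Category.assoc, Category.assoc, Iso.hom_inv_id,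
    Category.comp_id, h1, Iso.hom_inv_id_assoc]

/-- **The instance of `RegC`** for the modules `N_s`. -/
theorem regC_MPAt (h s : ℕ) : RegC (D.vs p) h 1 (MP D C s) :=
  regC_of_family (MP D C) (eN D C) (eN_linear D C) (fun s => evReg_NAt D hp hC h s) s

/-- **Theorem E1** for `N_s`: the odd homotopy of `L N_s` vanishes and its even homotopy is the
`I`-adic completion of `v_h⁻¹ (Cob Laz s / p)`. -/
theorem e1C_MPAt {h : ℕ} (hh : 1 ≤ h) (Dk : KosData D.P (p : ℤ) h (D.vs p)) (F : LocFunctor Dk.K)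
    (s : ℕ) : E1C F (D.vs p) h (MP D C s) :=
  theoremE1_of_regC Dk F (MP D C s) (D.invData p h) hh
    (fun _ _ X f => compact_sum X (isSphere_sph _) f) (nil_MP D hC s) (regC_MPAt D hp hC h s)

end reg

section grC

variable {C : T} {K : T} (F : LocFunctor K) {p : ℕ} [Fact p.Prime] {h : ℕ} (i : 𝟙_ T ⟶ C)
  (hp : MUAt D p) {δ : C ⟶ (𝟙_ T)⟦(1 : ℤ)⟧}
  (hC : Triangle.mk ((p : ℤ) • 𝟙 (𝟙_ T)) i δ ∈ distTriang T)

include hp hC

/-- **`Hom(𝟙, L N_s)` is the completion of `v_h⁻¹ (Cob Laz s / p)`.** -/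
theorem cobComplAt (s : ℕ) (hE : E1C F (D.vs p) h (MP D C s)) :
    CobCompl p h s (uL D F i s) := by
  have hgen : ∀ f : Fs D C s, ∃ c : Cob Laz s, c • (HM.of (uN D i s) : Fs D C s) = f := by
    intro f
    obtain ⟨z, hz⟩ := exists_smul_uNAt D i hp hC s f.hom
    exact ⟨z, HM.hom_ext hz⟩
  refine CobCompl.of_compCond p h s (compCond D F s hE) (HM.of (uN D i s)) hgen ?_ ?_
  · intro c hc
    exact mem_span_of_smul_uNAt D i hp hC s c (congrArg HM.hom hc)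
  · exact (compCond D F s hE).smul_eq_zero hgen (p_smul_uN D i hC s)

end grC

section grE

variable (U : UnitCof D.R) {C : T} {K : T} (F : LocFunctor K) {p : ℕ} [Fact p.Prime] {h : ℕ}
  (i : 𝟙_ T ⟶ C) (hp : MUAt D p) {δ : C ⟶ (𝟙_ T)⟦(1 : ℤ)⟧}
  (hC : Triangle.mk ((p : ℤ) • 𝟙 (𝟙_ T)) i δ ∈ distTriang T)
  (hE : ∀ s, E1C F (D.vs p) h (MP D C s))

include hp hC hE

theorem exists_phiAt (s : ℕ) (w : ℤ) :
    ∃ φ : ((𝟙_ T)⟦2 * w⟧ ⟶ F.L.obj (U.cobar.Q (s + 1) (𝟙_ T) ⊗ C)) ≃+ (I.towerN p h w).lim s,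
      ∀ x j, ((φ x).1 j).1 =
        (cobComplAt D F i hp hC s (hE s)).lam (j + 1) (iG D U C F s w x) :=
  (cobComplAt D F i hp hC s (hE s)).exists_lim (wtProj D F s i) w (iG D U C F s w)
    (iG_injective D U C F s w) (iG_range D U C F s w)

/-- **The cobar complex of `L_K (S/p)` is the limit of the tower `towerN p h w`.** -/
noncomputable def cobModelAt (w : ℤ) :
    U.CobModel (𝟙_ T) (tensorRight C ⋙ F.L) (𝟙_ T) w (I.towerN p h w) where
  φ s := (exists_phiAt D U F i hp hC hE s w).choose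
  φ_d s x j := by
    apply Subtype.ext
    have h1 := (exists_phiAt D U F i hp hC hE (s + 1) w).choose_spec
      (x ≫ F.L.map (U.cobar.d (s + 1) (𝟙_ T) ▷ C)) j
    refine h1.trans ?_
    have h2 := (exists_phiAt D U F i hp hC hE s w).choose_spec x j
    change _ = Cob.d s (((exists_phiAt D U F i hp hC hE s w).choose x).1 j).1
    rw [h2, iG_d, map_sum, Cob.d_apply]
    refine Finset.sum_congr rfl fun k _ => ?_
    rw [map_zsmul]
    congr 1
    exact CobCompl.lam_map _ _ (mapE_smul D C F _) (mapE_uL D F _ i) _ _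

theorem cobModel_applyAt (w : ℤ) (s : ℕ)
    (x : (𝟙_ T)⟦2 * w⟧ ⟶ (tensorRight C ⋙ F.L).obj (U.cobar.Q (s + 1) (𝟙_ T))) (j : ℕ) :
    (((cobModelAt D U F i hp hC hE w).φ s x).1 j).1 =
      (cobComplAt D F i hp hC s (hE s)).lam (j + 1) (iG D U C F s w x) :=
  (exists_phiAt D U F i hp hC hE s w).choose_spec x j

/-- The classes coming from `Cob Laz s`. -/
theorem cobModel_phiAt (w : ℤ) (s : ℕ) (z : Cob.wt Laz s w) (j : ℕ) :
    (((cobModelAt D U F i hp hC hE w).φ s (((B.sphE T w).inv ≫ D.phi U s w z) ≫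
      (redC i).app (U.cobar.Q (s + 1) (𝟙_ T)) ≫
        F.unit.app (U.cobar.Q (s + 1) (𝟙_ T) ⊗ C))).1 j).1 = toNN p h (j + 1) s z.1 := by
  rw [cobModel_applyAt, Category.assoc]
  rw [← (cobComplAt D F i hp hC s (hE s)).lam_smul_u (j + 1) z.1, ← iG_u D U C F i s w z]
  rfl

end grE

/-- The comparison of the cobar complex of `L_{K(h)} (- ⊗ S/p)` with the towers `towerN p h w`. -/
noncomputable def grOutAt (U : UnitCof D.R) {p h : ℕ} [Fact p.Prime] (hp : MUAt D p)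
    (hh : 1 ≤ h) {C : T} {i : 𝟙_ T ⟶ C} {δ : C ⟶ (𝟙_ T)⟦(1 : ℤ)⟧}
    (hC : Triangle.mk ((p : ℤ) • 𝟙 (𝟙_ T)) i δ ∈ distTriang T)
    (Dk : KosData D.P (p : ℤ) h (D.vs p)) (F : LocFunctor Dk.K) : GrOut D U p h i F where
  odd _ t ht x := GD.odd_zero D U F (e1C_MPAt D hp hC hh Dk F _) t ht x
  model w := cobModelAt D U F i hp hC (e1C_MPAt D hp hC hh Dk F) w
  compat w s z j := cobModel_phiAt D U F i hp hC (e1C_MPAt D hp hC hh Dk F) w s z j

section red

variable (U : UnitCof D.R) {p : ℕ} [Fact p.Prime] (hp : MUAt D p) {C : T} {i : 𝟙_ T ⟶ C}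
  {δ : C ⟶ (𝟙_ T)⟦(1 : ℤ)⟧} (hC : Triangle.mk ((p : ℤ) • 𝟙 (𝟙_ T)) i δ ∈ distTriang T)

include hp hC

/-- `(Cob Laz s)_w → Hom (S^{2w}, Q (s+1) 𝟙 ⊗ S/p)` is onto. -/
theorem phi_red_surjAt (s : ℕ) (w : ℤ)
    (f : (stdEven T).S w ⟶ U.cobar.Q (s + 1) (𝟙_ T) ⊗ C) :
    ∃ z : Cob.wt Laz s w, f = D.phi U s w z ≫ (redC i).app _ := by
  obtain ⟨z, a, hz, ha, hf⟩ := hp.surj s C i δ hC w (f ≫ ((D.qAm U (s + 1)).hom ▷ C))
  refine ⟨⟨z, hz⟩, ?_⟩
  have h1 : D.evw s w ⟨z, hz⟩ = a := D.evw_eq ha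
  have h2 := (redC i).naturality (D.qAm U (s + 1)).inv
  change (D.qAm U (s + 1)).inv ≫ (redC i).app _ = (redC i).app _ ≫ ((D.qAm U (s + 1)).inv ▷ C)
    at h2
  rw [phi_apply, h1, Category.assoc, h2, redC_app, ← Category.assoc, ← hf, Category.assoc,
    ← comp_whiskerRight, Iso.hom_inv_id, id_whiskerRight, Category.comp_id]

/-- The kernel of `(Cob Laz s)_w → Hom (S^{2w}, Q (s+1) 𝟙 ⊗ S/p)` is `p (Cob Laz s)_w`. -/
theorem phi_red_kerAt (s : ℕ) (w : ℤ) (z : Cob.wt Laz s w)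
    (hz : D.phi U s w z ≫ (redC i).app _ = 0) :
    ∃ y : Cob.wt Laz s w, z = (p : ℤ) • y := by
  have h2 := (redC i).naturality (D.qAm U (s + 1)).inv
  change (D.qAm U (s + 1)).inv ≫ (redC i).app _ = (redC i).app _ ≫ ((D.qAm U (s + 1)).inv ▷ C)
    at h2
  rw [phi_apply, Category.assoc, h2, ← Category.assoc] at hz
  have h3 := congrArg (fun g => g ≫ ((D.qAm U (s + 1)).hom ▷ C)) hz
  simp only [Category.assoc, ← comp_whiskerRight, Iso.inv_hom_id, id_whiskerRight,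
    zero_comp] at h3
  have h4 : D.evw s w z ≫ (redC i).app (Am D.R (s + 1)) = 0 :=
    (congrArg _ (Category.comp_id _).symm).trans h3
  obtain ⟨y, hy, hzy⟩ := hp.ker s C i δ hC w z.1 z.2 (D.evw s w z) (D.of_evw z).symm h4
  exact ⟨⟨y, hy⟩, Subtype.ext hzy⟩

/-- The odd homotopy of `Q (s+1) 𝟙 ⊗ S/p` vanishes. -/
theorem odd_redAt (s : ℕ) (k : ℤ) (f : (𝟙_ T)⟦2 * k + 1⟧ ⟶ U.cobar.Q (s + 1) (𝟙_ T) ⊗ C) :
    f = 0 := by
  have h := hp.odd s C i δ hC k (f ≫ ((D.qAm U (s + 1)).hom ▷ C))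
  have h3 := congrArg (fun g => g ≫ ((D.qAm U (s + 1)).inv ▷ C)) h
  simp only [Category.assoc, ← comp_whiskerRight, Iso.hom_inv_id, id_whiskerRight,
    zero_comp] at h3
  rwa [Category.comp_id] at h3

end red

section laz

variable {C : T} {i : 𝟙_ T ⟶ C} {p : ℕ} [Fact p.Prime] (hp : MUAt D p)
  {δ : C ⟶ (𝟙_ T)⟦(1 : ℤ)⟧} (hC : Triangle.mk ((p : ℤ) • 𝟙 (𝟙_ T)) i δ ∈ distTriang T)

include hp hC

/-- (C1) `L ⟶ π_{2*} R` is onto modulo `p`. -/
theorem exists_L0_addAt (x : HRing (stdEven T) D.R) :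
    ∃ (z : Laz) (y : HRing (stdEven T) D.R), x = L0 D z + (p : HRing (stdEven T) D.R) * y := by
  induction x using DirectSum.induction_on with
  | zero => exact ⟨0, 0, by simp⟩
  | add x x' hx hx' =>
    obtain ⟨z, y, rfl⟩ := hx
    obtain ⟨z', y', rfl⟩ := hx'
    exact ⟨z + z', y + y', by rw [map_add]; ring⟩
  | of w a =>
    obtain ⟨z, b, -, hz, hf⟩ := hp.surj 0 C i δ hC w
      ((a ≫ (λ_ D.R).inv) ≫ (redC i).app (Am D.R 1))
    obtain ⟨x, rfl⟩ := C_surj z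
    obtain ⟨c, hc⟩ := exists_zsmul_of_red hC (a ≫ (λ_ D.R).inv - b) (by
      rw [Preadditive.sub_comp, sub_eq_zero]
      exact hf)
    refine ⟨x, HRing.of (stdEven T) D.R w (c ≫ I.amOne D.R), ?_⟩
    have h1 : a = b ≫ I.amOne D.R + (p : ℤ) • (c ≫ I.amOne D.R) := by
      rw [← Preadditive.zsmul_comp, hc, Preadditive.sub_comp, add_sub_cancel, Category.assoc]
      exact (Category.comp_id a).symm.trans (congrArg (a ≫ ·) (λ_ D.R).inv_hom_id.symm)
    change HRing.of (stdEven T) D.R w a = _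
    conv_lhs => rw [h1]
    rw [L0_eq, hz, HRing.map_of]
    change DirectSum.of _ w _ = _
    rw [map_add, map_zsmul, zsmul_eq_mul, Int.cast_natCast]

/-- (C2) `L/p ⟶ π_{2*} R/p` is injective. -/
theorem exists_of_L0_eqAt (z : Laz) (y : HRing (stdEven T) D.R)
    (h : L0 D z = (p : HRing (stdEven T) D.R) * y) : ∃ z' : Laz, z = (p : Laz) * z' := by
  have h1 : GD.uN D i 0 ≫ (GD.rN D C 0 (MvPolynomial.C z) : _ ⟶ _) = 0 := by
    have h0 : GD.rN D C 0 (MvPolynomial.C z) = (p : ℤ) • ((GD.MN D C 0).smr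
        (sharpHom _ (HRing.map (Am.v D.R (0 : Fin 1)) y)) : _ ⟶ _) := by
      rw [GD.rN, GD.γ, RingHom.comp_apply, RingHom.comp_apply, ← map_L0, h, map_mul, map_natCast,
        map_mul, map_natCast, map_mul, map_natCast]
      exact ((natCast_zsmul _ p).trans (nsmul_eq_mul _ _)).symm
    rw [h0, Preadditive.comp_zsmul, ← Preadditive.zsmul_comp, GD.p_uN D hC, zero_comp]
  have h2 := mem_span_of_smul_uNAt D i hp hC 0 _ h1
  obtain ⟨c, hc⟩ := Ideal.mem_span_singleton'.1 h2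
  obtain ⟨z', rfl⟩ := C_surj c
  refine ⟨z', ?_⟩
  have h3 : (MvPolynomial.C (z' * (p : Laz)) : Cob Laz 0) = MvPolynomial.C z := by
    rw [map_mul, map_natCast, hc]
  rw [mul_comm]
  exact (MvPolynomial.C_injective (Fin 0 × ℕ) Laz h3).symm

/-- `π_0 P ⟶ π_0 (P ⊗ C)` is onto -/
theorem sur_P_oneAt : Sur i D.P (𝟙_ T) := by
  have key : ∀ x : HMod (stdEven T) (Am D.R 1 ⊗ C), ∃ g' : 𝟙_ T ⟶ Am D.R 1 ⊗ (stdEven T).PS,
      g' ≫ (redC i).app (Am D.R 1) ▷ (stdEven T).PS = sharpTot (stdEven T) _ x := by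
    intro x
    induction x using DirectSum.induction_on with
    | zero => exact ⟨0, by rw [map_zero, zero_comp]⟩
    | add x x' hx hx' =>
      obtain ⟨g, hg⟩ := hx
      obtain ⟨g', hg'⟩ := hx'
      exact ⟨g + g', by rw [map_add, Preadditive.add_comp, hg, hg']⟩
    | of w a =>
      obtain ⟨z, b, -, hz, hf⟩ := hp.surj 0 C i δ hC w a
      refine ⟨sharp b, ?_⟩
      rw [← sharp_comp, sharpTot_of, hf]
      rfl
  have h1 : Sur i (Am D.R 1 ⊗ (stdEven T).PS) (𝟙_ T) := by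
    intro g
    obtain ⟨x, hx⟩ := sharpTot_surjective (E := stdEven T) (Am D.R 1 ⊗ C)
      (g ≫ (swapR (Am D.R 1) C (stdEven T).PS).inv)
    obtain ⟨g', hg'⟩ := key x
    refine ⟨g', ?_⟩
    rw [redC_tensor, ← Category.assoc, hg', hx, Category.assoc, Iso.inv_hom_id, Category.comp_id]
  exact h1.conj (whiskerRightIso (λ_ D.R) _)

theorem sur_P_evenAt (w : ℤ) : Sur i D.P ((stdEven T).S w) := by
  refine Sur.of_whiskerRight ((stdEven T).S (-w)) ?_
  refine Sur.iso_src ((stdEven T).unitIso w) ?_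
  exact (sur_P_oneAt D hp hC).conj (GD.perN D.R (-w))

/-- the odd homotopy of `P ⊗ C` vanishes -/
theorem oddZero_PCAt : OddZero (D.P ⊗ C) :=
  (oddZero_NAt D hp hC 0).of_iso
    (swapR (Am D.R 1) C (stdEven T).PS ≪≫ whiskerRightIso (whiskerRightIso (λ_ D.R) _) C)

/-- (C3) the even homotopy of `P` has no `p`-torsion -/
theorem P_torsionFree_evenAt {n : ℤ} (hn : Even n) (x : Sph T n ⟶ D.P) (h : (p : ℤ) • x = 0) :
    x = 0 :=
  torsionFree_of_red_shift hC n (n + 1) rfl (fun g => oddZero_PCAt D hp hC (n + 1) hn.add_one g) x h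

/-- (C5) `p` is onto on the odd homotopy of `P` -/
theorem P_divisible_oddAt {n : ℤ} (hn : Odd n) (x : Sph T n ⟶ D.P) :
    ∃ y : Sph T n ⟶ D.P, (p : ℤ) • y = x :=
  exists_zsmul_of_red hC x (oddZero_PCAt D hp hC n hn _)

/-- (C5) the odd homotopy of `P` has no `p`-torsion -/
theorem P_torsionFree_oddAt {n : ℤ} (hn : Odd n) (x : Sph T n ⟶ D.P) (h : (p : ℤ) • x = 0) :
    x = 0 := by
  obtain ⟨w, hw⟩ := hn
  have h1 : x⟦(1 : ℤ)⟧' ≫ ((p : ℤ) • 𝟙 D.P)⟦(1 : ℤ)⟧' = 0 := by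
    rw [← Functor.map_comp, Preadditive.comp_zsmul, Category.comp_id, h, Functor.map_zero]
  obtain ⟨g, hg⟩ : ∃ g : (Sph T n)⟦(1 : ℤ)⟧ ⟶ D.P ⊗ C, x⟦(1 : ℤ)⟧' = g ≫ bdC δ D.P :=
    Triangle.coyoneda_exact₁ _ (redTri_distinguished hC D.P) (x⟦(1 : ℤ)⟧') h1
  have e : (stdEven T).S (w + 1) ≅ (Sph T n)⟦(1 : ℤ)⟧ :=
    (stdEven T).sphIso (Iso.refl _) (w + 1) ≪≫
      (shiftFunctorAdd' T n 1 (2 * (w + 1)) (by rw [hw]; ring)).app (𝟙_ T)
  obtain ⟨g', hg'⟩ := (sur_P_evenAt D hp hC (w + 1)).iso_src e g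
  apply (shiftFunctor T (1 : ℤ)).map_injective
  have h2 : (redC i).app D.P ≫ bdC δ D.P = 0 :=
    comp_distTriang_mor_zero₂₃ _ (redTri_distinguished hC D.P)
  rw [hg, ← hg', Category.assoc, h2, comp_zero, Functor.map_zero]

/-- (C3) `π_{2*} R` has no `p`-torsion -/
theorem hring_torsionFreeAt (x : HRing (stdEven T) D.R) (h : (p : HRing (stdEven T) D.R) * x = 0) :
    x = 0 := by
  apply sharpTot_injective (E := stdEven T) D.R
  rw [map_zero]
  have h1 : (p : ℤ) • sharpTot (stdEven T) D.R x = 0 := by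
    have h2 : (p : ℤ) • x = 0 := by rw [zsmul_eq_mul, Int.cast_natCast, h]
    rw [← map_zsmul, h2, map_zero]
  let e : Sph T 0 ≅ 𝟙_ T := (shiftFunctorZero T ℤ).app _
  have h3 := P_torsionFree_evenAt D hp hC (n := 0) (by simp) (e.hom ≫ sharpTot (stdEven T) D.R x)
    (by rw [← Preadditive.comp_zsmul, h1, comp_zero])
  rw [← cancel_epi e.hom, h3, comp_zero]

/-- (C4) `v_0 = p, v_1, …` is a regular sequence in `π_{2*} R` -/
theorem hring_mem_Ih_of_mulAt {k : ℕ} (x : HRing (stdEven T) D.R)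
    (h : vv p k D.law * x ∈ Ih p k D.law) : x ∈ Ih p k D.law := by
  rcases Nat.eq_zero_or_pos k with rfl | hk
  · have h0 : Ih p 0 D.law = ⊥ := by
      unfold Ih
      rw [Ideal.span_eq_bot]
      rintro x ⟨i, hi, -⟩
      exact absurd hi (Nat.not_lt_zero i)
    rw [h0, Ideal.mem_bot, vv_zero] at h
    rw [hring_torsionFreeAt D hp hC x h]
    exact zero_mem _
  · have hp0 : (p : HRing (stdEven T) D.R) ∈ Ih p k D.law := by
      have := vv_mem_Ih (p := p) hk D.law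
      rwa [vv_zero] at this
    have hp1 : (p : Laz) ∈ Laz.I p k := by
      have h2 : Laz.v p 0 = (p : Laz) := vv_zero p _
      rw [← h2]
      exact vv_mem_Ih hk _
    obtain ⟨z, y, rfl⟩ := exists_L0_addAt D hp hC x
    refine add_mem ?_ (Ideal.mul_mem_right _ _ hp0)
    have h1 : L0 D (Laz.v p k * z) ∈ Ih p k D.law := by
      rw [map_mul, L0_v]
      have h2 : vv p k D.law * ((p : HRing (stdEven T) D.R) * y) ∈ Ih p k D.law :=
        Ideal.mul_mem_left _ _ (Ideal.mul_mem_right _ _ hp0)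
      have h3 := sub_mem h h2
      rwa [mul_add, add_sub_cancel_right] at h3
    obtain ⟨c, hc⟩ := exists_sum_of_mem_Ih p k D.law h1
    choose z' y' hzy using fun j => exists_L0_addAt D hp hC (c j)
    obtain ⟨t, ht⟩ := exists_of_L0_eqAt D hp hC
      (Laz.v p k * z - ∑ j ∈ Finset.range k, Laz.v p j * z' j)
      (∑ j ∈ Finset.range k, vv p j D.law * y' j) (by
        rw [map_sub, hc, map_sum, ← Finset.sum_sub_distrib, Finset.mul_sum]
        refine Finset.sum_congr rfl fun j _ => ?_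
        rw [map_mul, L0_v, hzy j]
        ring)
    have h4 : Laz.v p k * z ∈ Laz.I p k := by
      rw [sub_eq_iff_eq_add.1 ht]
      refine add_mem (Ideal.mul_mem_right _ _ hp1) (sum_mem fun j hj => ?_)
      exact Ideal.mul_mem_right _ _ (vv_mem_Ih (Finset.mem_range.1 hj) _)
    have h5 := mem_I_of_v_mul p le_rfl h4
    have h6 : Ih p k D.law = (Laz.I p k).map (L0 D) := by
      have h7 : D.law = Laz.univ.map (L0 D) := (Laz.univ_map_lift _).symm
      conv_lhs => rw [h7]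
      rw [Ih_map]
      rfl
    rw [h6]
    exact Ideal.mem_map_of_mem _ h5

theorem regW_P_oneAt (h : ℕ) : RegW 0 h (vP (D.vs p)) (𝟙_ T) := by
  refine ⟨fun k hk => absurd hk (Nat.not_lt_zero k), fun j _ hjh x y hx => ?_⟩
  set e := sharpEquiv (stdEven T) D.R with he
  have hmul : ∀ (k : ℕ) (t : Sc D.P), (t.hom ≫ vP (D.vs p) k) = (e (vv p k D.law) * t : Sc D.P) := by
    intro k t
    rw [he, sharpHom_vv D p]
    exact (scMul_eq_smul (R := D.P) (D.vs p k) t.hom).symm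
  have hsum : ∀ (z : ℕ → (𝟙_ T ⟶ D.P)), (∑ k ∈ Finset.range j, z k ≫ vP (D.vs p) k) =
      (∑ k ∈ Finset.range j, e (vv p k D.law) * Sc.of (z k) : Sc D.P) := by
    intro z
    exact Finset.sum_congr rfl fun k _ => hmul k (Sc.of (z k))
  have h1 : vv p j D.law * e.symm (Sc.of x) ∈ Ih p j D.law := by
    have h2 : vv p j D.law * e.symm (Sc.of x) =
        ∑ k ∈ Finset.range j, vv p k D.law * e.symm (Sc.of (y k)) := by
      apply e.injective
      rw [map_mul, RingEquiv.apply_symm_apply, map_sum]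
      have h3 : (e (vv p j D.law) * Sc.of x : Sc D.P) = ∑ k ∈ Finset.range j,
          e (vv p k D.law) * Sc.of (y k) := (hmul j (Sc.of x)).symm.trans (hx.trans (hsum y))
      rw [h3]
      exact Finset.sum_congr rfl fun k _ => by rw [map_mul, RingEquiv.apply_symm_apply]
    rw [h2]
    exact sum_mem fun k hk => Ideal.mul_mem_right _ _ (vv_mem_Ih (Finset.mem_range.1 hk) _)
  obtain ⟨c, hc⟩ := exists_sum_of_mem_Ih p j D.law (hring_mem_Ih_of_mulAt D hp hC _ h1)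
  refine ⟨fun k => (e (c k)).hom, ?_⟩
  rw [hsum]
  have h4 := congrArg e hc
  rw [RingEquiv.apply_symm_apply, map_sum] at h4
  refine Eq.trans (b := (Sc.of x : Sc D.P)) rfl (h4.trans (Finset.sum_congr rfl fun k _ => ?_))
  rw [map_mul]
  rfl

/-- `v_0, v_1, …` is regular on `π_{2w} P` -/
theorem regW_P_evenAt (h : ℕ) {n : ℤ} (hn : Even n) : RegW 0 h (vP (D.vs p)) (Sph T n) := by
  obtain ⟨w, rfl⟩ := hn
  let eS : (stdEven T).S w ≅ Sph T (w + w) :=
    (stdEven T).sphIso (Iso.refl _) w ≪≫ eqToIso (by rw [two_mul])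
  refine RegW.iso_src eS ?_
  refine RegW.of_whiskerRight ((stdEven T).S (-w)) ?_
  refine RegW.iso_src ((stdEven T).unitIso w) ?_
  refine (regW_P_oneAt D hp hC h).conj (GD.perN _ (-w)) fun k => ?_
  have h1 := ModStr.IsLinear.smul (GD.perN_linear (ModStr.self D.R) (-w)) (D.vs p k)
  rw [self_tens, ModStr.tensorRight_smul] at h1
  rw [← cancel_mono (GD.perN _ (-w)).inv, Category.assoc, Category.assoc, Iso.hom_inv_id,
    Category.comp_id, h1, Iso.hom_inv_id_assoc]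

/-- `v_0, v_1, …` is regular on `π_{2w+1} P` (`p` is bijective there) -/
theorem regW_P_oddAt (h : ℕ) {n : ℤ} (hn : Odd n) : RegW 0 h (vP (D.vs p)) (Sph T n) := by
  have h0 : vP (D.vs p) 0 = (p : ℤ) • 𝟙 D.P := vP_zero (D.invData p 1)
  refine ⟨fun k hk => absurd hk (Nat.not_lt_zero k), fun j _ hjh x y hx => ?_⟩
  rcases Nat.eq_zero_or_pos j with rfl | hj
  · refine ⟨fun _ => 0, ?_⟩
    rw [Finset.sum_range_zero] at hx ⊢
    apply P_torsionFree_oddAt D hp hC hn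
    rw [h0, Preadditive.comp_zsmul, Category.comp_id] at hx
    exact hx
  · obtain ⟨z, hz⟩ := P_divisible_oddAt D hp hC hn x
    refine ⟨fun k => if k = 0 then z else 0, ?_⟩
    rw [Finset.sum_eq_single_of_mem 0 (Finset.mem_range.2 hj)]
    · dsimp only
      rw [if_pos rfl, h0, Preadditive.comp_zsmul, Category.comp_id, hz]
    · intro k _ hk
      dsimp only
      rw [if_neg hk, zero_comp]

/-- **(C4), all spheres.** `v_0 = p, v_1, …, v_{h-1}` is regular on the homotopy of `P`. -/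
theorem goodReg_PAt (h : ℕ) (A : T) (hA : IsSphere A) :
    GoodReg 0 h (fun k => pc A (vP (D.vs p) k)) := by
  have hR : RegW 0 h (vP (D.vs p)) A := by
    obtain ⟨n, ⟨e⟩⟩ := hA
    refine RegW.iso_src e.symm ?_
    rcases Int.even_or_odd n with hn | hn
    · exact regW_P_evenAt D hp hC h hn
    · exact regW_P_oddAt D hp hC h hn
  refine ⟨fun j k x => ?_, fun j hj => absurd hj (Nat.not_lt_zero j), fun k hk hkh x hx => ?_⟩
  · change (x ≫ vP (D.vs p) k) ≫ vP (D.vs p) j = (x ≫ vP (D.vs p) j) ≫ vP (D.vs p) k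
    rw [Category.assoc, Category.assoc, ModStr.smul_comm]
  · obtain ⟨y, hy⟩ := hx
    exact hR.2 k hk hkh x y hy

end laz

end Vale.Agent.P261Z.T3
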