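import Vale.Agent.P261Z.T3.At
import Vale.Agent.P251.X.PointH

/-!
# P261, block T3: homomorphisms from `π_{2*} MU` to rings of characteristic `p`, the point

* `exists_homAt`, `hom_extAt` : they are the homomorphisms from the Lazard ring.
* `exists_ptAt` : the point of height `n` of `π_{2*} MU`.
-/

open CategoryTheory MonoidalCategory MonObj Limits Pretriangulated

set_option linter.unusedSectionVars false

universe v u

namespace Vale.Agent.P261Z.T3

open Vale.Agent.P251 Vale.Agent.P251.M Vale.Agent.P251.M.EvenSpheres Vale.Agent.P251.F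
  Vale.Agent.P251.T Vale.Agent.P251.S Vale.Agent.P251.Z Vale.Agent.P251.I

variable {T : Type u} [Category.{v} T] [Preadditive T] [HasZeroObject T]
    [HasShift T ℤ] [∀ n : ℤ, (shiftFunctor T n).Additive] [Pretriangulated T] [IsTriangulated T]
    [MonoidalCategory T] [SymmetricCategory T] [TensorTriangulated T] [MonoidalClosed T]
    [HasCoproducts.{0} T] [HasProducts.{0} T] [StableCat T]
  {D : MUData T} {p : ℕ} [Fact p.Prime] (hp : MUAt D p)

include hp

theorem MUAt.exists_add (x : HRing (stdEven T) D.R) :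
    ∃ (z : Laz) (y : HRing (stdEven T) D.R), x = L0 D z + (p : HRing (stdEven T) D.R) * y := by
  obtain ⟨C, i, δ, hC⟩ := distinguished_cocone_triangle ((p : ℤ) • 𝟙 (𝟙_ T))
  exact exists_L0_addAt D hp hC x

theorem MUAt.exists_of_eq (z : Laz) (y : HRing (stdEven T) D.R)
    (h : L0 D z = (p : HRing (stdEven T) D.R) * y) : ∃ z' : Laz, z = (p : Laz) * z' := by
  obtain ⟨C, i, δ, hC⟩ := distinguished_cocone_triangle ((p : ℤ) • 𝟙 (𝟙_ T))
  exact exists_of_L0_eqAt D hp hC z y h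

/-- the homogeneous form of `exists_add` -/
theorem MUAt.exists_wt (w : ℤ) (a : (stdEven T).S w ⟶ D.R) :
    ∃ (z : Laz) (y : HRing (stdEven T) D.R), Cob.IsWt w (MvPolynomial.C z : Cob Laz 0) ∧
      HRing.of (stdEven T) D.R w a = L0 D z + (p : HRing (stdEven T) D.R) * y := by
  obtain ⟨C, i, δ, hC⟩ := distinguished_cocone_triangle ((p : ℤ) • 𝟙 (𝟙_ T))
  obtain ⟨z, b, hw, hz, hf⟩ := hp.surj 0 C i δ hC w
    ((a ≫ (λ_ D.R).inv) ≫ (redC i).app (Am D.R 1))
  obtain ⟨x, rfl⟩ := C_surj z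
  obtain ⟨c, hc⟩ := exists_zsmul_of_red hC (a ≫ (λ_ D.R).inv - b) (by
    rw [Preadditive.sub_comp, sub_eq_zero]
    exact hf)
  refine ⟨x, HRing.of (stdEven T) D.R w (c ≫ I.amOne D.R), hw, ?_⟩
  have h1 : a = b ≫ I.amOne D.R + (p : ℤ) • (c ≫ I.amOne D.R) := by
    rw [← Preadditive.zsmul_comp, hc, Preadditive.sub_comp, add_sub_cancel, Category.assoc]
    exact (Category.comp_id a).symm.trans (congrArg (a ≫ ·) (λ_ D.R).inv_hom_id.symm)
  conv_lhs => rw [h1]
  rw [L0_eq, hz, HRing.map_of]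
  change DirectSum.of _ w _ = _
  rw [map_add, map_zsmul, zsmul_eq_mul, Int.cast_natCast]

theorem exists_homAt {B : Type*} [CommRing B] (hB : (p : B) = 0) (f : Laz →+* B) :
    ∃ g : HRing (stdEven T) D.R →+* B, ∀ z, g (L0 D z) = f z := by
  let q : Laz →+* HRing (stdEven T) D.R ⧸ Ideal.span {(p : HRing (stdEven T) D.R)} :=
    (Ideal.Quotient.mk _).comp (L0 D)
  have hq : Function.Surjective q := by
    intro x
    obtain ⟨x, rfl⟩ := Ideal.Quotient.mk_surjective x
    obtain ⟨z, y, rfl⟩ := hp.exists_add x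
    refine ⟨z, Ideal.Quotient.eq.2 ?_⟩
    rw [sub_add_cancel_left]
    exact neg_mem (Ideal.mul_mem_right _ _ (Ideal.mem_span_singleton_self _))
  have hk : RingHom.ker q ≤ RingHom.ker f := by
    intro z hz
    have h1 : L0 D z ∈ Ideal.span {(p : HRing (stdEven T) D.R)} :=
      Ideal.Quotient.eq_zero_iff_mem.1 hz
    obtain ⟨y, hy⟩ := Ideal.mem_span_singleton'.1 h1
    obtain ⟨z', rfl⟩ := hp.exists_of_eq z y (hy.symm.trans (mul_comm _ _))
    rw [RingHom.mem_ker, map_mul, map_natCast, hB, zero_mul]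
  exact ⟨(RingHom.liftOfSurjective q hq ⟨f, hk⟩).comp (Ideal.Quotient.mk _), fun z =>
    RingHom.liftOfSurjective_comp_apply q hq ⟨f, hk⟩ z⟩

theorem hom_extAt {B : Type*} [CommRing B] (hB : (p : B) = 0)
    {g g' : HRing (stdEven T) D.R →+* B} (h : ∀ z, g (L0 D z) = g' (L0 D z)) : g = g' := by
  refine RingHom.ext fun x => ?_
  obtain ⟨z, y, rfl⟩ := hp.exists_add x
  rw [map_add, map_add, map_mul, map_mul, map_natCast, map_natCast, hB, zero_mul, zero_mul, h]

omit hp in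
theorem cast_pow_sub (n : ℕ) : ((p ^ n - 1 : ℕ) : ℤ) = (p : ℤ) ^ n - 1 := by
  have := Nat.one_le_pow n p (Fact.out : p.Prime).pos
  push_cast [Nat.cast_sub this]
  ring

/-- **The point of height `n` of `π_{2*} MU`.** -/
theorem exists_ptAt {n : ℕ} (hn : n ≠ 0) : ∃ c : X.Pt (stdEven T) D.R p (p ^ n - 1),
    (∀ z, c.χ (L0 D z) = X.chiPt p n z) ∧
      c.v = ((stdEven T).castIso _ _ (cast_pow_sub n)).hom ≫ D.vel p n := by
  obtain ⟨χ, hχ⟩ := exists_homAt hp (CharP.cast_eq_zero (ZMod p) p) (X.chiPt p n)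
  refine ⟨⟨χ, fun j hj a => ?_, ((stdEven T).castIso _ _ (cast_pow_sub n)).hom ≫ D.vel p n, ?_⟩,
    hχ, rfl⟩
  · obtain ⟨z, y, hz, h⟩ := hp.exists_wt j a
    rw [h, map_add, map_mul, map_natCast, CharP.cast_eq_zero, zero_mul, add_zero, hχ,
      X.chiPt_eq_zero hz hj]
  · rw [of_cast, ← D.vel_spec, ← L0_v, hχ, X.chiPt_v hn]

end Vale.Agent.P261Z.T3
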