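import Vale.Agent.P261Z.T3.ExRet
import Vale.Agent.P261Z.T3.ExPt
import Vale.Agent.P261Z.T3.KRev
import Vale.Agent.P251.X.ExactA

/-!
# P261, block T3: exactness of `W ↦ 𝔽_p ⊗ π_*(MU ⊗ P ⊗ W)`

`P` is an object with `v_i ▷ P = 0` for `i < n`, `c` is the point of height `n` of `π_{2*} MU`.
-/

open CategoryTheory MonoidalCategory Limits Pretriangulated MonObj

set_option linter.unusedSectionVars false

universe v u

noncomputable section

namespace Vale.Agent.P261Z.T3

open Vale.Agent.P251 Vale.Agent.P251.T Vale.Agent.P251.M Vale.Agent.P251.M.EvenSpheres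
  Vale.Agent.P251.S Vale.Agent.P251.F Vale.Agent.P251.I Vale.Agent.P251.Z Vale.Agent.P251.X

variable {T : Type u} [Category.{v} T] [Preadditive T] [HasZeroObject T]
    [HasShift T ℤ] [∀ n : ℤ, (shiftFunctor T n).Additive] [Pretriangulated T] [IsTriangulated T]
    [MonoidalCategory T] [SymmetricCategory T] [TensorTriangulated T] [MonoidalClosed T]
    [HasCoproducts.{0} T] [HasProducts.{0} T] [StableCat T] {D : MUData T}

theorem whiskerRight_tensor_zero {A B P : T} {a : A ⟶ B} (h : a ▷ P = 0) (W : T) :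
    a ▷ (P ⊗ W) = 0 := by
  rw [whiskerRight_tensor, h, MonoidalPreadditive.zero_whiskerRight, zero_comp, comp_zero]

theorem whiskerRight_tensor_zero' {A B P : T} {a : A ⟶ B} (h : a ▷ P = 0) (W : T) :
    a ▷ (W ⊗ P) = 0 := by
  rw [← cancel_mono (B ◁ (β_ W P).hom), ← whisker_exchange, whiskerRight_tensor_zero h, comp_zero,
    zero_comp]

theorem MP_smul_zero {R Y : T} [MonObj R] {k : ℤ} {a : (stdEven T).S k ⟶ R} (h : a ▷ Y = 0)
    (m : MP (stdEven T) R Y) : HRing.of (stdEven T) R k a • m = 0 := by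
  induction m using MP.ind with
  | zero => exact smul_zero _
  | add x y hx hy => rw [smul_add, hx, hy, add_zero]
  | of j x =>
    rw [MP.smul_of (k := k + j) rfl]
    unfold gsmul EvenSpheres.ext
    rw [tensorHom_def', whiskerRight_tensor_zero' h, comp_zero, comp_zero, zero_comp, map_zero]

variable {p n : ℕ} [Fact p.Prime]

theorem MP_kill {Y : T} (h : ∀ i < n, D.vel p i ▷ Y = 0) {z : HRing (stdEven T) D.R}
    (hz : z ∈ Ih p n D.law) (m : MP (stdEven T) D.R Y) : z • m = 0 := by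
  obtain ⟨c, rfl⟩ := exists_sum_of_mem_Ih p n D.law hz
  rw [Finset.sum_smul]
  refine Finset.sum_eq_zero fun i hi => ?_
  rw [mul_smul, D.vel_spec]
  exact MP_smul_zero (h i (Finset.mem_range.1 hi)) _

theorem L0_mem_Ih {z : Laz} (hz : z ∈ Laz.I p n) : L0 D z ∈ Ih p n D.law := by
  have h7 : D.law = Laz.univ.map (L0 D) := (Laz.univ_map_lift _).symm
  rw [h7, Ih_map]
  exact Ideal.mem_map_of_mem _ hz

theorem p_mem_Ih (hn : n ≠ 0) : (p : HRing (stdEven T) D.R) ∈ Ih p n D.law := by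
  have := vv_mem_Ih (p := p) (Nat.pos_of_ne_zero hn) D.law
  rwa [vv_zero] at this

theorem natCast_mv : ((p : ℕ) : MvPolynomial ℕ (ZMod p)) = 0 := by
  rw [← map_natCast (MvPolynomial.C (σ := ℕ) (R := ZMod p)), CharP.cast_eq_zero, map_zero]

/-- the counit kills the `b_i` -/
theorem counit_bK (i : ℕ) :
    HRing.map (E := stdEven T) (descM (𝟙 D.R) (𝟙 D.R)) (bK D (𝟙 D.R) i) = 0 := by
  unfold bK
  have h1 : D.toKR (𝟙 D.R) ≫ descM (𝟙 D.R) (𝟙 D.R) =
      Am.map D.R (fun _ : Fin 2 => (0 : Fin 1)) ≫ amOne D.R := by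
    apply Am.hom_ext (R := D.R) (n := 2)
    intro i
    rw [Am.v_map_assoc, v_amOne]
    fin_cases i
    · change Am.v D.R (0 : Fin 2) ≫ D.toKR (𝟙 D.R) ≫ descM (𝟙 D.R) (𝟙 D.R) = 𝟙 D.R
      rw [← Category.assoc, D.v_zero_toKR, Category.assoc, inlM_descM, Category.comp_id]
    · change Am.v D.R (1 : Fin 2) ≫ D.toKR (𝟙 D.R) ≫ descM (𝟙 D.R) (𝟙 D.R) = 𝟙 D.R
      rw [← Category.assoc, D.v_one_toKR, inrM_descM]
  rw [← RingHom.comp_apply, ← HRing.map_comp, HRing_map_congr h1, HRing.map_comp,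
    RingHom.comp_apply, D.ev_map]
  have h3 : Cob.map (N := Laz) (fun _ : Fin 2 => (0 : Fin 1))
      (MvPolynomial.X ((0 : Fin 1), i)) = 0 := by
    unfold Cob.map
    rw [Cob.ev_X]
    rw [Chain.res_g, mul_inv_cancel, InvSeries.c_one_succ]
  rw [h3, map_zero, map_zero]

section ring

variable {Fc : SpaceFunctor T} {e : Fc.S.obj CCF ≅ (stdEven T).L} (H : MUUniv e D)
  (Fb : Law (ZMod p)) (lam : HRing (stdEven T) D.R →+* MvPolynomial ℕ (ZMod p))

/-- the classifying map `π_{2*}(MU ⊗ MU) ⟶ 𝔽_p[b]` -/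
def tht : HRing (stdEven T) (D.R ⊗ D.R) →+* MvPolynomial ℕ (ZMod p) :=
  (MvPolynomial.eval₂Hom lam (invC MvPolynomial.X)).comp
    (RingEquiv.ofBijective (epsR D) (epsR_bijective H)).symm.toRingHom

theorem tht_eps (f : MvPolynomial ℕ (HRing (stdEven T) D.R)) :
    tht H lam (epsR D f) = MvPolynomial.eval₂Hom lam (invC MvPolynomial.X) f := by
  unfold tht
  rw [RingHom.comp_apply]
  congr 1
  exact (RingEquiv.ofBijective (epsR D) (epsR_bijective H)).symm_apply_apply f

theorem tht_inl (h : HRing (stdEven T) D.R) :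
    tht H lam (HRing.map (inlM D.R D.R) h) = lam h := by
  rw [← epsH_C (bK D (𝟙 D.R))]
  exact (tht_eps H lam _).trans (MvPolynomial.eval₂Hom_C _ _ _)

theorem tht_bK (i : ℕ) : tht H lam (bK D (𝟙 D.R) i) = invC MvPolynomial.X i := by
  rw [← epsH_X (bK D (𝟙 D.R))]
  exact (tht_eps H lam _).trans (MvPolynomial.eval₂Hom_X' _ _ _)

variable (hlam : ∀ z, lam (L0 D z) = Laz.lift (bL Fb) z)

include hlam in
theorem map_lam : D.law.map lam = bL Fb := by
  have h : lam.comp (Laz.lift D.law) = Laz.lift (bL Fb) := RingHom.ext hlam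
  rw [Laz.comp_lift] at h
  have h2 := congrArg (Law.map · Laz.univ) h
  simpa using h2

include hlam in
theorem tht_inr : (D.law.map (HRing.map (E := stdEven T) (inrM D.R D.R))).map (tht H lam) =
    Fb.map MvPolynomial.C := by
  have h3 : (tht H lam).comp (epsR D) = MvPolynomial.eval₂Hom lam (invC MvPolynomial.X) :=
    RingHom.ext (tht_eps H lam)
  rw [law_inrR, Law.map_map, h3]
  unfold bL
  rw [InvSeries.map_smul, Law.map_map, map_strictMk]
  have h4 : (fun i => MvPolynomial.eval₂Hom lam (invC MvPolynomial.X)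
      (MvPolynomial.X i)) = invC (MvPolynomial.X : ℕ → MvPolynomial ℕ (ZMod p)) := by
    funext i
    rw [MvPolynomial.eval₂Hom_X']
  have h5 : (MvPolynomial.eval₂Hom lam (invC MvPolynomial.X)).comp MvPolynomial.C = lam :=
    RingHom.ext fun x => MvPolynomial.eval₂Hom_C _ _ _
  rw [h4, h5, strictMk_invC, map_lam Fb lam hlam, bL, inv_smul_smul]

variable (hp : MUAt D p) (χ : HRing (stdEven T) D.R →+* ZMod p)
  (hχ : ∀ z, χ (L0 D z) = Laz.lift Fb z)

include hlam hp hχ in
theorem tht_coact (h : HRing (stdEven T) D.R) :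
    tht H lam (HRing.map (inrM D.R D.R) h) = MvPolynomial.C (χ h) := by
  have h1 : (tht H lam).comp (HRing.map (E := stdEven T) (inrM D.R D.R)) =
      MvPolynomial.C.comp χ := by
    refine hom_extAt hp natCast_mv fun z => ?_
    rw [RingHom.comp_apply, RingHom.comp_apply, hχ, Laz.map_lift, L0, Laz.map_lift, Laz.map_lift,
      tht_inr H Fb lam hlam]
  exact congrFun (congrArg DFunLike.coe h1) h

include hlam hp hχ in
theorem constantCoeff_lam (h : HRing (stdEven T) D.R) :
    MvPolynomial.constantCoeff (lam h) = χ h := by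
  have h1 : (MvPolynomial.constantCoeff (σ := ℕ)).comp lam = χ := by
    refine hom_extAt hp (CharP.cast_eq_zero (ZMod p) p) fun z => ?_
    rw [RingHom.comp_apply, hχ, hlam, Laz.map_lift, map_constantCoeff_bL]
  exact congrFun (congrArg DFunLike.coe h1) h

include hlam hp hχ in
theorem constantCoeff_tht (g : HRing (stdEven T) (D.R ⊗ D.R)) :
    MvPolynomial.constantCoeff (tht H lam g) = χ (HRing.map (descM (𝟙 D.R) (𝟙 D.R)) g) := by
  obtain ⟨f, rfl⟩ := (epsR_bijective H).2 g
  have key : (MvPolynomial.constantCoeff.comp (tht H lam)).comp (epsR D) =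
      (χ.comp (HRing.map (descM (𝟙 D.R) (𝟙 D.R)))).comp (epsR D) := by
    unfold epsR
    apply MvPolynomial.ringHom_ext
    · intro h
      simp only [RingHom.comp_apply]
      rw [epsH_C, tht_inl, constantCoeff_lam Fb lam hlam hp χ hχ,
        ← RingHom.comp_apply (HRing.map _), ← HRing.map_comp, HRing_map_congr (inlM_descM _ _),
        HRing.map_id, RingHom.id_apply]
    · intro i
      simp only [RingHom.comp_apply]
      rw [epsH_X, tht_bK, counit_bK, map_zero, constantCoeff_invC]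
  exact congrFun (congrArg DFunLike.coe key) f

include H in
theorem span_eps (g : HRing (stdEven T) (D.R ⊗ D.R)) : ∃ x : (ℕ →₀ ℕ) →₀ HRing (stdEven T) D.R,
    g = x.sum fun a h => HRing.map (inlM D.R D.R) h *
      a.prod fun i m => bK D (𝟙 D.R) i ^ m := by
  obtain ⟨f, rfl⟩ := (epsR_bijective H).2 g
  refine ⟨Finsupp.onFinset f.support (fun a => f.coeff a) (fun a ha =>
      MvPolynomial.mem_support_iff.2 ha), ?_⟩
  rw [Finsupp.onFinset_sum _ (fun a => by rw [map_zero, zero_mul])]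
  conv_lhs => rw [f.as_sum, map_sum]
  exact Finset.sum_congr rfl fun a _ => epsH_monomial _ _ _

include H in
theorem bij_MP (W : T) : Function.Bijective fun x : (ℕ →₀ ℕ) →₀ MP (stdEven T) D.R W =>
    x.sum fun a m => (a.prod fun i m => bK D (𝟙 D.R) i ^ m : HRing (stdEven T) (D.R ⊗ D.R)) •
      MP.push (stdEven T) (inlM D.R D.R) W m := by
  obtain ⟨b, -, hb⟩ := D.exists_basis_of (𝟙 D.R) H
  have h := MP.bij_basis b isSphere_std W
  have h1 : ∀ a, HRing.of (stdEven T) (D.R ⊗ D.R) (b.k a) (b.w a) =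
      a.prod fun i m => bK D (𝟙 D.R) i ^ m := fun a => by rw [hb, class_bK]
  simp only [h1] at h
  exact h

variable (hF : ∀ i < n, vv p i Fb = 0) (hv : vv p n Fb = 1) (hn : n ≠ 0)

include hlam hF hv hn in
theorem span_lam (f : MvPolynomial ℕ (ZMod p)) :
    ∃ x : Small (kdeg p n) →₀ HRing (stdEven T) D.R,
      f = x.sum fun e h => lam h * MvPolynomial.monomial (e : ℕ →₀ ℕ) 1 := by
  obtain ⟨x, rfl⟩ := span_small Fb hF hv hn f
  refine ⟨x.mapRange (L0 D) (map_zero _), ?_⟩
  rw [Finsupp.sum_mapRange_index (fun e => by rw [map_zero, zero_mul])]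
  exact Finset.sum_congr rfl fun e _ => by
    dsimp only
    rw [hlam]

include hlam hp hF hv hn in
theorem ind_lam (x : Small (kdeg p n) →₀ HRing (stdEven T) D.R)
    (hx : (x.sum fun e h => lam h * MvPolynomial.monomial (e : ℕ →₀ ℕ) 1) = 0)
    (e : Small (kdeg p n)) : x e ∈ Ideal.span {vv p n D.law - 1} ⊔ Ih p n D.law := by
  classical
  choose z t hz using hp.exists_add
  have h0 : ∀ h, lam h = Laz.lift (bL Fb) (z h) := fun h => by
    conv_lhs => rw [hz h]
    rw [map_add, map_mul, map_natCast, natCast_mv, zero_mul, add_zero, hlam]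
  by_cases he : e ∈ x.support
  · let y : Small (kdeg p n) →₀ Laz := Finsupp.onFinset x.support
      (fun e => if e ∈ x.support then z (x e) else 0) (by
        intro e he
        by_contra h1
        exact he (if_neg h1))
    have hy : y e = z (x e) := if_pos he
    have h1 := ind_small Fb hF hv hn y (by
      rw [Finsupp.onFinset_sum _ (fun e => by rw [map_zero, zero_mul]), ← hx, Finsupp.sum]
      refine Finset.sum_congr rfl fun e he => ?_
      rw [if_pos he, h0]) e
    obtain ⟨w, hw⟩ := exists_of_mem_idV h1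
    have h2 := L0_mem_Ih (D := D) hw
    rw [map_sub, map_mul, map_sub, map_one, L0_v, hy] at h2
    have h3 : x e = (vv p n D.law - 1) * L0 D w + ((L0 D (z (x e)) -
        (vv p n D.law - 1) * L0 D w) + (p : HRing (stdEven T) D.R) * t (x e)) := by
      conv_lhs => rw [hz (x e)]
      ring
    rw [h3]
    exact add_mem (Submodule.mem_sup_left
      (Ideal.mul_mem_right _ _ (Ideal.mem_span_singleton_self _)))
      (Submodule.mem_sup_right (add_mem h2 (Ideal.mul_mem_right _ _ (p_mem_Ih hn))))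
  · rw [Finsupp.notMem_support_iff.1 he]
    exact zero_mem _

/-- the ring side of the retract -/
def retR :
    letI := lam.toAlgebra
    RetR0 (HRing (stdEven T) D.R) (MvPolynomial ℕ (ZMod p)) (HRing (stdEven T) (D.R ⊗ D.R))
      (ℕ →₀ ℕ) (Small (kdeg p n)) :=
  letI := lam.toAlgebra
  { J := RingHom.ker χ
    i := HRing.map (inlM D.R D.R)
    j := HRing.map (inrM D.R D.R)
    κ := HRing.map (descM (𝟙 D.R) (𝟙 D.R))
    θ := tht H lam
    C := (MvPolynomial.C).comp
      (RingHom.quotientKerEquivOfSurjective (ZMod.ringHom_surjective χ)).toRingHom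
    ε := (RingHom.quotientKerEquivOfSurjective (ZMod.ringHom_surjective χ)).symm.toRingHom.comp
      MvPolynomial.constantCoeff
    θi := tht_inl H lam
    θj := fun h => by
      rw [tht_coact H Fb lam hlam hp χ hχ]
      rfl
    κi := fun h => by
      rw [← RingHom.comp_apply, ← HRing.map_comp, HRing_map_congr (inlM_descM _ _), HRing.map_id,
        RingHom.id_apply]
    εθ := fun g => by
      rw [RingHom.comp_apply, constantCoeff_tht H Fb lam hlam hp χ hχ]
      apply (RingHom.quotientKerEquivOfSurjective (ZMod.ringHom_surjective χ)).injective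
      exact (RingEquiv.apply_symm_apply _ _).trans rfl
    β := fun a => a.prod fun i m => bK D (𝟙 D.R) i ^ m
    spanG := span_eps H
    a := vv p n D.law
    I₀ := Ih p n D.law
    b := fun e => MvPolynomial.monomial (e : ℕ →₀ ℕ) 1
    ha := by
      change lam _ = 1
      rw [← L0_v, hlam, lift_bL_v Fb hF hv]
    spanB := span_lam Fb lam hlam hF hv hn
    indB := ind_lam Fb lam hlam hp hF hv hn }

/-- the module side of the retract -/
def retM {Y : T} (hY : ∀ i < n, D.vel p i ▷ Y = 0) :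
    letI := lam.toAlgebra
    RetM0 (retR H Fb lam hlam hp χ hχ hF hv hn) (MP (stdEven T) D.R Y)
      (MP (stdEven T) (D.R ⊗ D.R) Y) :=
  letI := lam.toAlgebra
  { io := MP.push (stdEven T) (inlM D.R D.R) Y
    hio := MP.push_smul _
    bij := bij_MP H Y
    ψ := MP.push (stdEven T) (inrM D.R D.R) Y
    hψ := MP.push_smul _
    k := MP.push (stdEven T) (descM (𝟙 D.R) (𝟙 D.R)) Y
    hk := fun g m => by
      rw [MP.push_smul, MP.push_push, inlM_descM, MP.push_id]
      rfl
    kψ := fun m => by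
      rw [MP.push_push, inrM_descM, MP.push_id]
    kill := fun _ hz m => MP_kill hY hz m }

end ring

/-- **Exactness of `Y ↦ π_{2*}(MU ⊗ Y) / (ker χ)`** on objects which are killed by `I_n`. -/
theorem exact_of_kill {Fc : SpaceFunctor T} {e : Fc.S.obj CCF ≅ (stdEven T).L} (H : MUUniv e D)
    (hp : MUAt D p) (hn : n ≠ 0) {N : ℕ} (c : Pt (stdEven T) D.R p N)
    (hc : ∀ z, c.χ (L0 D z) = chiPt p n z) {X Y Z : T} {f : X ⟶ Y} {g : Y ⟶ Z}
    {h : Z ⟶ X⟦(1 : ℤ)⟧} (hT : Triangle.mk f g h ∈ distTriang T)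
    (hY : ∀ i < n, D.vel p i ▷ Y = 0) (hZ : ∀ i < n, D.vel p i ▷ Z = 0)
    (y : MP (stdEven T) D.R Y)
    (hy : MP.map (stdEven T) D.R g y ∈
      c.I • (⊤ : Submodule (HRing (stdEven T) D.R) (MP (stdEven T) D.R Z))) :
    ∃ x : MP (stdEven T) D.R X, y - MP.map (stdEven T) D.R f x ∈
      c.I • (⊤ : Submodule (HRing (stdEven T) D.R) (MP (stdEven T) D.R Y)) := by
  let Fb := ptLaw p n (CharP.cast_eq_zero (ZMod p) p) 1
  have hF : ∀ i < n, vv p i Fb = 0 := fun _ hi => vv_ptLaw_of_ne _ _ hi.ne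
  have hv : vv p n Fb = 1 := vv_ptLaw hn _ _
  have hχ : ∀ z, c.χ (L0 D z) = Laz.lift Fb z := fun z => by rw [hc, chiPt_eq_lift]
  obtain ⟨lam, hlam⟩ := exists_homAt hp natCast_mv (Laz.lift (bL Fb))
  let _ := lam.toAlgebra
  have hN : p ^ n - 1 ≠ 0 := by
    have := Nat.one_lt_pow hn (Fact.out : p.Prime).one_lt
    omega
  let a : (stdEven T).S ((p ^ n - 1 : ℕ) : ℤ) ⟶ D.R :=
    ((stdEven T).castIso _ _ (cast_pow_sub n)).hom ≫ D.vel p n
  have ha : HRing.of (stdEven T) D.R ((p ^ n - 1 : ℕ) : ℤ) a = vv p n D.law := by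
    rw [D.vel_spec]
    exact of_cast (cast_pow_sub n) _
  refine exact_of_retract0 (retM H Fb lam hlam hp c.χ hχ hF hv hn hY)
    (retM H Fb lam hlam hp c.χ hχ hF hv hn hZ) (MP.map (stdEven T) D.R f)
    (MP.map (stdEven T) D.R g) (MP.map (stdEven T) (D.R ⊗ D.R) g) ?_ ?_ ?_ y hy
  · exact fun m => MP.map_push _ _ _
  · exact fun m => MP.map_push _ _ _
  · intro y z hyz
    have h1 : HRing.of (stdEven T) D.R ((p ^ n - 1 : ℕ) : ℤ) a • z - z =
        MP.map (stdEven T) D.R g y := by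
      rw [ha]
      exact hyz.symm
    have hex : ∀ (m : ℤ) (y : (stdEven T).S m ⟶ D.R ⊗ Y), y ≫ D.R ◁ g = 0 →
        ∃ x : (stdEven T).S m ⟶ D.R ⊗ X, x ≫ D.R ◁ f = y := by
      intro m y hy
      obtain ⟨b, hb⟩ := ex₂ (tens_dist D.R hT) y hy
      exact ⟨b, hb.symm⟩
    obtain ⟨x, y', hxy⟩ := exists_of_sub hN a f g hex y z h1.symm
    refine ⟨x, y', ?_⟩
    rw [ha] at hxy
    exact hxy

end Vale.Agent.P261Z.T3
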