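import Vale.Agent.P251.X.RepHom
import Vale.Agent.P251.M.EvenRing

/-!
# P261, block T3: modules from homology theories with an action

If `V` is a homology theory with a natural action `a : V (R ⊗ W) → V W` of the monoid `R`, the
object which represents the dual cohomology theory is a module over `R`.
-/

open CategoryTheory MonoidalCategory Limits Pretriangulated MonObj

set_option linter.unusedSectionVars false

universe w v u

noncomputable section

namespace Vale.Agent.P261Z.T3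

open Vale.Agent.P251 Vale.Agent.P251.M Vale.Agent.P251.S Vale.Agent.P251.X

variable {k : Type} [Field k] {T : Type u} [Category.{v} T] [Preadditive T] [HasZeroObject T]
  [HasShift T ℤ] [∀ n : ℤ, (shiftFunctor T n).Additive] [Pretriangulated T] [HasCoproducts.{0} T]
  [MonoidalCategory T]

/-- An action of the monoid `R` on the homology theory `F`. -/
structure ActTh (F : HomTh.{w} k T) (R : T) [MonObj R] where
  /-- the action -/
  a (W : T) : F.V (R ⊗ W) →ₗ[k] F.V W
  nat {W W' : T} (f : W ⟶ W') (x : F.V (R ⊗ W)) : a W' (F.map (R ◁ f) x) = F.map f (a W x)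
  one (W : T) (x : F.V (𝟙_ T ⊗ W)) : a W (F.map (η[R] ▷ W) x) = F.map (λ_ W).hom x
  mul (W : T) (x : F.V ((R ⊗ R) ⊗ W)) :
    a W (F.map (μ[R] ▷ W) x) = a W (a (R ⊗ W) (F.map (α_ R R W).hom x))

variable {F : HomTh.{w} k T} {K : T} {φ : Module.Dual k (F.V K)}
  (hφ : ∀ X : T, Function.Bijective fun f : X ⟶ K => φ.comp (F.map f))

include hφ

theorem rep_ext {X : T} {f g : X ⟶ K} (h : ∀ x, φ (F.map f x) = φ (F.map g x)) : f = g :=
  (hφ X).1 (LinearMap.ext h)

theorem rep_exists {X : T} (ψ : Module.Dual k (F.V X)) :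
    ∃ f : X ⟶ K, ∀ x, φ (F.map f x) = ψ x := by
  obtain ⟨f, hf⟩ := (hφ X).2 ψ
  exact ⟨f, fun x => DFunLike.congr_fun hf x⟩

omit hφ in
theorem map_zero_hom {X Y : T} (x : F.V X) : F.map (0 : X ⟶ Y) x = 0 := by
  have h := DFunLike.congr_fun (F.map_add (0 : X ⟶ Y) 0) x
  rw [add_zero, LinearMap.add_apply] at h
  exact left_eq_add.1 h

omit hφ in
theorem map_comp_hom {X Y Z : T} (f : X ⟶ Y) (g : Y ⟶ Z) (x : F.V X) :
    F.map (f ≫ g) x = F.map g (F.map f x) := DFunLike.congr_fun (F.map_comp f g) x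

omit hφ in
theorem map_zsmul_hom {X Y : T} (a : ℤ) (f : X ⟶ Y) (x : F.V X) :
    F.map (a • f) x = a • F.map f x := by
  let h : (X ⟶ Y) →+ F.V Y := AddMonoidHom.mk' (fun f => F.map f x) fun f g =>
    DFunLike.congr_fun (F.map_add f g) x
  exact h.map_zsmul a f

theorem rep_zero {X : T} (h : ∀ x : F.V X, x = 0) (f : X ⟶ K) : f = 0 :=
  rep_ext hφ fun x => by
    rw [h x]
    simp only [map_zero]

variable {R : T} [MonObj R] (A : ActTh F R)

/-- **The module structure.** -/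
theorem ActTh.exists_mod : ∃ M : ModStr R K, ∀ x, φ (F.map M.act x) = φ (A.a K x) := by
  obtain ⟨t, ht⟩ := rep_exists hφ (φ.comp (A.a K))
  refine ⟨⟨t, rep_ext hφ fun x => ?_, rep_ext hφ fun x => ?_⟩, ht⟩
  · rw [map_comp_hom, ht, LinearMap.comp_apply, A.one]
  · rw [map_comp_hom, map_comp_hom, map_comp_hom, ht, ht, LinearMap.comp_apply,
      LinearMap.comp_apply, A.mul, A.nat, ht, LinearMap.comp_apply]

variable {M : ModStr R K} (hM : ∀ x, φ (F.map M.act x) = φ (A.a K x))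

include hM

theorem ActTh.act_zero {S : T} (s : S ⟶ R) (h : ∀ x, A.a K (F.map (s ▷ K) x) = 0) :
    s ▷ K ≫ M.act = 0 :=
  rep_ext hφ fun x => by rw [map_comp_hom, hM, h, map_zero_hom]

theorem ActTh.isIso_act {S : T} [IsInv S] (s : S ⟶ R)
    (h : ∀ W, Function.Bijective fun x => A.a W (F.map (s ▷ W) x)) : IsIso (s ▷ K ≫ M.act) := by
  have key : ∀ (W : T) (f : W ⟶ K) (x : F.V (S ⊗ W)),
      φ (F.map (S ◁ f ≫ s ▷ K ≫ M.act) x) = φ (F.map f (A.a W (F.map (s ▷ W) x))) := by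
    intro W f x
    rw [← Category.assoc, whisker_exchange, map_comp_hom, map_comp_hom, hM, A.nat]
  have h1 : ∀ W : T, Function.Bijective fun f : W ⟶ K => S ◁ f ≫ s ▷ K ≫ M.act := by
    intro W
    constructor
    · intro f g hfg
      refine rep_ext hφ fun y => ?_
      obtain ⟨x, rfl⟩ := (h W).2 y
      have h2 : S ◁ f ≫ s ▷ K ≫ M.act = S ◁ g ≫ s ▷ K ≫ M.act := hfg
      rw [← key, ← key, h2]
    · intro g
      let e := LinearEquiv.ofBijective ((A.a W).comp (F.map (s ▷ W))) (h W)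
      obtain ⟨f, hf⟩ := rep_exists hφ ((φ.comp (F.map g)).comp e.symm.toLinearMap)
      refine ⟨f, rep_ext hφ fun x => ?_⟩
      rw [key, hf]
      exact congrArg (fun y => φ (F.map g y)) (e.symm_apply_apply x)
  refine isIso_of_yoneda_map_bijective _ fun Y => ?_
  obtain ⟨W, ⟨e⟩⟩ := Functor.EssSurj.mem_essImage (tensorLeft S) Y
  constructor
  · intro f g hfg
    obtain ⟨f', hf⟩ := whiskerLeft_surj S (e.hom ≫ f)
    obtain ⟨g', hg⟩ := whiskerLeft_surj S (e.hom ≫ g)
    have h2 : f ≫ s ▷ K ≫ M.act = g ≫ s ▷ K ≫ M.act := hfg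
    have h3 : f' = g' := (h1 W).1 (by
      change S ◁ f' ≫ s ▷ K ≫ M.act = S ◁ g' ≫ s ▷ K ≫ M.act
      rw [hf, hg]
      exact (Category.assoc _ _ _).trans ((congrArg (e.hom ≫ ·) h2).trans
        (Category.assoc _ _ _).symm))
    rw [← cancel_epi e.hom]
    exact hf.symm.trans ((congrArg (S ◁ ·) h3).trans hg)
  · intro g
    obtain ⟨f, hf⟩ := (h1 W).2 (e.hom ≫ g)
    refine ⟨e.inv ≫ S ◁ f, ?_⟩
    have h2 : S ◁ f ≫ s ▷ K ≫ M.act = e.hom ≫ g := hf
    exact (Category.assoc _ _ _).trans ((congrArg (e.inv ≫ ·) h2).trans (e.inv_hom_id_assoc g))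

end Vale.Agent.P261Z.T3
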