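import Vale.Agent.P261Z.T3.ExV
import Vale.Agent.P261Z.T3.ExRep

/-!
# P261, block T3: the action of `R` on the theory `W ↦ Vz c (M ⊗ W)`

* `actQ` : the action; `actQ_zero`, `actQ_bijective` : the elements which act on `P` by zero act
  by zero, the element `v` of the point acts bijectively.
-/

open CategoryTheory MonoidalCategory Limits Pretriangulated MonObj

set_option linter.unusedSectionVars false

universe v u

noncomputable section

namespace Vale.Agent.P261Z.T3

open Vale.Agent.P251 Vale.Agent.P251.T Vale.Agent.P251.M Vale.Agent.P251.M.EvenSpheres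
  Vale.Agent.P251.S Vale.Agent.P251.X

section ract

variable {T : Type u} [Category.{v} T] [MonoidalCategory T] [SymmetricCategory T]
  {R P : T} [MonObj R] (M : ModStr R P)

/-- the right action -/
def ractQ : P ⊗ R ⟶ P := (β_ P R).hom ≫ M.act

theorem act_actQ : R ◁ M.act ≫ M.act = (α_ R R P).inv ≫ μ[R] ▷ P ≫ M.act := by
  rw [M.mul_act, Iso.inv_hom_id_assoc]

theorem ractQ_one : P ◁ η[R] ≫ ractQ M = (ρ_ P).hom := by
  unfold ractQ
  rw [BraidedCategory.braiding_naturality_right_assoc, M.one_act, braiding_leftUnitor]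

/-- the action on `P ⊗ (R ⊗ W)` -/
def aW (W : T) : P ⊗ (R ⊗ W) ⟶ P ⊗ W := (α_ P R W).inv ≫ ractQ M ▷ W

theorem aW_nat {W W' : T} (f : W ⟶ W') : P ◁ R ◁ f ≫ aW M W' = aW M W ≫ P ◁ f := by
  unfold aW
  rw [associator_inv_naturality_right_assoc, whisker_exchange, Category.assoc]

theorem whisker_aW {S : T} (s : S ⟶ R) (W : T) :
    P ◁ (s ▷ W) ≫ aW M W = (α_ P S W).inv ≫ (P ◁ s ≫ ractQ M) ▷ W := by
  unfold aW
  rw [associator_inv_naturality_middle_assoc, comp_whiskerRight]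

theorem aW_one (W : T) : P ◁ (η[R] ▷ W) ≫ aW M W = P ◁ (λ_ W).hom := by
  rw [whisker_aW, ractQ_one]
  monoidal

theorem whisker_ractQ {S : T} (s : S ⟶ R) : P ◁ s ≫ ractQ M = (β_ P S).hom ≫ s ▷ P ≫ M.act := by
  unfold ractQ
  rw [BraidedCategory.braiding_naturality_right_assoc]

variable [IsCommMonObj R]

theorem comm_actQ : (β_ R R).hom ▷ P ≫ μ[R] ▷ P ≫ M.act = μ[R] ▷ P ≫ M.act := by
  rw [← comp_whiskerRight_assoc, IsCommMonObj.mul_comm]

theorem ractQ_mul : P ◁ μ[R] ≫ ractQ M = (α_ P R R).inv ≫ ractQ M ▷ R ≫ ractQ M := by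
  unfold ractQ
  rw [BraidedCategory.braiding_naturality_right_assoc, comp_whiskerRight, Category.assoc,
    BraidedCategory.braiding_naturality_left_assoc, act_actQ,
    BraidedCategory.braiding_tensor_left_hom, BraidedCategory.braiding_tensor_right_hom]
  simp only [Category.assoc, Iso.hom_inv_id_assoc]
  rw [comm_actQ]

theorem ractQ_lin : (M.tensorRight R).IsLinear M (ractQ M) := by
  change ((α_ R P R).inv ≫ M.act ▷ R) ≫ (β_ P R).hom ≫ M.act =
    R ◁ ((β_ P R).hom ≫ M.act) ≫ M.act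
  rw [Category.assoc, BraidedCategory.braiding_naturality_left_assoc,
    MonoidalCategory.whiskerLeft_comp, Category.assoc, act_actQ,
    BraidedCategory.braiding_tensor_left_hom]
  simp only [Category.assoc, Iso.hom_inv_id_assoc, Iso.inv_hom_id_assoc]
  rw [comm_actQ]

theorem aW_lin (W : T) : (M.tensorRight (R ⊗ W)).IsLinear (M.tensorRight W) (aW M W) :=
  (ModStr.IsLinear.inv (e := α_ P R W) (M.isLinear_assoc R W)).comp ((ractQ_lin M).whiskerRight W)

theorem aW_mul (W : T) : P ◁ (μ[R] ▷ W) ≫ aW M W =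
    (P ◁ (α_ R R W).hom ≫ aW M (R ⊗ W)) ≫ aW M W := by
  rw [whisker_aW, ractQ_mul]
  unfold aW
  monoidal

end ract

section susp

variable {T : Type u} [Category.{v} T] [Preadditive T] [MonoidalCategory T]
  [MonoidalPreadditive T] [SymmetricCategory T] {E : EvenSpheres T} {R : T} [MonObj R]
  {X : T} (N : ModStr R X)

/-- the suspension -/
def susp (E : EvenSpheres T) (N : ModStr R X) (m : ℤ) :
    MQ E N →ₗ[HRing E R] MQ E (N.tensorRight (E.S m)) :=
  MQ.mkLin (MQ.lift fun j => (MQ.of E _ (j + m)).comp (AddMonoidHom.mk'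
    (fun x => E.ext rfl x (𝟙 (E.S m))) fun x y => ext_add_left _ _ _ _)) fun i j a x => by
    rw [MQ.lift_of, MQ.lift_of]
    change MQ.of E _ (i + j + m) (E.ext rfl (gsmul N rfl a x) (𝟙 (E.S m))) =
      HRing.of E R i a • MQ.of E (N.tensorRight (E.S m)) (j + m) (E.ext rfl x (𝟙 (E.S m)))
    rw [MQ.smul_of (k := i + j + m) (add_assoc i j m).symm]
    congr 1
    change E.ext rfl (E.ext rfl a x ≫ N.act) (𝟙 (E.S m)) =
      E.ext _ a (E.ext rfl x (𝟙 (E.S m))) ≫ (α_ R X (E.S m)).inv ≫ N.act ▷ E.S m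
    rw [ext_comp_left, ← ext_assoc rfl rfl rfl (add_assoc i j m).symm, Category.assoc,
      Iso.hom_inv_id_assoc]

theorem susp_of {j m q : ℤ} (h : j + m = q) (x : E.S j ⟶ X) :
    susp E N m (MQ.of E N j x) = MQ.of E _ q (E.ext h x (𝟙 (E.S m))) := by
  subst h
  exact MQ.lift_of (N := N) (fun j => (MQ.of E (N.tensorRight (E.S m)) (j + m)).comp
    (AddMonoidHom.mk' (fun x => E.ext rfl x (𝟙 (E.S m))) fun x y => ext_add_left _ _ _ _)) j x

omit [Preadditive T] [MonoidalPreadditive T] in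
theorem exists_ext_id {j m q : ℤ} (h : j + m = q) (y : E.S q ⟶ X ⊗ E.S m) :
    ∃ x : E.S j ⟶ X, E.ext h x (𝟙 (E.S m)) = y := by
  obtain ⟨x, hx⟩ := whiskerLeft_surj (E.S m)
    ((β_ _ _).hom ≫ (E.mu j m q h).hom ≫ y ≫ (β_ _ _).hom)
  refine ⟨x, ?_⟩
  unfold EvenSpheres.ext
  rw [tensorHom_id, Iso.inv_comp_eq, ← cancel_mono (β_ X (E.S m)).hom,
    BraidedCategory.braiding_naturality_left, hx, SymmetricCategory.symmetry_assoc,
    Category.assoc]

theorem susp_surjective (m : ℤ) : Function.Surjective (susp E N m) := by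
  intro y
  refine MQ.ind (motive := fun y => ∃ x, susp E N m x = y) y ⟨0, map_zero _⟩ ?_ ?_
  · intro q y
    obtain ⟨x, rfl⟩ := exists_ext_id (sub_add_cancel q m) y
    exact ⟨_, susp_of N _ x⟩
  · rintro _ _ ⟨x, rfl⟩ ⟨y, rfl⟩
    exact ⟨x + y, map_add _ _ _⟩

variable {p d : ℕ} [Fact p.Prime] (c : Pt E R p d)

/-- a linear map which is the multiplication by `v` induces a bijection -/
theorem bijective_of_mul {Y : T} {N' : ModStr R Y} (e : X ⊗ E.S d ≅ Y)
    (he : (N.tensorRight (E.S d)).IsLinear N' e.hom) (t : Y ⟶ X) (ht : N'.IsLinear N t)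
    (h : e.hom ≫ t = X ◁ c.v ≫ (β_ X R).hom ≫ N.act) :
    Function.Bijective (Vq.map c t ht) := by
  let s : Vq c N →ₗ[ZMod p] Vq c N' := (Vq.map c e.hom he).comp (Vq.mapL c (susp E N d))
  have h1 : (Vq.map c t ht).comp s = LinearMap.id := by
    refine Vq.hom_ext fun j x => ?_
    change Vq.map c t ht (Vq.map c e.hom he (Vq.mk c _ (susp E N d (MQ.of E N j x)))) = _
    rw [susp_of N rfl, ← Vq.cls_eq, Vq.map_cls, Vq.map_cls, Category.assoc, h,
      ← Category.assoc, ← ext_comp_right, Category.id_comp, ← Category.assoc,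
      ext_comm rfl (add_comm _ _), LinearMap.id_apply, Vq.cls_eq, Vq.cls_eq]
    change Vq.mk c N (MQ.of E N (j + d) (gsmul N _ c.v x)) = _
    rw [← MQ.smul_of, Vq.mk_smul, c.χ_v, one_smul]
  have h2 : Function.Surjective s := by
    intro y
    obtain ⟨z, hz⟩ := Vq.mk_surjective (Vq.map c e.inv he.inv y)
    obtain ⟨x, rfl⟩ := susp_surjective N d z
    refine ⟨Vq.mk c N x, ?_⟩
    change Vq.map c e.hom he (Vq.mk c _ (susp E N d x)) = y
    rw [hz, Vq.map_map, Vq.map_eq_id e.inv_hom_id]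
  have h3 : ∀ x, Vq.map c t ht (s x) = x := fun x => DFunLike.congr_fun h1 x
  refine ⟨fun y y' hy => ?_, fun x => ⟨s x, h3 x⟩⟩
  obtain ⟨x, rfl⟩ := h2 y
  obtain ⟨x', rfl⟩ := h2 y'
  rw [h3, h3] at hy
  rw [hy]

end susp

section theory

variable {T : Type u} [Category.{v} T] [Preadditive T] [HasZeroObject T]
    [HasShift T ℤ] [∀ n : ℤ, (shiftFunctor T n).Additive] [Pretriangulated T] [IsTriangulated T]
    [MonoidalCategory T] [SymmetricCategory T] [TensorTriangulated T] [MonoidalClosed T]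
    [HasCoproducts.{0} T] [HasProducts.{0} T] [StableCat T]
  {E : EvenSpheres T} {R P : T} [MonObj R] [IsCommMonObj R] {p d : ℕ} [Fact p.Prime]
  (c : Pt E R p d) (M : ModStr R P) (hc : ExactQ c M) (hE : ∀ j, IsSphere (E.S j))

theorem thQ_map {X Y : T} (f : X ⟶ Y) :
    (thQ c M hc hE).map f = Vz.map c (P ◁ f) (M.isLinear_whiskerLeft f) := rfl

/-- **The action.** -/
def actQ : ActTh (thQ c M hc hE) R where
  a W := Vz.map c (aW M W) (aW_lin M W)
  nat f x := ((Vz.map_map _ (M.isLinear_whiskerLeft _) _ (aW_lin M _) x).trans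
    (DFunLike.congr_fun (Vz.map_congr (aW_nat M f) _ _) x)).trans
      (Vz.map_map _ (aW_lin M _) _ (M.isLinear_whiskerLeft _) x).symm
  one W x := (Vz.map_map _ (M.isLinear_whiskerLeft _) _ (aW_lin M _) x).trans
    (DFunLike.congr_fun (Vz.map_congr (aW_one M W) _ (M.isLinear_whiskerLeft _)) x)
  mul W x := by
    refine ((Vz.map_map _ (M.isLinear_whiskerLeft _) _ (aW_lin M _) x).trans
      (DFunLike.congr_fun (Vz.map_congr (aW_mul M W) _
        (((M.isLinear_whiskerLeft _).comp (aW_lin M _)).comp (aW_lin M _))) x)).trans ?_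
    exact ((congrArg (Vz.map c (aW M W) (aW_lin M W))
      (Vz.map_map _ (M.isLinear_whiskerLeft _) _ (aW_lin M _) x)).trans
        (Vz.map_map _ _ _ (aW_lin M _) x)).symm

theorem actQ_map {S : T} (s : S ⟶ R) (W : T) (x : (thQ c M hc hE).V (S ⊗ W)) :
    (actQ c M hc hE).a W ((thQ c M hc hE).map (s ▷ W) x) =
      Vz.map c (P ◁ (s ▷ W) ≫ aW M W) ((M.isLinear_whiskerLeft _).comp (aW_lin M W)) x :=
  Vz.map_map _ (M.isLinear_whiskerLeft _) _ (aW_lin M _) x

theorem actQ_zero {S : T} (s : S ⟶ R) (h : s ▷ P ≫ M.act = 0) (W : T)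
    (x : (thQ c M hc hE).V (S ⊗ W)) :
    (actQ c M hc hE).a W ((thQ c M hc hE).map (s ▷ W) x) = 0 := by
  rw [actQ_map]
  refine Vz.map_eq_zero ?_ _ _
  rw [whisker_aW, whisker_ractQ, h, comp_zero, MonoidalPreadditive.zero_whiskerRight, comp_zero]

theorem actQ_bijective (W : T) : Function.Bijective
    fun x => (actQ c M hc hE).a W ((thQ c M hc hE).map (c.v ▷ W) x) := by
  have h1 := Vz.bijective_map (c := c) _ _ (bijective_of_mul (M.tensorRight W) c
    (α_ P W (E.S d) ≪≫ whiskerLeftIso P (β_ W (E.S d)))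
    ((M.isLinear_assoc W (E.S d)).comp (M.isLinear_whiskerLeft (β_ W (E.S d)).hom))
    (P ◁ (c.v ▷ W) ≫ aW M W) ((M.isLinear_whiskerLeft _).comp (aW_lin M W)) (by
      change ((α_ P W (E.S d)).hom ≫ P ◁ (β_ W (E.S d)).hom) ≫ P ◁ (c.v ▷ W) ≫
        (α_ P R W).inv ≫ ((β_ P R).hom ≫ M.act) ▷ W =
        (P ⊗ W) ◁ c.v ≫ (β_ (P ⊗ W) R).hom ≫ (α_ R P W).inv ≫ M.act ▷ W
      rw [Category.assoc, ← MonoidalCategory.whiskerLeft_comp_assoc,
        ← BraidedCategory.braiding_naturality_right, MonoidalCategory.whiskerLeft_comp,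
        Category.assoc, ← associator_naturality_right_assoc,
        BraidedCategory.braiding_tensor_left_hom, comp_whiskerRight]
      simp only [Category.assoc, Iso.hom_inv_id_assoc]))
  have h2 : (fun x => (actQ c M hc hE).a W ((thQ c M hc hE).map (c.v ▷ W) x)) = _ :=
    funext fun x => actQ_map c M hc hE c.v W x
  rw [h2]
  exact h1

end theory

end Vale.Agent.P261Z.T3
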