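import Vale.Agent.P261Z.T3.ExOdd

/-!
# P261, block T3: the modules `MU / I_n` exist at every prime
-/

open CategoryTheory MonoidalCategory MonObj Limits Pretriangulated

set_option linter.unusedSectionVars false

universe v u

namespace Vale.Agent.P261Z.T3

open Vale.Agent.P251 Vale.Agent.P251.M Vale.Agent.P251.M.EvenSpheres Vale.Agent.P251.F
  Vale.Agent.P251.T Vale.Agent.P251.S Vale.Agent.P251.I Vale.Agent.P251.X

variable {T : Type u} [Category.{v} T] [Preadditive T] [HasZeroObject T]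
    [HasShift T ℤ] [∀ n : ℤ, (shiftFunctor T n).Additive] [Pretriangulated T] [IsTriangulated T]
    [MonoidalCategory T] [SymmetricCategory T] [TensorTriangulated T] [MonoidalClosed T]
    [HasCoproducts.{0} T] [HasProducts.{0} T] [StableCat T] {D : MUData T} {p : ℕ} [Fact p.Prime]

section base

variable (hp : MUAt D p) {Mo : T} {i : 𝟙_ T ⟶ Mo} {δM : Mo ⟶ (𝟙_ T)⟦(1 : ℤ)⟧}
  (hMo : Triangle.mk ((p : ℤ) • 𝟙 (𝟙_ T)) i δM ∈ distTriang T)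

include hp hMo

theorem odd_R : Odd0 (D.R ⊗ Mo) := by
  intro l f
  have h1 := hp.odd 0 Mo i δM hMo l (f ≫ (λ_ D.R).inv ▷ Mo)
  rw [← cancel_mono ((λ_ D.R).inv ▷ Mo), zero_comp]
  exact h1

theorem char_R : (p : ℤ) • 𝟙 (D.R ⊗ Mo) = 0 := by
  have h1 : ((p : ℤ) • 𝟙 (𝟙_ T)) ≫ i = 0 := comp_distTriang_mor_zero₁₂ _ hMo
  rw [Preadditive.zsmul_comp, Category.id_comp] at h1
  obtain ⟨b, hb⟩ := yex3 hMo ((p : ℤ) • FM.unit D.R Mo) (by
    rw [Preadditive.comp_zsmul, ← Preadditive.zsmul_comp, h1, zero_comp])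
  have h2 : b = 0 := (odd_R hp hMo).noMap.eq_zero b
  rw [h2, comp_zero] at hb
  have h3 : D.R ◁ ((p : ℤ) • FM.unit D.R Mo) = (p : ℤ) • D.R ◁ FM.unit D.R Mo :=
    (tensorLeft D.R).map_zsmul (f := FM.unit D.R Mo) (r := (p : ℤ))
  rw [← FM.bind_unit, bind_eq, ← Preadditive.zsmul_comp, ← h3, hb,
    MonoidalPreadditive.whiskerLeft_zero, zero_comp]

/-- **The base case** `MU / p`. -/
noncomputable def pmOne : PM D p 1 where
  P := D.R ⊗ Mo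
  M := ModStr.free D.R Mo
  ψ := D.R ◁ FM.unit D.R Mo
  ψ_lin := free_lin _
  ψ_act := FM.bind_unit Mo
  low k hk := by
    obtain rfl : k = 0 := by omega
    exact (vel_zero_act _).2 (char_R hp hMo)
  u := (ρ_ D.R).inv ≫ D.R ◁ i
  u_lin := (rho_lin (ModStr.self D.R)).comp ((ModStr.self D.R).isLinear_whiskerLeft i)
  odd := odd_R hp hMo
  surj w x := by
    obtain ⟨z, a, -, -, h3⟩ := hp.surj 0 Mo i δM hMo w (x ≫ (λ_ D.R).inv ▷ Mo)
    refine ⟨a ≫ (λ_ D.R).hom, ?_⟩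
    have h4 : x = (x ≫ (λ_ D.R).inv ▷ Mo) ≫ (λ_ D.R).hom ▷ Mo := by
      rw [Category.assoc, ← comp_whiskerRight, Iso.inv_hom_id, id_whiskerRight, Category.comp_id]
    rw [h4, h3]
    simp only [Category.assoc]
    rw [rightUnitor_inv_naturality_assoc (λ_ D.R).hom, ← whisker_exchange]
  ker w a ha := by
    obtain ⟨b, rfl⟩ := exists_zsmul_of_red hMo a ha
    have h0 := vv_mem_Ih (p := p) Nat.one_pos D.law
    rw [vv_zero] at h0
    change DirectSum.of ((stdEven T).Gr D.R) w _ ∈ _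
    rw [map_zsmul, zsmul_eq_mul, Int.cast_natCast]
    exact Ideal.mul_mem_right _ _ h0

end base

namespace PM

variable {j : ℕ} (Q : PM D p j)

/-- the section for `P ⊗ X` -/
noncomputable def ψX (X : T) : Q.P ⊗ X ⟶ D.R ⊗ (Q.P ⊗ X) := Q.ψ ▷ X ≫ (α_ _ _ _).hom

theorem ψX_lin (X : T) : (Q.M.tensorRight X).IsLinear (ModStr.free D.R (Q.P ⊗ X)) (Q.ψX X) :=
  (Q.ψ_lin.whiskerRight X).comp (assoc_lin _ _)

@[reassoc]
theorem ψX_act (X : T) : Q.ψX X ≫ (Q.M.tensorRight X).act = 𝟙 _ := by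
  change (Q.ψ ▷ X ≫ (α_ _ _ _).hom) ≫ (α_ _ _ _).inv ≫ Q.M.act ▷ X = _
  rw [Category.assoc, Iso.hom_inv_id_assoc, ← comp_whiskerRight, Q.ψ_act, id_whiskerRight]

@[reassoc]
theorem ψX_nat {X Y : T} (f : X ⟶ Y) : Q.P ◁ f ≫ Q.ψX Y = Q.ψX X ≫ D.R ◁ Q.P ◁ f := by
  unfold ψX
  rw [whisker_exchange_assoc, associator_naturality_right, Category.assoc]

variable (hp : MUAt D p) {Mo : T} {i : 𝟙_ T ⟶ Mo} {δM : Mo ⟶ (𝟙_ T)⟦(1 : ℤ)⟧}
  (hMo : Triangle.mk ((p : ℤ) • 𝟙 (𝟙_ T)) i δM ∈ distTriang T)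

include hp hMo in
theorem reg (m q : ℤ) (h : ((p ^ j : ℤ) - 1) + m = q) (y : (stdEven T).S m ⟶ Q.P)
    (hy : gsmul Q.M h (D.vel p j) y = 0) : y = 0 := by
  obtain ⟨b, rfl⟩ := Q.surj m y
  rw [Q.gsmul_u] at hy
  have h1 := Q.ker _ _ hy
  rw [← of_mul_of h, ← D.vel_spec] at h1
  exact Q.ker' b (hring_mem_Ih_of_mulAt D hp hMo _ h1)

section step

variable {C : T} {q : D.R ⟶ C}
  {δ : C ⟶ (D.R ⊗ (stdEven T).S ((p ^ j : ℤ) - 1))⟦(1 : ℤ)⟧}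
  (hC : Triangle.mk (D.R ◁ D.vel p j ≫ μ[D.R]) q δ ∈ distTriang T)

/-- `P ⟶ P ⊗ R` -/
noncomputable def io : Q.P ⟶ Q.P ⊗ D.R := (ρ_ Q.P).inv ≫ Q.P ◁ η[D.R]

@[reassoc]
theorem io_a : Q.io ≫ ract Q.M = 𝟙 _ := by
  unfold io
  rw [Category.assoc, whiskerLeft_one_ract, Iso.inv_hom_id]

theorem io_lin : Q.M.IsLinear (Q.M.tensorRight D.R) Q.io :=
  (rho_lin Q.M).comp (Q.M.isLinear_whiskerLeft _)

/-- `P ⊗ (R ⊗ Z) ⟶ P ⊗ Z` -/
noncomputable def a' (Z : T) : Q.P ⊗ (D.R ⊗ Z) ⟶ Q.P ⊗ Z := tm Q.M (𝟙 _)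

@[reassoc]
theorem io_a' (Z : T) : Q.P ◁ FM.unit D.R Z ≫ Q.a' Z = 𝟙 _ := by
  unfold a'
  rw [← tm_pre, Category.comp_id, tm_unit]

@[reassoc]
theorem m_a : Q.P ◁ (D.R ◁ D.vel p j ≫ μ[D.R]) ≫ ract Q.M =
    Q.a' _ ≫ Q.P ◁ D.vel p j ≫ ract Q.M := by
  unfold a' tm
  rw [MonoidalCategory.whiskerLeft_comp, Category.assoc, whiskerLeft_mul_ract,
    associator_inv_naturality_right_assoc, whisker_exchange_assoc,
    MonoidalCategory.whiskerLeft_id, Category.id_comp, Category.assoc]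

theorem sq : Q.P ◁ (D.R ◁ D.vel p j ≫ μ[D.R]) ≫ (ract Q.M ≫ Q.io) =
    (Q.a' _ ≫ Q.P ◁ FM.unit D.R _) ≫ Q.P ◁ (D.R ◁ D.vel p j ≫ μ[D.R]) := by
  have h1 : FM.unit D.R _ ≫ D.R ◁ D.vel p j ≫ μ[D.R] = D.vel p j := by
    rw [← FM.unit_naturality_assoc, ← inrM_eq_unit, inrM_mul, Category.comp_id]
  rw [Q.m_a_assoc, Category.assoc, ← MonoidalCategory.whiskerLeft_comp, h1]
  congr 1
  exact vel_both Q.M Q.low

include hC in
/-- the linear idempotent on `P ⊗ C` -/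
theorem exists_e : ∃ e : Q.P ⊗ C ⟶ Q.P ⊗ C,
    (Q.M.tensorRight C).IsLinear (Q.M.tensorRight C) e ∧ e ≫ e = e ∧
    Q.P ◁ q ≫ e = (ract Q.M ≫ Q.io) ≫ Q.P ◁ q ∧
    e ≫ tensδ Q.P δ = tensδ Q.P δ ≫ (Q.a' _ ≫ Q.P ◁ FM.unit D.R _)⟦(1 : ℤ)⟧' := by
  obtain ⟨z, hz1, hz2⟩ := tr3 (tens_dist Q.P hC) (tens_dist Q.P hC) _ _ Q.sq
  set e1 := Q.a' ((stdEven T).S ((p ^ j : ℤ) - 1)) ≫ Q.P ◁ FM.unit D.R _ with he1
  set z' := Q.ψX C ≫ D.R ◁ z ≫ (Q.M.tensorRight C).act with hz'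
  have l0 : (Q.M.tensorRight C).IsLinear (Q.M.tensorRight C) z' :=
    (Q.ψX_lin C).comp ((free_lin z).comp (act_lin _))
  have l1 : (Q.M.tensorRight D.R).IsLinear (Q.M.tensorRight C) ((ract Q.M ≫ Q.io) ≫ Q.P ◁ q) :=
    ((ract_lin Q.M).comp Q.io_lin).comp (Q.M.isLinear_whiskerLeft q)
  have h1 : Q.P ◁ q ≫ z' = (ract Q.M ≫ Q.io) ≫ Q.P ◁ q := by
    rw [hz', Q.ψX_nat_assoc, ← MonoidalCategory.whiskerLeft_comp_assoc, hz1, ← l1,
      Q.ψX_act_assoc]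
  set κ := Q.P ◁ (δ ≫ (TensorTriangulated.e _).inv) ≫ (α_ _ _ _).inv with hκ
  have hκ' : tensδ Q.P δ = κ ≫ (TensorTriangulated.e _).hom := by
    rw [hκ, tensδ, MonoidalCategory.whiskerLeft_comp, Category.assoc, Category.assoc]
  have lκ : (Q.M.tensorRight C).IsLinear ((Q.M.tensorRight _).tensorRight _) κ :=
    (Q.M.isLinear_whiskerLeft _).comp (ModStr.IsLinear.inv (e := α_ _ _ _)
      (Q.M.isLinear_assoc _ _))
  have le1 : (Q.M.tensorRight _).IsLinear (Q.M.tensorRight _) e1 :=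
    (tm_lin Q.M _).comp (Q.M.isLinear_whiskerLeft _)
  clear_value κ e1 z'
  have h3 : z ≫ κ = κ ≫ e1 ▷ (𝟙_ T)⟦(1 : ℤ)⟧ := by
    rw [← cancel_mono (TensorTriangulated.e _).hom, Category.assoc, Category.assoc,
      TensorTriangulated.e_naturality, ← Category.assoc κ, ← hκ', hz2]
  have h2 : z' ≫ tensδ Q.P δ = tensδ Q.P δ ≫ e1⟦(1 : ℤ)⟧' := by
    have h4 : z' ≫ κ = κ ≫ e1 ▷ (𝟙_ T)⟦(1 : ℤ)⟧ := by
      rw [hz', Category.assoc, Category.assoc, lκ, ← MonoidalCategory.whiskerLeft_comp_assoc, h3,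
        ← lκ.comp (le1.whiskerRight _), Q.ψX_act_assoc]
    rw [hκ', reassoc_of% h4, TensorTriangulated.e_naturality, Category.assoc]
  have ha : e1⟦(1 : ℤ)⟧' ≫ e1⟦(1 : ℤ)⟧' = e1⟦(1 : ℤ)⟧' := by
    rw [← Functor.map_comp, he1, Category.assoc, Q.io_a'_assoc]
  have hb : (ract Q.M ≫ Q.io) ≫ ract Q.M ≫ Q.io = ract Q.M ≫ Q.io := by
    rw [Category.assoc, Q.io_a_assoc]
  obtain ⟨k1, k2, k3⟩ := idm_spec (tens_dist Q.P hC) ha hb h1 h2
  have ln := lin_sub (l0.comp l0) l0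
  exact ⟨idm z', lin_sub (lin_add l0 ln) (lin_add (l0.comp ln) (l0.comp ln)), k1, k2, k3⟩

variable {F : SpaceFunctor T} {ee : F.S.obj CCF ≅ (stdEven T).L} (hU : MUUniv ee D)

include Q hp hMo hC hU in
/-- **The induction step.** -/
theorem exists_succ (hj : 1 ≤ j) : Nonempty (PM D p (j + 1)) := by
  obtain ⟨e, el, ee, eq, eδ⟩ := Q.exists_e hC
  obtain ⟨P', s, r, sr, rs⟩ := exists_split e ee
  have el' : (Q.M.tensorRight C).IsLinear (Q.M.tensorRight C) (r ≫ s) := by rwa [rs]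
  have er : e ≫ r = r := by rw [← rs, Category.assoc, sr, Category.comp_id]
  have se : s ≫ e = s := by rw [← rs, reassoc_of% sr]
  have hD := tens_dist Q.P hC
  have z31 : tensδ Q.P δ ≫ (Q.P ◁ (D.R ◁ D.vel p j ≫ μ[D.R]))⟦(1 : ℤ)⟧' = 0 :=
    comp_distTriang_mor_zero₃₁ _ hD
  have H1 : ∀ {X : T} (x : X ⟶ P'), x ≫ s ≫ tensδ Q.P δ ≫ (Q.a' _)⟦(1 : ℤ)⟧' = 0 →
      ∃ y : X ⟶ Q.P, x = y ≫ Q.io ≫ Q.P ◁ q ≫ r := by
    intro X x hx
    have h1 : (x ≫ s) ≫ tensδ Q.P δ = 0 := by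
      rw [← se, Category.assoc, Category.assoc, eδ, Functor.map_comp, reassoc_of% hx, zero_comp]
    obtain ⟨y, hy⟩ : ∃ y : X ⟶ Q.P ⊗ D.R, x ≫ s = y ≫ Q.P ◁ q :=
      Triangle.coyoneda_exact₃ _ hD _ h1
    refine ⟨y ≫ ract Q.M, ?_⟩
    rw [← Category.comp_id x, ← sr, reassoc_of% hy, ← er, reassoc_of% eq, Category.assoc,
      Q.io_a_assoc]
  have inj : InjE (Q.P ◁ D.vel p j ≫ ract Q.M) := by
    rw [ract_eq]
    exact (injE_of_reg _ _ (Q.reg hp hMo)).pre (β_ _ _)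
  refine ⟨{ P := P'
            M := retMod _ s r sr el'
            ψ := s ≫ Q.ψX C ≫ D.R ◁ r
            ψ_lin := (retMod_s _ s r sr el').comp ((Q.ψX_lin C).comp (free_lin r))
            ψ_act := ?_
            low := fun k hk => ?_
            u := Q.u ≫ Q.io ≫ Q.P ◁ q ≫ r
            u_lin := Q.u_lin.comp (Q.io_lin.comp
              ((Q.M.isLinear_whiskerLeft q).comp (retMod_r _ s r sr el')))
            odd := fun l x => ?_
            surj := fun w x => ?_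
            ker := fun w a ha => ?_ }⟩
  · rw [Category.assoc, Category.assoc, ← retMod_r _ s r sr el', Q.ψX_act_assoc, sr]
  · have h1 : D.vel p k ▷ (Q.P ⊗ C) ≫ (Q.M.tensorRight C).act = 0 := by
      rcases Nat.lt_succ_iff_lt_or_eq.1 hk with hk | rfl
      · change D.vel p k ▷ (Q.P ⊗ C) ≫ (α_ D.R Q.P C).inv ≫ Q.M.act ▷ C = 0
        rw [associator_inv_naturality_left_assoc, ← comp_whiskerRight, Q.low k hk,
          MonoidalPreadditive.zero_whiskerRight, comp_zero]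
      · exact vel_cof hp hMo hj hC hU Q.M Q.low
    change D.vel p k ▷ P' ≫ D.R ◁ s ≫ (Q.M.tensorRight C).act ≫ r = 0
    rw [← whisker_exchange_assoc, reassoc_of% h1, zero_comp, comp_zero]
  · obtain ⟨y, hy⟩ := H1 x (inj.shift l _ (by
      rw [Category.assoc, Category.assoc, Category.assoc, ← Functor.map_comp, ← Q.m_a,
        Functor.map_comp, reassoc_of% z31, zero_comp, comp_zero, comp_zero]))
    rw [hy, Q.odd l y, zero_comp]
  · obtain ⟨y, hy⟩ := H1 x (eq_zero_of_even (odd0_tensor_sphere Q.odd _) w _)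
    obtain ⟨a, rfl⟩ := Q.surj w y
    exact ⟨a, by rw [hy, Category.assoc]⟩
  · have h1 : (a ≫ Q.u ≫ Q.io) ≫ Q.P ◁ q = 0 := by
      have h2 : Q.io ≫ Q.P ◁ q ≫ r ≫ s = Q.io ≫ Q.P ◁ q := by
        rw [rs, eq, Category.assoc, Q.io_a_assoc]
      have h3 := congrArg (· ≫ s) ha
      simp only [Category.assoc, zero_comp] at h3
      rw [h2] at h3
      simpa only [Category.assoc] using h3
    obtain ⟨z, hz⟩ : ∃ z : (stdEven T).S w ⟶ Q.P ⊗ (D.R ⊗ (stdEven T).S ((p ^ j : ℤ) - 1)),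
        a ≫ Q.u ≫ Q.io = z ≫ Q.P ◁ (D.R ◁ D.vel p j ≫ μ[D.R]) :=
      Triangle.coyoneda_exact₂ _ hD _ h1
    have h4 : a ≫ Q.u = ((z ≫ Q.a' _) ≫ (β_ _ _).hom) ≫ D.vel p j ▷ Q.P ≫ Q.M.act := by
      rw [Category.assoc, ← ract_eq, Category.assoc, ← Q.m_a, ← reassoc_of% hz, Q.io_a,
        Category.comp_id]
    obtain ⟨y, hy⟩ := exists_ext_left (add_sub_cancel _ w) ((z ≫ Q.a' _) ≫ (β_ _ _).hom)
    obtain ⟨b, rfl⟩ := Q.surj _ y
    rw [hy, ext_act, Q.gsmul_u, ← sub_eq_zero, ← Preadditive.sub_comp] at h4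
    have h5 := Q.ker _ _ h4
    have h6 : HRing.of (stdEven T) D.R w a =
        HRing.of (stdEven T) D.R w (a - gmul (add_sub_cancel _ w) (D.vel p j) b) +
          vv p j D.law * HRing.of (stdEven T) D.R _ b := by
      rw [D.vel_spec, of_mul_of (add_sub_cancel _ w)]
      change DirectSum.of ((stdEven T).Gr D.R) w _ = DirectSum.of ((stdEven T).Gr D.R) w _ +
        DirectSum.of ((stdEven T).Gr D.R) w _
      rw [← map_add, sub_add_cancel]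
    rw [h6]
    refine add_mem ?_ (Ideal.mul_mem_right _ _ (vv_mem_Ih (Nat.lt_succ_self j) _))
    refine Ideal.span_mono ?_ h5
    rintro _ ⟨k, hk, rfl⟩
    exact ⟨k, Nat.lt_succ_of_lt hk, rfl⟩

end step

end PM

/-- **`MU / I_n` as a module, for every prime and every `n ≥ 1`.** -/
theorem exists_PM {F : SpaceFunctor T} {e : F.S.obj CCF ≅ (stdEven T).L} (hU : MUUniv e D)
    (hp : MUAt D p) {n : ℕ} (hn : 1 ≤ n) : Nonempty (PM D p n) := by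
  obtain ⟨Mo, i, δM, hMo⟩ := distinguished_cocone_triangle ((p : ℤ) • 𝟙 (𝟙_ T))
  induction n, hn using Nat.le_induction with
  | base => exact ⟨pmOne hp hMo⟩
  | succ j hj ih =>
    obtain ⟨Q⟩ := ih
    obtain ⟨C, q, δ, hC⟩ := distinguished_cocone_triangle (D.R ◁ D.vel p j ≫ μ[D.R])
    exact Q.exists_succ hp hMo hC hU hj

end Vale.Agent.P261Z.T3
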