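import Vale.Agent.P261Z.T3.MuQ
import Vale.Agent.P261Z.T3.At
import Vale.Agent.P257.H702.LawS

/-!
# P261, block T3: the homotopy of `MU` modulo every prime

`exists_mu` : `MU` with `MUUniv`, its family of Thom classes, and `MUAt D p` for all primes `p`.
-/

open CategoryTheory MonoidalCategory MonObj Limits Pretriangulated

universe v u

set_option linter.unusedSectionVars false

noncomputable section

namespace Vale.Agent.P261Z.T3

open Vale.Agent.P251 Vale.Agent.P251.M Vale.Agent.P251.S Vale.Agent.P251.T Vale.Agent.P251.F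
  Vale.Agent.P251.Q Vale.Agent.P251.M.EvenSpheres Vale.Agent.P251.G Vale.Agent.P251.G.LC
  Vale.Agent.P251.I

variable {T : Type u} [Category.{v} T] [Preadditive T] [HasZeroObject T]
    [HasShift T ℤ] [∀ n : ℤ, (shiftFunctor T n).Additive] [Pretriangulated T] [IsTriangulated T]
    [MonoidalCategory T] [SymmetricCategory T] [TensorTriangulated T] [MonoidalClosed T]
    [HasCoproducts.{0} T] [HasProducts.{0} T] [StableCat T]

/-- The output of part Q in the homotopy ring, for every prime. -/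
theorem qIn_of {F : SpaceFunctor T} {A : SeqMonoid T} {R : T}
    {q : ∀ n, A.E.obj n ⟶ R} (tel : IsTel A.E R q) [MonObj R] [IsCommMonObj R] (h : TelMon tel)
    {s : F.S.obj CCF ⟶ (MSys.ofSeq A (stdEven T)).obj 0 1}
    {hs : (MSys.ofSeq A (stdEven T)).IsSusp s} (W : ThomFam (MSys.ofSeq A (stdEven T)) F s)
    (hW : W.IsoClasses) (hA : EvenSeq A (stdEven T)) {V : MUEv R} (b : MUBasis V)
    (hlaw : b.cobEv.law.map (HRing.map (E := stdEven T) (amOne R)) =
      (thomTheory W (cofTriangles F) hs hW hA).o.law.map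
        (coefRing tel F h (cofTriangles F) s hs).toRingHom) {p : ℕ} (hp : p.Prime) :
    PiConn (Am R 1) ∧ QIn (Am R 1) b.cobEv.law p := by
  have hπ : PiConn R := PiConn.of_cofIn F A tel h.one hA.cof
  have h1 : amOne R ≫ Am.v R (0 : Fin 1) = 𝟙 (Am R 1) := amOne_v_zero R
  refine ⟨PiConn.of_iso (amOne R) (Am.v R (0 : Fin 1)) h1 hπ, ?_⟩
  have hQ := qData_all (thomTheory W (cofTriangles F) hs hW hA) hp
    (fun r _ k => lensEuler _ r k) (fun a ha => by
      have h2 : ((p : ℤ) * a) • (theory (MSys.ofSeq A (stdEven T)) F (cofTriangles F) s hs).one =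
          0 := by
        rw [mul_smul, natCast_zsmul]
        exact ha
      have h3 := zsmul_one_eq_zero tel h (cofTriangles F) s hs hπ _ h2
      have h4 : a = 0 := (mul_eq_zero.mp h3).resolve_left (by exact_mod_cast hp.ne_zero)
      rw [h4, zero_smul])
  exact (QIn.of_qData tel h (cofTriangles F) s hs hQ).of_iso (amOne R) (Am.v R (0 : Fin 1)) h1
    hlaw

variable {F : SpaceFunctor T} {e : F.S.obj CCF ≅ (stdEven T).L}

theorem muAt_data (M : MUMon F (stdEven T) e) (b : MUBasis M.V) {p : ℕ} (hp : p.Prime) :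
    MUAt (M.data b) p := by
  obtain ⟨hπ, hQ⟩ := qIn_of M.tel M.telMon (hs := isSusp_lineCls e (seqMU F (stdEven T) e))
    (famMU F (stdEven T) e) (famMU_isoClasses F (stdEven T) e)
    (evenSeq_MU F (stdEven T) e stdEven_sph) b
    ((law_muEv e _ b).trans (law_push_eq e M.tel M.telMon
      (isSusp_lineCls e (seqMU F (stdEven T) e)) (line_telHom M.tel e M.telMon rfl) _)) hp
  refine ⟨fun s C i δ hC k f => ?_, fun s C i δ hC w f => ?_,
    fun s C i δ hC w z hz a ha h' => ?_⟩
  · exact b.cobEv.odd (Iso.refl _) C (fun k f => hQ.odd hC k f) s k f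
  · exact b.cobEv.surj (fun n => ⟨2 * n, ⟨(stdEven T).sphIso (Iso.refl _) n⟩⟩) i
      (fun w f => b.cobEv.surj₀ hQ hC w f) s w f
  · exact b.cobEv.ker i (p : ℤ)
      (fun w z hz a ha h0 => b.cobEv.ker₀ hQ hπ hC w z hz a ha h0) s w z hz a ha h'

/-- **`MU` at every prime**, with its orientation and its family of Thom classes. -/
theorem exists_mu_full (F : SpaceFunctor T) (e : F.S.obj CCF ≅ (stdEven T).L) :
    ∃ D : MUData T, MUUniv e D ∧ (∀ p : ℕ, p.Prime → MUAt D p) ∧
      (∃ W : ThomFam (RSys D.R (stdEven T)) F (lineCls e (SeqMonoid.const D.R)),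
        P257.H702.lawW W = D.law) ∧
      ∃ o : Q.Orientation (thK e D.R), ∀ s, D.ev s = amEv e D.R o s := by
  obtain ⟨M⟩ := nonempty_MUMon F (stdEven T) e
  obtain ⟨b⟩ := M.nonempty_muBasis
  refine ⟨M.data b, M.muUniv b, fun p hp => muAt_data M b hp, ⟨M.fam, ?_⟩, M.ori, fun s => rfl⟩
  rw [M.data_law b, M.ori_eq, M.orient_eq]
  rfl

/-- **`MU` at every prime**, with its family of Thom classes. -/
theorem exists_mu_fam (F : SpaceFunctor T) (e : F.S.obj CCF ≅ (stdEven T).L) :
    ∃ D : MUData T, MUUniv e D ∧ (∀ p : ℕ, p.Prime → MUAt D p) ∧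
      ∃ W : ThomFam (RSys D.R (stdEven T)) F (lineCls e (SeqMonoid.const D.R)),
        P257.H702.lawW W = D.law := by
  obtain ⟨D, h1, h2, h3, -⟩ := exists_mu_full F e
  exact ⟨D, h1, h2, h3⟩

/-- **`MU` at every prime.** -/
theorem exists_mu (F : SpaceFunctor T) (e : F.S.obj CCF ≅ (stdEven T).L) :
    ∃ D : MUData T, MUUniv e D ∧ ∀ p : ℕ, p.Prime → MUAt D p := by
  obtain ⟨D, h1, h2, -⟩ := exists_mu_fam F e
  exact ⟨D, h1, h2⟩

end Vale.Agent.P261Z.T3
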