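import Vale.Agent.P261Z.T3.ExIsK
import Vale.Agent.P261Z.T3.ExStep
import Vale.Agent.P261Z.T3.Mu

/-!
# P261, T3: Morava `K`-theories exist at every prime
-/

open CategoryTheory

namespace Vale.Agent.P261Z.T3

open Vale.Agent.P251 Vale.Agent.P251.St Vale.Agent.P261Z.St

/-- **Existence of the Morava `K`-theory `K(n)`, `n ≥ 1`, at every prime.** -/
theorem exists_isK {T : SHCat} (S : Susp T) {p n : ℕ} (hp : p.Prime) (hn : 1 ≤ n) :
    ∃ K : T.C, IsK S p n K := by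
  have : Fact p.Prime := ⟨hp⟩
  obtain ⟨D, hD, hAt, ⟨W, hW⟩, -⟩ := exists_mu_full _ (M.lineIso S.toSpaceFunctor)
  obtain ⟨Q⟩ := exists_PM hD (hAt p hp) hn
  exact Q.exists_isK' hD W hW (hAt p hp) hn

end Vale.Agent.P261Z.T3
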