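import Vale.Agent.P251.M.Kleisli
import Vale.Agent.P251.M.BaseCh
import Vale.Agent.P251.S.ModTens
import Vale.Agent.P251.S.Tens
import Vale.Agent.P251.X.Split

/-!
# P261, block T3: tools for modules

* `tm M g : N ⊗ X ⟶ N ⊗ Y` for `g : X ⟶ R ⊗ Y` and a module `N`;
* `retMod` : the image of a linear idempotent;
* `exists_idem` : idempotent endomorphisms of triangles.
-/

open CategoryTheory MonoidalCategory MonObj Limits Pretriangulated

set_option linter.unusedSectionVars false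

universe v u

namespace Vale.Agent.P261Z.T3

open Vale.Agent.P251 Vale.Agent.P251.M Vale.Agent.P251.T Vale.Agent.P251.S

section tm

variable {T : Type u} [Category.{v} T] [MonoidalCategory T] [SymmetricCategory T]
  {R : T} [MonObj R] {N : T} (M : ModStr R N)

/-- The map `N ⊗ X ⟶ N ⊗ Y` defined by `g : X ⟶ R ⊗ Y`. -/
def tm {X Y : T} (g : X ⟶ R ⊗ Y) : N ⊗ X ⟶ N ⊗ Y := N ◁ g ≫ (α_ N R Y).inv ≫ ract M ▷ Y

theorem tm_pre {X' X Y : T} (f : X' ⟶ X) (g : X ⟶ R ⊗ Y) : tm M (f ≫ g) = N ◁ f ≫ tm M g := by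
  unfold tm
  rw [MonoidalCategory.whiskerLeft_comp, Category.assoc]

theorem tm_post {X Y Y' : T} (g : X ⟶ R ⊗ Y) (f : Y ⟶ Y') :
    tm M (g ≫ R ◁ f) = tm M g ≫ N ◁ f := by
  unfold tm
  rw [MonoidalCategory.whiskerLeft_comp, Category.assoc, Category.assoc, Category.assoc,
    associator_inv_naturality_right_assoc, whisker_exchange]

theorem tm_whisker {A : T} (a : A ⟶ R) (Y : T) :
    tm M (a ▷ Y) = (α_ N A Y).inv ≫ (N ◁ a ≫ ract M) ▷ Y := by
  unfold tm
  rw [associator_inv_naturality_middle_assoc, comp_whiskerRight]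

theorem tm_tens {X Y : T} (g : X ⟶ R ⊗ Y) (W : T) :
    tm M (g ▷ W ≫ (α_ R Y W).hom) = (α_ N X W).inv ≫ tm M g ▷ W ≫ (α_ N Y W).hom := by
  unfold tm
  monoidal

theorem tm_inl {A : T} (a : A ⟶ R) (Y : T) [MonObj Y] :
    tm M (a ≫ inlM R Y) = N ◁ a ≫ ract M ≫ (ρ_ N).inv ≫ N ◁ η[Y] := by
  have h : tm M (a ≫ (ρ_ R).inv) = N ◁ a ≫ ract M ≫ (ρ_ N).inv := by
    unfold tm
    monoidal
  unfold inlM
  rw [← Category.assoc a, tm_post, h, Category.assoc, Category.assoc]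

theorem ract_eq {A : T} (a : A ⟶ R) : N ◁ a ≫ ract M = (β_ N A).hom ≫ a ▷ N ≫ M.act := by
  rw [ract, BraidedCategory.braiding_naturality_right_assoc]

theorem act_eq {A : T} (a : A ⟶ R) : a ▷ N ≫ M.act = (β_ A N).hom ≫ N ◁ a ≫ ract M := by
  rw [ract_eq, SymmetricCategory.symmetry_assoc]

variable [IsCommMonObj R]

theorem tm_unit (Y : T) : tm M (FM.unit R Y) = 𝟙 _ := unit_ract M Y

theorem tm_bind {X Y Z : T} (f : X ⟶ R ⊗ Y) (g : Y ⟶ R ⊗ Z) :
    tm M (f ≫ FM.bind g) = tm M f ≫ tm M g :=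
  (tenFunctor M).map_comp (FM.lin f) (FM.lin g)

theorem tm_inr {A Y : T} [MonObj Y] (a : A ⟶ Y) : tm M (a ≫ inrM R Y) = N ◁ a := by
  have h : inrM R Y = FM.unit R Y := rfl
  rw [tm_pre, h, tm_unit, Category.comp_id]

theorem ract_lin : (M.tensorRight R).IsLinear M (ract M) := by
  change ((α_ R N R).inv ≫ M.act ▷ R) ≫ ract M = R ◁ ract M ≫ M.act
  have h1 : R ◁ M.act ≫ M.act = (α_ R R N).inv ≫ μ[R] ▷ N ≫ M.act := by
    rw [M.mul_act, Iso.inv_hom_id_assoc]
  rw [ract, Category.assoc, BraidedCategory.braiding_naturality_left_assoc, h1,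
    MonoidalCategory.whiskerLeft_comp, Category.assoc, h1,
    BraidedCategory.braiding_tensor_left_hom]
  simp only [Category.assoc, Iso.inv_hom_id_assoc, Iso.hom_inv_id_assoc]
  rw [← comp_whiskerRight_assoc, IsCommMonObj.mul_comm]

theorem tm_lin {X Y : T} (g : X ⟶ R ⊗ Y) :
    (M.tensorRight X).IsLinear (M.tensorRight Y) (tm M g) :=
  (M.isLinear_whiskerLeft g).comp ((ModStr.IsLinear.inv (e := α_ N R Y)
    (M.isLinear_assoc R Y)).comp ((ract_lin M).whiskerRight Y))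

omit [SymmetricCategory T] [IsCommMonObj R] in
theorem rho_lin : M.IsLinear (M.tensorRight (𝟙_ T)) (ρ_ N).inv := by
  change M.act ≫ (ρ_ N).inv = R ◁ (ρ_ N).inv ≫ (α_ R N (𝟙_ T)).inv ≫ M.act ▷ 𝟙_ T
  monoidal

omit [SymmetricCategory T] [IsCommMonObj R] in
theorem assoc_lin (X Y : T) :
    ((ModStr.free R X).tensorRight Y).IsLinear (ModStr.free R (X ⊗ Y)) (α_ R X Y).hom := by
  change ((α_ R (R ⊗ X) Y).inv ≫ ((α_ R R X).inv ≫ μ[R] ▷ X) ▷ Y) ≫ (α_ R X Y).hom =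
    R ◁ (α_ R X Y).hom ≫ (α_ R R (X ⊗ Y)).inv ≫ μ[R] ▷ (X ⊗ Y)
  monoidal

omit [SymmetricCategory T] [IsCommMonObj R] in
theorem act_lin : (ModStr.free R N).IsLinear M M.act := by
  change ((α_ R R N).inv ≫ μ[R] ▷ N) ≫ M.act = R ◁ M.act ≫ M.act
  rw [Category.assoc, M.mul_act, Iso.inv_hom_id_assoc]

omit [SymmetricCategory T] [IsCommMonObj R] in
theorem free_lin {X Y : T} (f : X ⟶ Y) :
    (ModStr.free R X).IsLinear (ModStr.free R Y) (R ◁ f) := by
  change ((α_ R R X).inv ≫ μ[R] ▷ X) ≫ R ◁ f = R ◁ R ◁ f ≫ (α_ R R Y).inv ≫ μ[R] ▷ Y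
  rw [associator_inv_naturality_right_assoc, whisker_exchange, Category.assoc]

end tm

section ret

variable {T : Type u} [Category.{v} T] [MonoidalCategory T]
  {R : T} [MonObj R] {N N' : T} (M : ModStr R N) (s : N' ⟶ N) (r : N ⟶ N')
  (sr : s ≫ r = 𝟙 N') (he : M.IsLinear M (r ≫ s))

/-- The image of a linear idempotent. -/
def retMod : ModStr R N' where
  act := R ◁ s ≫ M.act ≫ r
  one_act := by
    rw [← whisker_exchange_assoc, reassoc_of% M.one_act, leftUnitor_naturality_assoc, sr,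
      Category.comp_id]
  mul_act := by
    have h1 : M.act ≫ r ≫ s = R ◁ r ≫ R ◁ s ≫ M.act := by
      have h := he
      unfold ModStr.IsLinear at h
      rw [h, MonoidalCategory.whiskerLeft_comp, Category.assoc]
    have h2 : (R ◁ s ≫ M.act ≫ r) ≫ s = R ◁ s ≫ M.act := by
      rw [Category.assoc, Category.assoc, h1, ← MonoidalCategory.whiskerLeft_comp_assoc, sr,
        MonoidalCategory.whiskerLeft_id, Category.id_comp]
    rw [← whisker_exchange_assoc, reassoc_of% M.mul_act,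
      ← MonoidalCategory.whiskerLeft_comp_assoc _ _ s, h2, MonoidalCategory.whiskerLeft_comp,
      Category.assoc, associator_naturality_right_assoc]

theorem retMod_s : (retMod M s r sr he).IsLinear M s := by
  change (R ◁ s ≫ M.act ≫ r) ≫ s = R ◁ s ≫ M.act
  have h := he
  unfold ModStr.IsLinear at h
  rw [Category.assoc, Category.assoc, h, MonoidalCategory.whiskerLeft_comp, Category.assoc,
    ← MonoidalCategory.whiskerLeft_comp_assoc, sr, MonoidalCategory.whiskerLeft_id,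
    Category.id_comp]

theorem retMod_r : M.IsLinear (retMod M s r sr he) r := by
  change M.act ≫ r = R ◁ r ≫ R ◁ s ≫ M.act ≫ r
  have h := he
  unfold ModStr.IsLinear at h
  rw [← MonoidalCategory.whiskerLeft_comp_assoc, ← reassoc_of% h, sr, Category.comp_id]

end ret

section add

variable {T : Type u} [Category.{v} T] [Preadditive T] [MonoidalCategory T]
  [MonoidalPreadditive T] [SymmetricCategory T] {R : T} [MonObj R] {N : T} (M : ModStr R N)

/-- `tm` is additive -/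
def tmHom (X Y : T) : (X ⟶ R ⊗ Y) →+ (N ⊗ X ⟶ N ⊗ Y) :=
  AddMonoidHom.mk' (tm M) fun f g => by
    unfold tm
    rw [MonoidalPreadditive.whiskerLeft_add, Preadditive.add_comp]

theorem tmHom_apply {X Y : T} (g : X ⟶ R ⊗ Y) : tmHom M X Y g = tm M g := rfl

theorem lin_sub {N' : T} {M : ModStr R N} {M' : ModStr R N'} {f g : N ⟶ N'}
    (hf : M.IsLinear M' f) (hg : M.IsLinear M' g) : M.IsLinear M' (f - g) := by
  unfold ModStr.IsLinear at *
  have h : R ◁ (f - g) = R ◁ f - R ◁ g := (tensorLeft R).map_sub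
  rw [Preadditive.comp_sub, hf, hg, h, Preadditive.sub_comp]

theorem lin_add {N' : T} {M : ModStr R N} {M' : ModStr R N'} {f g : N ⟶ N'}
    (hf : M.IsLinear M' f) (hg : M.IsLinear M' g) : M.IsLinear M' (f + g) := by
  unfold ModStr.IsLinear at *
  rw [Preadditive.comp_add, hf, hg, MonoidalPreadditive.whiskerLeft_add, Preadditive.add_comp]

end add

section idem

variable {T : Type u} [Category.{v} T] [Preadditive T] [HasZeroObject T] [HasShift T ℤ]
  [∀ n : ℤ, (shiftFunctor T n).Additive] [Pretriangulated T]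

/-- the idempotent defined by `z` -/
def idm {E : T} (z : E ⟶ E) : E ⟶ E :=
  z + (z ≫ z - z) - (z ≫ (z ≫ z - z) + z ≫ (z ≫ z - z))

theorem idm_idem {E : T} (z : E ⟶ E) (h : (z ≫ z - z) ≫ (z ≫ z - z) = 0) :
    idm z ≫ idm z = idm z := by
  have h4 : z ≫ z ≫ z ≫ z = z ≫ z ≫ z + z ≫ z ≫ z - z ≫ z := by
    simp only [Preadditive.comp_sub, Preadditive.sub_comp, Category.assoc] at h
    rw [← sub_eq_zero, ← h]
    abel
  have h5 : z ≫ z ≫ z ≫ z ≫ z = z ≫ z ≫ z + z ≫ z ≫ z + z ≫ z ≫ z - z ≫ z - z ≫ z := by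
    rw [h4, Preadditive.comp_sub, Preadditive.comp_add, h4]
    abel
  have h6 : z ≫ z ≫ z ≫ z ≫ z ≫ z =
      z ≫ z ≫ z + z ≫ z ≫ z + z ≫ z ≫ z + z ≫ z ≫ z - z ≫ z - z ≫ z - z ≫ z := by
    rw [h5]
    simp only [Preadditive.comp_sub, Preadditive.comp_add]
    rw [h4]
    abel
  unfold idm
  simp only [Preadditive.comp_sub, Preadditive.sub_comp, Preadditive.comp_add,
    Preadditive.add_comp, Category.assoc]
  rw [h6, h5, h4]
  abel

variable {A B E : T} {f : A ⟶ B} {g : B ⟶ E} {h : E ⟶ A⟦(1 : ℤ)⟧}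
  (hT : Triangle.mk f g h ∈ distTriang T) {a : A⟦(1 : ℤ)⟧ ⟶ A⟦(1 : ℤ)⟧} {b : B ⟶ B}
  (ha : a ≫ a = a) (hb : b ≫ b = b) {z : E ⟶ E} (h1 : g ≫ z = b ≫ g) (h2 : z ≫ h = h ≫ a)

include hT ha hb h1 h2 in
theorem idm_spec : idm z ≫ idm z = idm z ∧ g ≫ idm z = b ≫ g ∧ idm z ≫ h = h ≫ a := by
  have e1 : g ≫ (z ≫ z - z) = 0 := by
    rw [Preadditive.comp_sub, reassoc_of% h1, h1, reassoc_of% hb, sub_self]
  have e2 : (z ≫ z - z) ≫ h = 0 := by
    rw [Preadditive.sub_comp, Category.assoc, h2, reassoc_of% h2, ha, sub_self]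
  obtain ⟨c, hc⟩ : ∃ c : A⟦(1 : ℤ)⟧ ⟶ E, z ≫ z - z = h ≫ c :=
    Triangle.yoneda_exact₃ _ hT (z ≫ z - z) e1
  have e3 : (z ≫ z - z) ≫ (z ≫ z - z) = 0 := by
    conv_lhs => enter [2]; rw [hc]
    rw [← Category.assoc, e2, zero_comp]
  refine ⟨idm_idem z e3, ?_, ?_⟩
  · unfold idm
    rw [Preadditive.comp_sub, Preadditive.comp_add, Preadditive.comp_add, e1, reassoc_of% h1, e1,
      h1, comp_zero, add_zero, add_zero, sub_zero]
  · unfold idm
    rw [Preadditive.sub_comp, Preadditive.add_comp, Preadditive.add_comp, e2, Category.assoc, e2,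
      h2, comp_zero, add_zero, add_zero, sub_zero]

end idem

end Vale.Agent.P261Z.T3
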