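import Vale.Agent.P261Z.T3.ExDefs
import Vale.Agent.P261Z.T3.ExTm

/-!
# P261, block T3: the ideals `I_j` act by zero
-/

open CategoryTheory MonoidalCategory MonObj Limits Pretriangulated

set_option linter.unusedSectionVars false

universe v u

namespace Vale.Agent.P261Z.T3

open Vale.Agent.P251 Vale.Agent.P251.M Vale.Agent.P251.M.EvenSpheres Vale.Agent.P251.F
  Vale.Agent.P251.T Vale.Agent.P251.S Vale.Agent.P251.I Vale.Agent.P251.X

section comp

variable {T : Type u} [Category.{v} T] [Preadditive T] [MonoidalCategory T]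
  [MonoidalPreadditive T] [SymmetricCategory T] {E : EvenSpheres T} {A : T} [MonObj A]

theorem of_mul_apply {d m q : ℤ} (h : d + m = q) (b : E.S d ⟶ A) (y : HRing E A) :
    (HRing.of E A d b * y) q = gmul h b (y m) := by
  induction y using DirectSum.induction_on with
  | zero =>
    rw [mul_zero, DirectSum.zero_apply, DirectSum.zero_apply]
    unfold gmul
    rw [ext_zero_right, zero_comp]
  | add x y hx hy =>
    rw [mul_add, DirectSum.add_apply, DirectSum.add_apply, hx, hy]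
    unfold gmul
    rw [ext_add_right, Preadditive.add_comp]
  | of l x =>
    by_cases hl : l = m
    · subst hl
      rw [of_mul_of h, DirectSum.of_eq_same, DirectSum.of_eq_same]
    · rw [of_mul_of (p := d + l) rfl, DirectSum.of_eq_of_ne _ _ _ (by omega),
        DirectSum.of_eq_of_ne _ _ _ (Ne.symm hl)]
      unfold gmul
      rw [ext_zero_right, zero_comp]

theorem of_eq_zero {w : ℤ} {a : E.S w ⟶ A} (h : HRing.of E A w a = 0) : a = 0 :=
  DirectSum.of_injective (β := E.Gr A) w (h.trans (map_zero _).symm)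

theorem exists_of_mem_p {p : ℕ} {w : ℤ} {a : E.S w ⟶ A} {y : HRing E A}
    (h : HRing.of E A w a = (p : HRing E A) * y) : ∃ b : E.S w ⟶ A, a = (p : ℤ) • b := by
  refine ⟨y w, ?_⟩
  have h1 := congrArg (fun z : HRing E A => z w) h
  simp only [DirectSum.of_eq_same] at h1
  rw [h1, ← nsmul_eq_mul, natCast_zsmul]
  rfl

end comp

variable {T : Type u} [Category.{v} T] [Preadditive T] [HasZeroObject T]
    [HasShift T ℤ] [∀ n : ℤ, (shiftFunctor T n).Additive] [Pretriangulated T] [IsTriangulated T]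
    [MonoidalCategory T] [SymmetricCategory T] [TensorTriangulated T] [MonoidalClosed T]
    [HasCoproducts.{0} T] [HasProducts.{0} T] [StableCat T] {D : MUData T} {p : ℕ}

theorem lawOf_id : lawOf (𝟙 D.R) = D.law := by
  unfold lawOf
  rw [HRing.map_id, Law.map_id]

/-- homogeneous elements of `I_j` -/
theorem exists_homog {A : T} [MonObj A] [IsCommMonObj A] (g : D.R ⟶ A) [IsMonHom g] {j : ℕ}
    {w : ℤ} (a : (stdEven T).S w ⟶ A) (h : HRing.of (stdEven T) A w a ∈ Ih p j (lawOf g)) :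
    ∃ c : ∀ k : ℕ, (stdEven T).S (w - ((p ^ k : ℤ) - 1)) ⟶ A,
      a = ∑ k ∈ Finset.range j, gmul (add_sub_cancel _ w) (D.vel p k ≫ g) (c k) := by
  obtain ⟨c, hc⟩ := exists_sum_of_mem_Ih p j _ h
  refine ⟨fun k => c k _, ?_⟩
  have h1 := congrArg (fun z : HRing (stdEven T) A => z w) hc
  simp only [DirectSum.of_eq_same] at h1
  rw [h1, DFinsupp.finsetSum_apply]
  refine Finset.sum_congr rfl fun k _ => ?_
  rw [vv_lawOf, of_mul_apply (add_sub_cancel _ w)]

section mod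

variable {N : T} (M : ModStr D.R N) {j : ℕ} (hM : ∀ i < j, D.vel p i ▷ N ≫ M.act = 0)

include hM

theorem tm_of_mem {Y : T} [MonObj Y] [IsCommMonObj Y] {w : ℤ} (x : (stdEven T).S w ⟶ D.R ⊗ Y)
    (h : HRing.of (stdEven T) (D.R ⊗ Y) w x ∈ Ih p j (lawOf (inlM D.R Y))) : tm M x = 0 := by
  obtain ⟨c, rfl⟩ := exists_homog _ x h
  rw [← tmHom_apply, map_sum]
  refine Finset.sum_eq_zero fun k hk => ?_
  have h1 : (D.vel p k ≫ inlM D.R Y ⊗ₘ c k) ≫ μ[D.R ⊗ Y] = D.vel p k ▷ _ ≫ FM.bind (c k) := by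
    rw [← inlM_tensor_mul, ← tensorHom_id, tensorHom_comp_tensorHom_assoc, Category.id_comp]
  rw [tmHom_apply]
  unfold gmul EvenSpheres.ext
  rw [Category.assoc, h1, tm_pre, tm_bind, tm_whisker, ract_eq, hM k (Finset.mem_range.1 hk),
    comp_zero, MonoidalPreadditive.zero_whiskerRight, comp_zero, zero_comp, comp_zero]

/-- the elements of `I_j` act by zero -/
theorem gsmul_of_mem {w m q : ℤ} (h : w + m = q) (a : (stdEven T).S w ⟶ D.R)
    (ha : HRing.of (stdEven T) D.R w a ∈ Ih p j D.law) (x : (stdEven T).S m ⟶ N) :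
    gsmul M h a x = 0 := by
  rw [← lawOf_id] at ha
  obtain ⟨c, rfl⟩ := exists_homog _ a ha
  have key : ∀ s : Finset ℕ, (∀ k ∈ s, k < j) →
      gsmul M h (∑ k ∈ s, gmul (add_sub_cancel _ w) (D.vel p k ≫ 𝟙 D.R) (c k)) x = 0 := by
    intro s
    induction s using Finset.induction_on with
    | empty =>
      intro _
      unfold gsmul
      rw [Finset.sum_empty, ext_zero_left, zero_comp]
    | insert k s hk ih =>
      intro hs
      have h1 := ih fun k' hk' => hs k' (Finset.mem_insert_of_mem hk')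
      have h2 : gsmul M h (gmul (add_sub_cancel _ w) (D.vel p k ≫ 𝟙 D.R) (c k)) x = 0 := by
        rw [gsmul_assoc M (add_sub_cancel _ w) h rfl (by omega), Category.comp_id]
        unfold gsmul EvenSpheres.ext
        rw [tensorHom_def', Category.assoc, Category.assoc, hM k (hs k (Finset.mem_insert_self _ _)),
          comp_zero, comp_zero]
      unfold gsmul at h1 h2 ⊢
      rw [Finset.sum_insert hk, ext_add_left, Preadditive.add_comp, h1, h2, add_zero]
  exact key _ fun k hk => Finset.mem_range.1 hk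

end mod

/-- the two laws over `π_*(R ⊗ R)` -/
theorem exists_strict (D : MUData T) : ∃ f : InvSeries (HRing (stdEven T) (D.R ⊗ D.R)),
    f.c 0 = 1 ∧ f • lawOf (inlM D.R D.R) = lawOf (inrM D.R D.R) := by
  refine ⟨InvSeries.map (HRing.map (E := stdEven T) (amPair D.R)) D.strictIso, ?_, ?_⟩
  · rw [InvSeries.c_map, D.strictIso_c, map_one]
  · have h1 := congrArg (Law.map (HRing.map (E := stdEven T) (amPair D.R))) D.strictIso_smul
    rw [InvSeries.map_smul, Law.map_map, Law.map_map, ← HRing.map_comp, ← HRing.map_comp,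
      HRing_map_congr (v_zero_amPair D.R), HRing_map_congr (v_one_amPair D.R)] at h1
    exact h1

section inv

variable [Fact p.Prime] {N : T} (M : ModStr D.R N) {j : ℕ}
  (hM : ∀ i < j, D.vel p i ▷ N ≫ M.act = 0)

include hM

theorem whisker_vel {i : ℕ} (hi : i < j) : N ◁ D.vel p i = 0 := by
  obtain ⟨f, -, hf⟩ := exists_strict D
  rw [← tm_inr M]
  refine tm_of_mem M hM _ ?_
  rw [← vv_lawOf, ← Ih_smul p j _ f, hf]
  exact vv_mem_Ih hi _

theorem tm_vel_sub : tm M (D.vel p j ≫ inlM D.R D.R - D.vel p j ≫ inrM D.R D.R) = 0 := by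
  obtain ⟨f, hf0, hf⟩ := exists_strict D
  refine tm_of_mem M hM _ ?_
  have h1 := vv_smul_sub_mem p j (lawOf (inlM D.R D.R)) f
  rw [hf0, one_pow, _root_.mul_one, _root_.one_mul, hf, vv_lawOf, vv_lawOf] at h1
  have h2 := neg_mem h1
  rw [neg_sub] at h2
  have h3 : HRing.of (stdEven T) (D.R ⊗ D.R) _
      (D.vel p j ≫ inlM D.R D.R - D.vel p j ≫ inrM D.R D.R) =
      HRing.of (stdEven T) (D.R ⊗ D.R) _ (D.vel p j ≫ inlM D.R D.R) -
        HRing.of (stdEven T) (D.R ⊗ D.R) _ (D.vel p j ≫ inrM D.R D.R) := map_sub _ _ _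
  rw [h3]
  exact h2

/-- `v_j` acts in the same way on both factors of `N ⊗ R` -/
theorem vel_both : N ◁ D.vel p j ≫ ract M ≫ (ρ_ N).inv ≫ N ◁ η[D.R] = N ◁ D.vel p j := by
  have h := tm_vel_sub M hM
  rw [← tmHom_apply, map_sub, tmHom_apply, tmHom_apply, tm_inl, tm_inr] at h
  exact sub_eq_zero.1 h

end inv

theorem vel_zero (D : MUData T) (p : ℕ) : ∃ e : (stdEven T).S ((p ^ 0 : ℤ) - 1) ≅ 𝟙_ T,
    D.vel p 0 = e.hom ≫ ((p : ℤ) • η[D.R]) := by
  have h0 : (p ^ 0 : ℤ) - 1 = 0 := by simp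
  refine ⟨(stdEven T).castIso _ 0 h0 ≪≫ (stdEven T).zero.symm, ?_⟩
  apply DirectSum.of_injective (β := (stdEven T).Gr D.R)
  have h1 := D.vel_spec p 0
  rw [vv_zero] at h1
  refine h1.symm.trans ?_
  change _ = HRing.of (stdEven T) D.R _ ((((stdEven T).castIso _ 0 h0).hom ≫
    (stdEven T).zero.inv) ≫ ((p : ℤ) • η[D.R]))
  rw [Category.assoc, of_cast h0, Preadditive.comp_zsmul]
  change _ = DirectSum.of ((stdEven T).Gr D.R) 0 _
  rw [map_zsmul]
  change _ = (p : ℤ) • HRing.of (stdEven T) D.R 0 ((stdEven T).zero.inv ≫ η[D.R])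
  rw [of_one, zsmul_one, Int.cast_natCast]

theorem vel_zero_act {N : T} (M : ModStr D.R N) :
    D.vel p 0 ▷ N ≫ M.act = 0 ↔ (p : ℤ) • 𝟙 N = 0 := by
  obtain ⟨e, he⟩ := vel_zero D p
  have h1 : ((p : ℤ) • η[D.R]) ▷ N = (p : ℤ) • η[D.R] ▷ N :=
    (tensorRight N).map_zsmul (f := η[D.R]) (r := (p : ℤ))
  have h2 : D.vel p 0 ▷ N ≫ M.act = (e.hom ▷ N ≫ (λ_ N).hom) ≫ ((p : ℤ) • 𝟙 N) := by
    rw [he, comp_whiskerRight, Category.assoc, h1, Preadditive.zsmul_comp, M.one_act,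
      Category.assoc, Preadditive.comp_zsmul _ (𝟙 N), Category.comp_id]
  rw [h2]
  constructor
  · intro h
    rw [← cancel_epi (e.hom ▷ N ≫ (λ_ N).hom), h, comp_zero]
  · intro h
    rw [h, comp_zero]

namespace PM

variable [Fact p.Prime] {n : ℕ} (Q : PM D p n)

/-- the elements `v_i`, `i < n`, vanish in `R ⊗ P` -/
theorem kill {i : ℕ} (hi : i < n) : D.vel p i ▷ Q.P = 0 := by
  rw [← cancel_mono (β_ D.R Q.P).hom, BraidedCategory.braiding_naturality_left,
    whisker_vel Q.M Q.low hi, comp_zero, zero_comp]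

theorem char (hn : 1 ≤ n) : (p : ℤ) • 𝟙 Q.P = 0 := (vel_zero_act Q.M).1 (Q.low 0 hn)

theorem gsmul_u {d m q : ℤ} (h : d + m = q) (a : (stdEven T).S d ⟶ D.R)
    (b : (stdEven T).S m ⟶ D.R) : gsmul Q.M h a (b ≫ Q.u) = gmul h a b ≫ Q.u :=
  gsmul_comp _ _ Q.u_lin h a b

theorem ker' {w : ℤ} (a : (stdEven T).S w ⟶ D.R)
    (ha : HRing.of (stdEven T) D.R w a ∈ Ih p n D.law) : a ≫ Q.u = 0 := by
  have h := gsmul_of_mem Q.M Q.low (add_zero w) a ha (((stdEven T).zero.inv ≫ η[D.R]) ≫ Q.u)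
  rwa [Q.gsmul_u, gmul_one] at h

end PM

end Vale.Agent.P261Z.T3
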