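import Vale.Agent.P261Z.T3.KMod
import Vale.Agent.P251.X.PiCof
import Vale.Agent.P251.X.Free
import Vale.Agent.P251.X.RetMod

/-!
# P261, block T3: the module `MU / I_n` (every prime)

`PM D p n` : a module `P` over `R = MU` with a linear section of the action, on which
`v_0, …, v_{n-1}` act by zero, with homotopy `π_* R / I_n`.
-/

open CategoryTheory MonoidalCategory MonObj Limits Pretriangulated

set_option linter.unusedSectionVars false

universe v u

namespace Vale.Agent.P261Z.T3

open Vale.Agent.P251 Vale.Agent.P251.M Vale.Agent.P251.M.EvenSpheres Vale.Agent.P251.F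
  Vale.Agent.P251.T Vale.Agent.P251.S Vale.Agent.P251.I

variable {T : Type u} [Category.{v} T] [Preadditive T] [HasZeroObject T]
    [HasShift T ℤ] [∀ n : ℤ, (shiftFunctor T n).Additive] [Pretriangulated T] [IsTriangulated T]
    [MonoidalCategory T] [SymmetricCategory T] [TensorTriangulated T] [MonoidalClosed T]
    [HasCoproducts.{0} T] [HasProducts.{0} T] [StableCat T]

/-- `P = MU / (v_0, …, v_{n-1})` as a module over `R = MU`. -/
structure PM (D : MUData T) (p n : ℕ) where
  /-- the spectrum -/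
  P : T
  /-- the action -/
  M : ModStr D.R P
  /-- the linear section of the action -/
  ψ : P ⟶ D.R ⊗ P
  ψ_lin : M.IsLinear (ModStr.free D.R P) ψ
  ψ_act : ψ ≫ M.act = 𝟙 P
  low : ∀ i < n, D.vel p i ▷ P ≫ M.act = 0
  /-- the projection -/
  u : D.R ⟶ P
  u_lin : (ModStr.self D.R).IsLinear M u
  odd : X.Odd0 P
  surj (w : ℤ) (x : (stdEven T).S w ⟶ P) : ∃ a : (stdEven T).S w ⟶ D.R, x = a ≫ u
  ker (w : ℤ) (a : (stdEven T).S w ⟶ D.R) :
    a ≫ u = 0 → HRing.of (stdEven T) D.R w a ∈ Ih p n D.law

end Vale.Agent.P261Z.T3
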