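import Vale.Agent.P261Z.T3.ExDefs
import Vale.Agent.P261Z.T3.ExA
import Vale.Agent.P261Z.T3.ExAct
import Vale.Agent.P251.X.PhiTot

/-!
# P261, block T3: Morava `K`-theory from the module `MU / I_n`

`PM.exists_kMod` : the spectrum which represents the dual of
`W ↦ (𝔽_p ⊗ π_{2*}(P ⊗ W))_0` is a Morava `K`-theory as a module over `MU`.
-/

open CategoryTheory MonoidalCategory Limits Pretriangulated MonObj

set_option linter.unusedSectionVars false

universe v u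

noncomputable section

namespace Vale.Agent.P261Z.T3

open Vale.Agent.P251 Vale.Agent.P251.T Vale.Agent.P251.M Vale.Agent.P251.M.EvenSpheres
  Vale.Agent.P251.S Vale.Agent.P251.F Vale.Agent.P251.I Vale.Agent.P251.Z Vale.Agent.P251.X

variable {T : Type u} [Category.{v} T] [Preadditive T] [HasZeroObject T]
    [HasShift T ℤ] [∀ n : ℤ, (shiftFunctor T n).Additive] [Pretriangulated T] [IsTriangulated T]
    [MonoidalCategory T] [SymmetricCategory T] [TensorTriangulated T] [MonoidalClosed T]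
    [HasCoproducts.{0} T] [HasProducts.{0} T] [StableCat T] {D : MUData T}
    {p n d : ℕ} [Fact p.Prime]

theorem MP_map_eq {R X Y : T} [MonObj R] (f : X ⟶ Y) (x : MP (stdEven T) R X) :
    MP.map (stdEven T) R f x = (MQ.map (stdEven T) (N := ModStr.free R X) (N' := ModStr.free R Y)
      (R ◁ f) (MP.isLinear_whiskerLeft f) x : MQ (stdEven T) (ModStr.free R Y)) := by
  induction x using MP.ind with
  | zero => exact (map_zero _).trans (map_zero _).symm
  | of j x => exact (MP.map_of f j x).trans (MQ.map_of (N := ModStr.free R X)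
      (N' := ModStr.free R Y) (R ◁ f) (MP.isLinear_whiskerLeft f) j x).symm
  | add x y hx hy =>
    exact (map_add _ _ _).trans ((congrArg₂ (· + ·) hx hy).trans (map_add _ _ _).symm)

theorem exact_free {Fc : SpaceFunctor T} {e : Fc.S.obj CCF ≅ (stdEven T).L} (H : MUUniv e D)
    (hp : MUAt D p) (hn : n ≠ 0) (c : Pt (stdEven T) D.R p d)
    (hc : ∀ z, c.χ (L0 D z) = chiPt p n z) {X Y Z : T} {f : X ⟶ Y} {g : Y ⟶ Z}
    {h : Z ⟶ X⟦(1 : ℤ)⟧} (hT : Triangle.mk f g h ∈ distTriang T)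
    (hY : ∀ i < n, D.vel p i ▷ Y = 0) (hZ : ∀ i < n, D.vel p i ▷ Z = 0)
    (y : Vq c (ModStr.free D.R Y))
    (hy : Vq.map c (D.R ◁ g) (MP.isLinear_whiskerLeft g) y = 0) :
    ∃ x, Vq.map c (D.R ◁ f) (MP.isLinear_whiskerLeft f) x = y := by
  obtain ⟨y, rfl⟩ := Vq.mk_surjective y
  have h1 := Vq.mk_eq_zero.1 hy
  obtain ⟨x, hx⟩ := exact_of_kill H hp hn c hc hT hY hZ y
    ((congrArg (· ∈ c.I • (⊤ : Submodule (HRing (stdEven T) D.R) (MP (stdEven T) D.R Z)))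
      (MP_map_eq g y)).mpr h1)
  rw [MP_map_eq f x] at hx
  exact ⟨Vq.mk c _ x, (Vq.mk_eq.2 hx).symm⟩

theorem act_linQ {R X : T} [MonObj R] (N : ModStr R X) : (ModStr.free R X).IsLinear N N.act :=
  (Category.assoc _ _ _).trans (act_actQ N).symm

theorem rightUnitor_linQ {R X : T} [MonObj R] (N : ModStr R X) :
    (N.tensorRight (𝟙_ T)).IsLinear N (ρ_ X).hom := by
  change ((α_ R X (𝟙_ T)).inv ≫ N.act ▷ 𝟙_ T) ≫ (ρ_ X).hom = R ◁ (ρ_ X).hom ≫ N.act
  monoidal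

namespace PM

variable (Q : PM D p n) (c : Pt (stdEven T) D.R p d)

/-- the section of the action on `P ⊗ W` -/
def sec (W : T) : Q.P ⊗ W ⟶ D.R ⊗ (Q.P ⊗ W) := Q.ψ ▷ W ≫ (α_ D.R Q.P W).hom

theorem sec_lin (W : T) :
    (Q.M.tensorRight W).IsLinear (ModStr.free D.R (Q.P ⊗ W)) (Q.sec W) :=
  (Q.ψ_lin.whiskerRight W).comp ((ModStr.self D.R).isLinear_assoc Q.P W)

theorem sec_act (W : T) : Q.sec W ≫ (Q.M.tensorRight W).act = 𝟙 _ := by
  change (Q.ψ ▷ W ≫ (α_ D.R Q.P W).hom) ≫ (α_ D.R Q.P W).inv ≫ Q.M.act ▷ W = 𝟙 _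
  rw [Category.assoc, Iso.hom_inv_id_assoc, ← comp_whiskerRight, Q.ψ_act, id_whiskerRight]

theorem sec_nat {X Y : T} (f : X ⟶ Y) :
    Q.sec X ≫ D.R ◁ Q.P ◁ f = Q.P ◁ f ≫ Q.sec Y := by
  unfold sec
  rw [Category.assoc, ← associator_naturality_right, whisker_exchange_assoc]

theorem exactQ {Fc : SpaceFunctor T} {e : Fc.S.obj CCF ≅ (stdEven T).L} (H : MUUniv e D)
    (hp : MUAt D p) (hn : n ≠ 0) (hk : ∀ i < n, D.vel p i ▷ Q.P = 0)
    (hc : ∀ z, c.χ (L0 D z) = chiPt p n z) : ExactQ c Q.M := by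
  intro X Y Z f g h hT y hy
  obtain ⟨x, hx⟩ := exact_free H hp hn c hc (tens_dist Q.P hT)
    (fun i hi => whiskerRight_tensor_zero (hk i hi) Y)
    (fun i hi => whiskerRight_tensor_zero (hk i hi) Z)
    (Vq.map c (Q.sec Y) (Q.sec_lin Y) y) (by
      rw [Vq.map_map, Vq.map_congr (Q.sec_nat g) _
        ((Q.M.isLinear_whiskerLeft g).comp (Q.sec_lin Z)), ← Vq.map_map]
      exact (congrArg (Vq.map c (Q.sec Z) (Q.sec_lin Z)) hy).trans (map_zero _))
  refine ⟨Vq.map c _ (act_linQ (Q.M.tensorRight X)) x, ?_⟩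
  have h1 := congrArg (Vq.map c _ (act_linQ (Q.M.tensorRight Y))) hx
  rw [Vq.map_map, Vq.map_map, Vq.map_eq_id (Q.sec_act Y)] at h1
  rw [← h1]
  unfold wmap
  rw [Vq.map_map]
  exact DFunLike.congr_fun (Vq.map_congr (Q.M.isLinear_whiskerLeft f) _ _) x

/-- the generator of the homotopy of `P` -/
def gen : (stdEven T).S 0 ⟶ Q.P := ((stdEven T).zero.inv ≫ η[D.R]) ≫ Q.u

theorem of_smul_gen (w : ℤ) (a : (stdEven T).S w ⟶ D.R) :
    HRing.of (stdEven T) D.R w a • MQ.of (stdEven T) Q.M 0 Q.gen =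
      MQ.of (stdEven T) Q.M w (a ≫ Q.u) := by
  rw [MQ.smul_of (add_zero w), gen, gsmul_comp _ _ Q.u_lin]
  congr 2
  exact gmul_one _ a

theorem exists_smul_gen (x : MQ (stdEven T) Q.M) :
    ∃ z : HRing (stdEven T) D.R, x = z • MQ.of (stdEven T) Q.M 0 Q.gen := by
  refine MQ.ind (motive := fun x => ∃ z : HRing (stdEven T) D.R,
    x = z • MQ.of (stdEven T) Q.M 0 Q.gen) x ⟨0, (zero_smul _ _).symm⟩ ?_ ?_
  · intro w x
    obtain ⟨a, rfl⟩ := Q.surj w x
    exact ⟨_, (Q.of_smul_gen w a).symm⟩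
  · rintro _ _ ⟨z, rfl⟩ ⟨z', rfl⟩
    exact ⟨z + z', (add_smul _ _ _).symm⟩

theorem mem_of_smul_gen {z : HRing (stdEven T) D.R}
    (hz : z • MQ.of (stdEven T) Q.M 0 Q.gen = 0) : z ∈ Ih p n D.law := by
  classical
  let ev : ∀ w : ℤ, MQ (stdEven T) Q.M →+ ((stdEven T).S w ⟶ Q.P) := fun w =>
    DFinsupp.evalAddMonoidHom (β := (stdEven T).Gr Q.P) w
  have h1 : ∀ (w : ℤ) (z : HRing (stdEven T) D.R),
      ev w (z • MQ.of (stdEven T) Q.M 0 Q.gen) = z w ≫ Q.u := by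
    intro w z
    induction z using DirectSum.induction_on with
    | zero => rw [zero_smul, map_zero]; exact zero_comp.symm
    | add x y hx hy =>
      rw [add_smul, map_add, hx, hy]
      exact (Preadditive.add_comp _ _ _ _ _ _).symm
    | of i a =>
      refine (congrArg (ev w) (Q.of_smul_gen i a)).trans ?_
      by_cases hi : i = w
      · subst hi
        rw [DirectSum.of_eq_same]
        exact DirectSum.of_eq_same (β := (stdEven T).Gr Q.P) i _
      · rw [DirectSum.of_eq_of_ne _ _ _ (Ne.symm hi), zero_comp]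
        exact DirectSum.of_eq_of_ne (β := (stdEven T).Gr Q.P) i w _ (Ne.symm hi)
  rw [← DirectSum.sum_support_of z]
  refine sum_mem fun w _ => Q.ker w _ ?_
  rw [← h1, hz, map_zero]

theorem exists_cls_gen (x : Vq c Q.M) : ∃ t : ZMod p, x = t • Vq.cls c Q.M 0 Q.gen := by
  obtain ⟨x, rfl⟩ := Vq.mk_surjective x
  obtain ⟨z, rfl⟩ := Q.exists_smul_gen x
  exact ⟨c.χ z, Vq.mk_smul z _⟩

theorem cls_gen_ne (hc : ∀ z, c.χ (L0 D z) = chiPt p n z) : Vq.cls c Q.M 0 Q.gen ≠ 0 := by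
  intro h
  have h1 : ∀ x ∈ c.I • (⊤ : Submodule (HRing (stdEven T) D.R) (MQ (stdEven T) Q.M)),
      ∃ z, c.χ z = 0 ∧ x = z • MQ.of (stdEven T) Q.M 0 Q.gen := by
    intro x hx
    refine Submodule.smul_induction_on hx ?_ ?_
    · intro z hz y _
      obtain ⟨z', rfl⟩ := Q.exists_smul_gen y
      exact ⟨z * z', by rw [map_mul, c.mem_I.1 hz, zero_mul], (mul_smul _ _ _).symm⟩
    · rintro _ _ ⟨z, hz, rfl⟩ ⟨z', hz', rfl⟩
      exact ⟨z + z', by rw [map_add, hz, hz', add_zero], (add_smul _ _ _).symm⟩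
  obtain ⟨z, hz, h2⟩ := h1 _ (Vq.mk_eq_zero.1 h)
  have h3 : 1 - z ∈ Ih p n D.law := Q.mem_of_smul_gen (by rw [sub_smul, one_smul, ← h2, sub_self])
  have h4 : Ih p n D.law ≤ RingHom.ker c.χ := by
    refine Ideal.span_le.2 ?_
    rintro _ ⟨i, hi, rfl⟩
    change c.χ (vv p i D.law) = 0
    rw [← L0_v, hc, chiPt_v_of_ne hi.ne]
  have h5 : c.χ (1 - z) = 0 := h4 h3
  rw [map_sub, map_one, hz, sub_zero] at h5
  exact one_ne_zero h5

/-- the generator for the sphere of dimension `2 m` -/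
def genS (m : ℤ) : Vq c (Q.M.tensorRight ((stdEven T).S m)) :=
  Vq.cls c _ m ((stdEven T).ext (zero_add m) Q.gen (𝟙 _))

theorem exists_genS (m : ℤ) (x : Vq c (Q.M.tensorRight ((stdEven T).S m))) :
    ∃ t : ZMod p, x = t • Q.genS c m := by
  obtain ⟨x, rfl⟩ := Vq.mk_surjective x
  obtain ⟨y, rfl⟩ := susp_surjective Q.M m x
  obtain ⟨t, ht⟩ := Q.exists_cls_gen c (Vq.mk c _ y)
  refine ⟨t, ?_⟩
  rw [← Vq.mapL_mk, ht, map_smul, Vq.cls_eq, Vq.mapL_mk, susp_of _ (zero_add m)]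
  rfl

theorem genS_ne (hc : ∀ z, c.χ (L0 D z) = chiPt p n z) : Q.genS c 0 ≠ 0 := by
  intro h
  have h1 := congrArg (Vq.map c _ ((Q.M.isLinear_whiskerLeft (stdEven T).zero.inv).comp
    (rightUnitor_linQ Q.M))) h
  rw [genS, Vq.map_cls, map_zero, ← Category.assoc, ← ext_comp_right, Category.id_comp,
    ← Category.comp_id (stdEven T).zero.inv, ext_one] at h1
  apply Q.cls_gen_ne c hc
  rwa [whiskerLeft_id, Category.comp_id, Category.assoc, Iso.inv_hom_id, Category.comp_id] at h1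

theorem vz_even {m : ℤ} (hm : ¬ (d : ℤ) ∣ m)
    (x : Vz c (Q.M.tensorRight ((stdEven T).S m))) : x = 0 := by
  obtain ⟨t, ht⟩ := Q.exists_genS c m x
  refine Subtype.ext ((Vz.pr_eq x.2).symm.trans ?_)
  rw [ht, map_smul, genS, Vq.pr_cls_not hm, smul_zero]
  rfl

theorem vz_odd {k : ℤ} (hk : Odd k) (x : Vz c (Q.M.tensorRight ((𝟙_ T)⟦k⟧))) : x = 0 := by
  refine Subtype.ext (Vq.ind (motive := fun x => x = 0) x.1 rfl (fun j f => ?_) ?_)
  · have h := Vtot.eq_zero_even_odd Q.odd j k hk (f ≫ (tensorSph k Q.P).hom)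
    rw [← zero_comp (f := (tensorSph k Q.P).hom), cancel_mono] at h
    rw [h, map_zero]
  · intro x y hx hy
    rw [hx, hy, add_zero]

/-- **Morava `K`-theory as a module over `MU`.** -/
theorem exists_kMod [LocallySmall.{0} T] {Fc : SpaceFunctor T}
    {e : Fc.S.obj CCF ≅ (stdEven T).L} (H : MUUniv e D) (hp : MUAt D p) (hn : n ≠ 0)
    (hk : ∀ i < n, D.vel p i ▷ Q.P = 0) :
    ∃ (K : T) (M : ModStr D.R K) (g : 𝟙_ T ⟶ K), KMod D p n M g := by
  obtain ⟨c, hc, hv⟩ := exists_ptAt hp hn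
  have hex : ExactQ c Q.M := Q.exactQ c H hp hn hk hc
  obtain ⟨K, φ, hφ⟩ := (thQ c Q.M hex X.isSphere_std).exists_rep unit_isCpt unit_isGen
    fun k => small_Vz c _
  obtain ⟨M, hM⟩ := (actQ c Q.M hex X.isSphere_std).exists_mod hφ
  let e₁ : (thQ c Q.M hex X.isSphere_std).V ((stdEven T).S 0) :=
    ⟨Q.genS c 0, Q.genS c 0, Vq.pr_cls_dvd (dvd_zero _) _⟩
  have he₁ : e₁ ≠ 0 := fun h => Q.genS_ne c hc (congrArg Subtype.val h)
  have he₂ : ∀ x, ∃ t : ZMod p, x = t • e₁ := fun x => by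
    obtain ⟨t, ht⟩ := Q.exists_genS c 0 x.1
    exact ⟨t, Subtype.ext ht⟩
  obtain ⟨l, hl⟩ := (LinearMap.toSpanSingleton (ZMod p) _ e₁).exists_leftInverse_of_injective
    (LinearMap.ker_toSpanSingleton _ he₁)
  have hl1 : l e₁ = 1 := by
    have h1 := DFunLike.congr_fun hl 1
    rwa [LinearMap.comp_apply, LinearMap.toSpanSingleton_apply, one_smul] at h1
  obtain ⟨g, hg⟩ := rep_exists hφ l
  refine ⟨K, M, g, fun k f hk => ?_, fun h => ?_, fun f => ?_, fun i hi => ?_, ?_⟩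
  · rcases Int.even_or_odd' k with ⟨m, rfl | rfl⟩
    · have e := (stdEven T).sphIso (Iso.refl _) m
      rw [← cancel_epi e.hom, comp_zero]
      refine rep_zero hφ (Q.vz_even c fun hd => hk ?_) _
      rw [cast_pow_sub] at hd
      exact mul_dvd_mul_left 2 hd
    · exact rep_zero hφ (Q.vz_odd c ⟨m, rfl⟩) _
  · have h1 := hg e₁
    rw [hl1, show g = 0 from h, map_zero_hom, map_zero] at h1
    exact zero_ne_one h1
  · let f' : (stdEven T).S 0 ⟶ K := f
    obtain ⟨a, ha⟩ := ZMod.intCast_surjective (φ ((thQ c Q.M hex X.isSphere_std).map f' e₁))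
    refine ⟨a, (rep_ext hφ fun x => ?_ : f' = a • g)⟩
    obtain ⟨t, rfl⟩ := he₂ x
    rw [map_zsmul_hom, map_zsmul, hg, map_smul, map_smul, map_smul, hl1, ← ha, smul_eq_mul,
      smul_eq_mul, zsmul_eq_mul, _root_.mul_one, mul_comm]
  · exact (actQ c Q.M hex X.isSphere_std).act_zero hφ hM _
      (actQ_zero c Q.M hex X.isSphere_std _ (Q.low i hi) K)
  · have h1 := (actQ c Q.M hex X.isSphere_std).isIso_act hφ hM c.v
      (actQ_bijective c Q.M hex X.isSphere_std)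
    rw [hv, comp_whiskerRight, Category.assoc] at h1
    exact IsIso.of_isIso_comp_left (((stdEven T).castIso _ _ (cast_pow_sub n)).hom ▷ K) _

end PM

end Vale.Agent.P261Z.T3
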