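import Vale.Agent.P261Z.T3.KRev

/-!
# P261, block T3: invariance of `I_n`

`kill_of_low` : if `v_0, …, v_{n-1}` act by zero on the module `K` over `MU`, then the maps
`v_i ⊗ K : S ⊗ K ⟶ MU ⊗ K` vanish.
-/

open CategoryTheory MonoidalCategory MonObj Limits Pretriangulated

set_option linter.unusedSectionVars false

universe v u

namespace Vale.Agent.P261Z.T3

open Vale.Agent.P251 Vale.Agent.P251.M Vale.Agent.P251.M.EvenSpheres Vale.Agent.P251.F
  Vale.Agent.P251.T Vale.Agent.P251.S Vale.Agent.P251.Z Vale.Agent.P251.I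
  Vale.Agent.P251.I.MUData

variable {T : Type u} [Category.{v} T] [Preadditive T] [HasZeroObject T]
    [HasShift T ℤ] [∀ n : ℤ, (shiftFunctor T n).Additive] [Pretriangulated T] [IsTriangulated T]
    [MonoidalCategory T] [SymmetricCategory T] [TensorTriangulated T] [MonoidalClosed T]
    [HasCoproducts.{0} T] [HasProducts.{0} T] [StableCat T]

theorem kill_of_sharp {R K : T} {k : ℤ} (a : (stdEven T).S k ⟶ R) (h : K ◁ sharp a = 0) :
    a ▷ K = 0 := by
  have h1 : K ◁ (((stdEven T).unitIso k).hom ≫ a ▷ (stdEven T).S (-k)) = 0 := by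
    rw [← sharp_pr, MonoidalCategory.whiskerLeft_comp, h, zero_comp]
  rw [MonoidalCategory.whiskerLeft_comp, ← comp_zero (f := K ◁ ((stdEven T).unitIso k).hom),
    cancel_epi] at h1
  have h2 : (K ◁ a) ▷ (stdEven T).S (-k) = (0 : K ⊗ _ ⟶ K ⊗ R) ▷ (stdEven T).S (-k) := by
    rw [MonoidalPreadditive.zero_whiskerRight, ← cancel_mono (α_ K R _).hom,
      associator_naturality_middle, h1, comp_zero, zero_comp]
  rw [← cancel_mono (β_ R K).hom, BraidedCategory.braiding_naturality_left,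
    whiskerRight_inj _ h2, comp_zero, zero_comp]

theorem kill_of_low {D : MUData T} {p n : ℕ} [Fact p.Prime] {K : T} (M : ModStr D.R K)
    {F : SpaceFunctor T} {e : F.S.obj CCF ≅ (stdEven T).L} (hU : MUUniv e D)
    (low : ∀ i < n, D.vel p i ▷ K ≫ M.act = 0) {i : ℕ} (hi : i < n) : D.vel p i ▷ K = 0 := by
  have h0 : ∀ i < n, sigB D M (MvPolynomial.C (vv p i D.law)) = 0 := by
    intro i hi
    have := isIso_fB M hU
    have h2 : sigP (stdEven T) M (vv p i D.law) = 0 := by
      rw [D.vel_spec, sigP_of]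
      exact smul_sharp_zero M _ (low i hi)
    have h1 : Sigma.desc (fB D M) ≫ (sigB D M (MvPolynomial.C (vv p i D.law)) : _ ⟶ _) = 0 := by
      refine Sigma.hom_ext _ _ fun a => ?_
      rw [Sigma.ι_desc_assoc, fB_sigB, h2, comp_zero]
      exact zero_comp
    exact (cancel_epi (Sigma.desc (fB D M))).1 (h1.trans comp_zero.symm)
  have h1 : K ◁ vP (D.vs p) i = 0 := by
    rw [whiskerLeft_vP_eq D M]
    exact (vv_bL_act (sigB D M) D.law h0).1 i hi
  refine kill_of_sharp _ ?_
  have h2 : η[D.P] ≫ vP (D.vs p) i = sharp (D.vel p i) := by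
    change η[D.P] ≫ (λ_ D.P).inv ≫ D.vs p i ▷ D.P ≫ μ[D.P] = D.vs p i
    rw [leftUnitor_inv_naturality_assoc, whisker_exchange_assoc, MonObj.mul_one, unitors_inv_equal,
      ← rightUnitor_inv_naturality_assoc, Iso.inv_hom_id, Category.comp_id]
  rw [← h2, MonoidalCategory.whiskerLeft_comp, h1, comp_zero]

end Vale.Agent.P261Z.T3
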