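import Vale.Agent.P261Z.T3.KCmp
import Vale.Agent.P261Z.T3.ExK
import Vale.Agent.P261Z.T3.ExKill

/-!
# P261, T3: from modules over `MU` to the Morava `K`-theories of the statement layer

* `isK_of_kMod` : a module `KMod` over `MU` is a Morava `K`-theory.
* `PM.exists_isK` : existence, from the module `MU / I_n`.
-/

open CategoryTheory MonoidalCategory Limits Pretriangulated MonObj

set_option linter.unusedSectionVars false

noncomputable section

namespace Vale.Agent.P261Z.T3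

open Vale.Agent.P251 Vale.Agent.P251.I Vale.Agent.P251.T Vale.Agent.P251.M Vale.Agent.P251.St
  Vale.Agent.P251.F Vale.Agent.P251.S Vale.Agent.P257.H702 Vale.Agent.P261Z.St
open Vale.Agent.P251.M.EvenSpheres

variable {T : SHCat} {S : Susp T}

theorem isK_of_kMod {D : MUData T.C}
    (W : ThomFam (RSys D.R (stdEven T.C)) S.toSpaceFunctor
      (lineCls (M.lineIso S.toSpaceFunctor) (SeqMonoid.const D.R))) (hW : lawW W = D.law)
    {p n : ℕ} (hp : 1 ≤ p) (hn : 1 ≤ n) {K : T.C} {N : ModStr D.R K} {g : 𝟙_ T.C ⟶ K}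
    (H : KMod D p n N g) : IsK S p n K := by
  let R : RingSp T := ⟨D.R⟩
  obtain ⟨o, ho⟩ := exists_oriented_of_fam (R := R) W
  obtain ⟨c, hc⟩ := exists_isPSeries p o
  have key : ∀ i, c (p ^ i - 1) = (spI S hp i).hom ≫ D.vel p i := by
    intro i
    have hpi : 1 ≤ p ^ i := Nat.one_le_pow _ _ hp
    have hcast : (p ^ i : ℤ) - 1 = ((p ^ i - 1 : ℕ) : ℤ) := by
      rw [Nat.cast_sub hpi]
      push_cast
      rfl
    have h1 := isPSeries_iff_lawS.1 hc (p ^ i - 1)
    rw [Nat.sub_add_cancel hpi, ho, hW] at h1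
    have h2 : HRing.of (stdEven T.C) D.R ((p ^ i : ℤ) - 1) (D.vel p i) =
        HRing.of (stdEven T.C) D.R ((p ^ i : ℤ) - 1) (((stdEven T.C).castIso _ _ hcast).hom ≫
          (isoE S (p ^ i - 1)).inv ≫ c (p ^ i - 1)) :=
      ((D.vel_spec p i).symm.trans h1).trans (of_cast hcast _).symm
    have h3 := DirectSum.of_injective (β := (stdEven T.C).Gr D.R) _ h2
    rw [← Iso.inv_comp_eq, spI_inv hp i hcast]
    exact (Category.assoc _ _ _).trans h3.symm
  have key2 : ∀ i, (ofModStr (R := R) N).mulBy (c (p ^ i - 1)) =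
      (spI S hp i).hom ▷ K ≫ D.vel p i ▷ K ≫ N.act := by
    intro i
    change c (p ^ i - 1) ▷ K ≫ N.act = _
    rw [key, ← comp_whiskerRight_assoc]
  refine ⟨R, o, c, ofModStr (R := R) N, rfl, hc, fun k f hk => H.sparse k f hk,
    ⟨g, H.ne, ?_, H.gen⟩, fun i hi => ?_, ?_⟩
  · change (p : ℤ) • g = 0
    rw [← Category.comp_id g, ← Preadditive.comp_zsmul, H.char hn, comp_zero]
  · rw [key2, H.low i hi]
    exact comp_zero
  · rw [key2]
    have := H.top
    exact inferInstanceAs (IsIso ((spI S hp n).hom ▷ K ≫ D.vel p n ▷ K ≫ N.act))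

/-- **Existence of Morava `K`-theories from `MU / I_n`.** -/
theorem PM.exists_isK {D : MUData T.C} (hD : MUUniv (M.lineIso S.toSpaceFunctor) D)
    (W : ThomFam (RSys D.R (stdEven T.C)) S.toSpaceFunctor
      (lineCls (M.lineIso S.toSpaceFunctor) (SeqMonoid.const D.R))) (hW : lawW W = D.law)
    {p n : ℕ} [Fact p.Prime] (hp : MUAt D p) (hn : 1 ≤ n) (Q : PM D p n)
    (hk : ∀ i < n, D.vel p i ▷ Q.P = 0) : ∃ K : T.C, IsK S p n K := by
  obtain ⟨K, N, g, H⟩ := Q.exists_kMod hD hp (by omega) hk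
  exact ⟨K, isK_of_kMod W hW (Fact.out : p.Prime).one_le hn H⟩

theorem PM.exists_isK' {D : MUData T.C} (hD : MUUniv (M.lineIso S.toSpaceFunctor) D)
    (W : ThomFam (RSys D.R (stdEven T.C)) S.toSpaceFunctor
      (lineCls (M.lineIso S.toSpaceFunctor) (SeqMonoid.const D.R))) (hW : lawW W = D.law)
    {p n : ℕ} [Fact p.Prime] (hp : MUAt D p) (hn : 1 ≤ n) (Q : PM D p n) :
    ∃ K : T.C, IsK S p n K :=
  Q.exists_isK hD W hW hp hn fun _ hi => kill_of_low Q.M hD Q.low hi

end Vale.Agent.P261Z.T3
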