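import Vale.Agent.P261Z.T3.ExAnn
import Vale.Agent.P251.X.Step

/-!
# P261, block T3: `v_j` acts by zero on `N ⊗ MU / v_j`
-/

open CategoryTheory MonoidalCategory MonObj Limits Pretriangulated

set_option linter.unusedSectionVars false

universe v u

namespace Vale.Agent.P261Z.T3

open Vale.Agent.P251 Vale.Agent.P251.M Vale.Agent.P251.M.EvenSpheres Vale.Agent.P251.F
  Vale.Agent.P251.T Vale.Agent.P251.S Vale.Agent.P251.I Vale.Agent.P251.X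

variable {T : Type u} [Category.{v} T] [Preadditive T] [HasZeroObject T]
    [HasShift T ℤ] [∀ n : ℤ, (shiftFunctor T n).Additive] [Pretriangulated T] [IsTriangulated T]
    [MonoidalCategory T] [SymmetricCategory T] [TensorTriangulated T] [MonoidalClosed T]
    [HasCoproducts.{0} T] [HasProducts.{0} T] [StableCat T] {D : MUData T} {p : ℕ}

/-- injectivity on even homotopy -/
def InjE {A B : T} (f : A ⟶ B) : Prop :=
  ∀ (l : ℤ) (g : (stdEven T).S l ⟶ A), g ≫ f = 0 → g = 0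

theorem InjE.pre {A A' B : T} {f : A ⟶ B} (h : InjE f) (e : A' ≅ A) : InjE (e.hom ≫ f) := by
  intro l g hg
  rw [← cancel_mono e.hom, zero_comp]
  exact h l _ (by rw [Category.assoc, hg])

theorem InjE.shift {A B : T} {f : A ⟶ B} (h : InjE f) (l : ℤ)
    (t : (𝟙_ T)⟦2 * l + 1⟧ ⟶ A⟦(1 : ℤ)⟧) (ht : t ≫ f⟦(1 : ℤ)⟧' = 0) : t = 0 := by
  have e : ((𝟙_ T)⟦2 * l⟧)⟦(1 : ℤ)⟧ ≅ (𝟙_ T)⟦2 * l + 1⟧ :=
    ((shiftFunctorAdd' T (2 * l) 1 (2 * l + 1) rfl).app _).symm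
  have e' : (stdEven T).S l ≅ (𝟙_ T)⟦2 * l⟧ := (stdEven T).sphIso (Iso.refl _) l
  obtain ⟨g, hg⟩ := (shiftFunctor T (1 : ℤ)).map_surjective (e.hom ≫ t)
  have h3 : g ≫ f = 0 := by
    apply (shiftFunctor T (1 : ℤ)).map_injective
    rw [Functor.map_comp, hg, Functor.map_zero, Category.assoc, ht, comp_zero]
  have h5 : g = 0 := by
    rw [← cancel_epi e'.hom, comp_zero]
    exact h l _ (by rw [Category.assoc, h3, comp_zero])
  rw [← cancel_epi e.hom, ← hg, h5, Functor.map_zero, comp_zero]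

theorem cof_odd {A B E : T} {f : A ⟶ B} {g : B ⟶ E} {h : E ⟶ A⟦(1 : ℤ)⟧}
    (hT : Triangle.mk f g h ∈ distTriang T) (hB : Odd0 B) (hf : InjE f) : Odd0 E := by
  intro l x
  have h1 : h ≫ f⟦(1 : ℤ)⟧' = 0 := comp_distTriang_mor_zero₃₁ _ hT
  have h2 : x ≫ h = 0 := hf.shift l _ (by rw [Category.assoc, h1, comp_zero])
  obtain ⟨y, hy⟩ : ∃ y : (𝟙_ T)⟦2 * l + 1⟧ ⟶ B, x = y ≫ g := Triangle.coyoneda_exact₃ _ hT x h2
  rw [hy, hB l y, zero_comp]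

theorem exists_ext_left {N : T} {d m q : ℤ} (h : d + m = q)
    (x : (stdEven T).S q ⟶ (stdEven T).S d ⊗ N) :
    ∃ y : (stdEven T).S m ⟶ N, x = (stdEven T).ext h (𝟙 _) y := by
  have h' : m + d = q := by omega
  obtain ⟨y, hy⟩ := ext_id_surj h' (x ≫ (β_ _ _).hom)
  refine ⟨y, ?_⟩
  rw [← ext_comm h' h, ← hy, Category.assoc, SymmetricCategory.symmetry, Category.comp_id]

theorem ext_act {R N : T} [MonObj R] (M : ModStr R N) {d m q : ℤ} (h : d + m = q)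
    (a : (stdEven T).S d ⟶ R) (y : (stdEven T).S m ⟶ N) :
    (stdEven T).ext h (𝟙 _) y ≫ a ▷ N ≫ M.act = gsmul M h a y := by
  unfold gsmul
  rw [← Category.assoc, ← ext_comp_left, Category.id_comp]

theorem injE_of_reg {R N : T} [MonObj R] (M : ModStr R N) {d : ℤ} (a : (stdEven T).S d ⟶ R)
    (hreg : ∀ (m q : ℤ) (h : d + m = q) (y : (stdEven T).S m ⟶ N), gsmul M h a y = 0 → y = 0) :
    InjE (a ▷ N ≫ M.act) := by
  intro l x hx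
  obtain ⟨y, rfl⟩ := exists_ext_left (add_sub_cancel d l) x
  rw [ext_act] at hx
  rw [hreg _ _ _ y hx, ext_zero_right]

section moore

variable [Fact p.Prime] (hp : MUAt D p) {Mo : T} {i : 𝟙_ T ⟶ Mo} {δM : Mo ⟶ (𝟙_ T)⟦(1 : ℤ)⟧}
  (hMo : Triangle.mk ((p : ℤ) • 𝟙 (𝟙_ T)) i δM ∈ distTriang T)

include hMo in
theorem p_red (A : T) : (p : ℤ) • ((ρ_ A).inv ≫ A ◁ i) = 0 := by
  have h1 : ((p : ℤ) • 𝟙 (𝟙_ T)) ≫ i = 0 := comp_distTriang_mor_zero₁₂ _ hMo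
  rw [Preadditive.zsmul_comp, Category.id_comp] at h1
  have h3 : A ◁ ((p : ℤ) • i) = (p : ℤ) • A ◁ i := (tensorLeft A).map_zsmul (f := i) (r := (p : ℤ))
  rw [← Preadditive.comp_zsmul, ← h3, h1, MonoidalPreadditive.whiskerLeft_zero, comp_zero]

include hp hMo

theorem odd_RR : Odd0 ((D.R ⊗ D.R) ⊗ Mo) := by
  intro l f
  have h1 := hp.odd 1 Mo i δM hMo l (f ≫ inv (amPair D.R) ▷ Mo)
  rw [← cancel_mono (inv (amPair D.R) ▷ Mo), zero_comp]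
  exact h1

theorem reg_RR {j : ℕ} (hj : 1 ≤ j) (m q : ℤ) (h : ((p ^ j : ℤ) - 1) + m = q)
    (y : (stdEven T).S m ⟶ (D.R ⊗ D.R) ⊗ Mo)
    (hy : gsmul ((ModStr.free D.R D.R).tensorRight Mo) h (D.vel p j) y = 0) : y = 0 := by
  obtain ⟨z, a, hz, ha, hf⟩ := hp.surj 1 Mo i δM hMo m (y ≫ inv (amPair D.R) ▷ Mo)
  have hn : ∀ {X : T} (b : X ⟶ Am D.R 2), (b ≫ amPair D.R) ≫ (ρ_ (D.R ⊗ D.R)).inv ≫
      (D.R ⊗ D.R) ◁ i = (b ≫ (ρ_ (Am D.R 2)).inv ≫ Am D.R 2 ◁ i) ≫ amPair D.R ▷ Mo := by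
    intro X b
    simp only [Category.assoc]
    rw [whisker_exchange, rightUnitor_inv_naturality_assoc]
  have h1 : y = (a ≫ amPair D.R) ≫ (ρ_ (D.R ⊗ D.R)).inv ≫ (D.R ⊗ D.R) ◁ i := by
    rw [hn, ← hf, Category.assoc, ← comp_whiskerRight, IsIso.inv_hom_id, id_whiskerRight,
      Category.comp_id]
  have h2 : gsmul (ModStr.free D.R D.R) h (D.vel p j) (a ≫ amPair D.R) =
      gmul h (D.vel p j ≫ Am.v D.R (0 : Fin 2)) a ≫ amPair D.R := by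
    rw [← gmul_comp, Category.assoc, v_zero_amPair]
    unfold gsmul gmul
    rw [ext_comp_left, Category.assoc, inlM_mul_id]
    rfl
  rw [h1, gsmul_comp _ _ ((rho_lin (ModStr.free D.R D.R)).comp
    ((ModStr.free D.R D.R).isLinear_whiskerLeft i)), h2, hn] at hy
  have h3 : gmul h (D.vel p j ≫ Am.v D.R (0 : Fin 2)) a ≫ (ρ_ (Am D.R 2)).inv ≫
      Am D.R 2 ◁ i = 0 := by
    rw [← cancel_mono (amPair D.R ▷ Mo), hy, zero_comp]
  have hw : Cob.IsWt q (MvPolynomial.C (Laz.v p j) * z : Cob Laz 1) := by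
    rw [← h]
    exact (CobCompl.isWt_C_v (p := p) (s := 1) j).mul hz
  obtain ⟨y', -, hy'⟩ := hp.ker 1 Mo i δM hMo q _ hw _ (by
    rw [map_mul, GD.ev_v D p 1 j, ha, of_mul_of h]) h3
  have h0 : Laz.v p 0 = (p : Laz) := vv_zero p _
  have h4 : MvPolynomial.C (Laz.v p j) * z ∈
      (Laz.I p 1).map (MvPolynomial.C : Laz →+* Cob Laz 1) := by
    have h5 : (MvPolynomial.C (Laz.v p 0) : Cob Laz 1) ∈
        (Laz.I p 1).map (MvPolynomial.C : Laz →+* Cob Laz 1) :=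
      Ideal.mem_map_of_mem _ (vv_mem_Ih Nat.one_pos _)
    rw [h0, map_natCast] at h5
    rw [hy', zsmul_eq_mul, Int.cast_natCast]
    exact Ideal.mul_mem_right _ _ h5
  obtain ⟨c, hc⟩ := mem_map_C_I (mem_map_C_I_of_v_mul p hj h4)
  rw [Finset.sum_range_one, h0, map_natCast] at hc
  rw [hc, map_mul, map_natCast] at ha
  obtain ⟨b, hb⟩ := exists_of_mem_p ha.symm
  rw [h1, hb, Preadditive.zsmul_comp, Preadditive.zsmul_comp, ← Preadditive.comp_zsmul,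
    p_red hMo, comp_zero]

variable {j : ℕ} (hj : 1 ≤ j) {C : T} {q : D.R ⟶ C}
  {δ : C ⟶ (D.R ⊗ (stdEven T).S ((p ^ j : ℤ) - 1))⟦(1 : ℤ)⟧}
  (hC : Triangle.mk (D.R ◁ D.vel p j ≫ μ[D.R]) q δ ∈ distTriang T)

include hj hC

theorem odd_RC : Odd0 ((D.R ⊗ C) ⊗ Mo) := by
  have h1 : Odd0 ((C ⊗ D.R) ⊗ Mo) := by
    refine cof_odd (tensR_dist Mo (tensR_dist D.R hC)) (odd_RR hp hMo) ?_
    have h2 := (injE_of_reg _ _ (reg_RR hp hMo hj)).pre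
      (whiskerRightIso (whiskerRightIso (β_ D.R ((stdEven T).S ((p ^ j : ℤ) - 1))) D.R ≪≫
        α_ _ _ _) Mo ≪≫ α_ _ _ _)
    have h3 : D.R ◁ D.vel p j ≫ μ[D.R] = (β_ _ _).hom ≫ D.vel p j ▷ D.R ≫ μ[D.R] := by
      rw [← BraidedCategory.braiding_naturality_right_assoc, IsCommMonObj.mul_comm]
    have h4 : ((D.R ◁ D.vel p j ≫ μ[D.R]) ▷ D.R) ▷ Mo =
        (whiskerRightIso (whiskerRightIso (β_ D.R ((stdEven T).S ((p ^ j : ℤ) - 1))) D.R ≪≫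
        α_ _ _ _) Mo ≪≫ α_ _ _ _).hom ≫ D.vel p j ▷ ((D.R ⊗ D.R) ⊗ Mo) ≫
          ((ModStr.free D.R D.R).tensorRight Mo).act := by
      rw [h3]
      change _ = (((β_ D.R ((stdEven T).S ((p ^ j : ℤ) - 1))).hom ▷ D.R ≫ (α_ _ _ _).hom) ▷ Mo ≫
        (α_ _ _ _).hom) ≫ D.vel p j ▷ ((D.R ⊗ D.R) ⊗ Mo) ≫ (α_ _ _ _).inv ≫
          ((α_ _ _ _).inv ≫ μ[D.R] ▷ D.R) ▷ Mo
      monoidal
    rw [h4]
    exact h2
  intro l f
  rw [← cancel_mono ((β_ D.R C).hom ▷ Mo), zero_comp]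
  exact h1 l _

variable {F : SpaceFunctor T} {e : F.S.obj CCF ≅ (stdEven T).L} (hU : MUUniv e D)

include hU

theorem exists_div (g : ((stdEven T).S ((p ^ j : ℤ) - 1) ⊗
    (D.R ⊗ (stdEven T).S ((p ^ j : ℤ) - 1)))⟦(1 : ℤ)⟧ ⟶ D.R ⊗ C) :
    ∃ g', (p : ℤ) • g' = g := by
  refine exists_zsmul_of_red hMo g ?_
  have h1 : NoMap (stdEven T) ((stdEven T).S ((p ^ j : ℤ) - 1) ⊗ (D.R ⊗
      ((stdEven T).S ((p ^ j : ℤ) - 1) ⊗ (𝟙_ T)⟦(1 : ℤ)⟧))) ((D.R ⊗ C) ⊗ Mo) :=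
    ((((odd_RC hp hMo hj hC).noMap).sphere _).R_left hU
      ((ModStr.free D.R C).tensorRight Mo)).sphere _
  exact (h1.of_iso (whiskerLeftIso _ (α_ _ _ _).symm ≪≫ (α_ _ _ _).symm ≪≫
    TensorTriangulated.e _)).eq_zero _

/-- **`v_j` acts by zero on `N ⊗ C`.** -/
theorem vel_cof {N : T} (M : ModStr D.R N) (hM : ∀ k < j, D.vel p k ▷ N ≫ M.act = 0) :
    D.vel p j ▷ (N ⊗ C) ≫ (M.tensorRight C).act = 0 := by
  have hq : (D.R ◁ D.vel p j ≫ μ[D.R]) ≫ q = 0 := comp_distTriang_mor_zero₁₂ _ hC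
  have hsq : D.R ◁ (D.R ◁ D.vel p j ≫ μ[D.R]) ≫ μ[D.R] =
      ((α_ D.R D.R _).inv ≫ μ[D.R] ▷ _) ≫ (D.R ◁ D.vel p j ≫ μ[D.R]) := by
    rw [MonoidalCategory.whiskerLeft_comp, Category.assoc, Category.assoc,
      ← whisker_exchange_assoc, MonObj.mul_assoc]
    simp
  obtain ⟨a, ha⟩ := yex2 (tens_dist D.R hC) (μ[D.R] ≫ q) (by
    rw [reassoc_of% hsq, ← Category.assoc (D.R ◁ D.vel p j), hq, comp_zero, comp_zero])
  have hG : ∀ x : (stdEven T).S ((p ^ j : ℤ) - 1) ⟶ D.R ⊗ D.R,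
      _ ◁ q ≫ x ▷ C ≫ (α_ _ _ _).hom ≫ D.R ◁ a = x ▷ D.R ≫ (α_ _ _ _).hom ≫ D.R ◁ (μ[D.R] ≫ q) := by
    intro x
    rw [whisker_exchange_assoc, associator_naturality_right_assoc,
      ← MonoidalCategory.whiskerLeft_comp, ← ha]
  have hL : (D.vel p j ≫ inlM D.R D.R) ▷ D.R ≫ (α_ _ _ _).hom ≫ D.R ◁ (μ[D.R] ≫ q) =
      _ ◁ q ≫ D.vel p j ▷ C := by
    rw [whisker_exchange, comp_whiskerRight, Category.assoc, MonoidalCategory.whiskerLeft_comp]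
    congr 1
    unfold inlM
    rw [comp_whiskerRight, Category.assoc, associator_naturality_middle_assoc,
      ← MonoidalCategory.whiskerLeft_comp_assoc, MonObj.one_mul]
    monoidal
  have hR : (D.vel p j ≫ inrM D.R D.R) ▷ D.R ≫ (α_ _ _ _).hom ≫ D.R ◁ (μ[D.R] ≫ q) = 0 := by
    have h1 : inrM D.R D.R ▷ D.R ≫ (α_ _ _ _).hom = FM.unit D.R (D.R ⊗ D.R) :=
      (unit_tensor D.R D.R).symm
    have h3 : D.vel p j ▷ D.R ≫ μ[D.R] = (β_ _ _).hom ≫ D.R ◁ D.vel p j ≫ μ[D.R] := by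
      rw [← BraidedCategory.braiding_naturality_left_assoc, IsCommMonObj.mul_comm]
    rw [comp_whiskerRight, Category.assoc, reassoc_of% h1, ← FM.unit_naturality, Category.assoc,
      reassoc_of% h3, ← Category.assoc (D.R ◁ D.vel p j), ← Category.assoc (_ ≫ μ[D.R]), hq,
      zero_comp, comp_zero]
  set x := D.vel p j ≫ inlM D.R D.R - D.vel p j ≫ inrM D.R D.R with hx
  have hx' : x ▷ D.R = (D.vel p j ≫ inlM D.R D.R) ▷ D.R - (D.vel p j ≫ inrM D.R D.R) ▷ D.R :=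
    (tensorRight D.R).map_sub
  obtain ⟨g, hg⟩ := yex3 (tens_dist ((stdEven T).S ((p ^ j : ℤ) - 1)) hC)
    (D.vel p j ▷ C - x ▷ C ≫ (α_ _ _ _).hom ≫ D.R ◁ a) (by
      rw [Preadditive.comp_sub, hG, hx', Preadditive.sub_comp, hL, hR, sub_zero, sub_self])
  obtain ⟨g', rfl⟩ := exists_div hp hMo hj hC hU g
  have h1 : tm M (x ▷ C ≫ (α_ _ _ _).hom ≫ D.R ◁ a) = 0 := by
    rw [← Category.assoc, tm_post, tm_tens, tm_vel_sub M hM,
      MonoidalPreadditive.zero_whiskerRight, zero_comp, comp_zero, zero_comp]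
  have hN : (p : ℤ) • 𝟙 N = 0 := (vel_zero_act M).1 (hM 0 hj)
  have hNC : (p : ℤ) • 𝟙 (N ⊗ C) = 0 := by
    have h2 : ((p : ℤ) • 𝟙 N) ▷ C = (p : ℤ) • 𝟙 N ▷ C :=
      (tensorRight C).map_zsmul (f := 𝟙 N) (r := (p : ℤ))
    rw [← id_whiskerRight, ← h2, hN, MonoidalPreadditive.zero_whiskerRight]
  have h2 : tm M (D.vel p j ▷ C) = 0 := by
    have h3 := congrArg (tmHom M _ _) hg
    rw [map_sub, tmHom_apply, tmHom_apply, h1, sub_zero, Preadditive.comp_zsmul, map_zsmul,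
      ← Category.comp_id (tmHom M _ _ _), ← Preadditive.comp_zsmul, hNC, comp_zero] at h3
    exact h3
  rw [tm_whisker] at h2
  have h4 : (N ◁ D.vel p j ≫ ract M) ▷ C = 0 := by
    rw [← cancel_epi (α_ _ _ _).inv, h2, comp_zero]
  change D.vel p j ▷ (N ⊗ C) ≫ (α_ D.R N C).inv ≫ M.act ▷ C = 0
  rw [associator_inv_naturality_left_assoc, ← comp_whiskerRight, act_eq, comp_whiskerRight, h4,
    comp_zero, comp_zero]

end moore

end Vale.Agent.P261Z.T3
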