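import Vale.Agent.P251.X.Small
import Vale.Agent.P251.X.PrC
import Vale.Agent.P251.S.ModTens

/-!
# P261, block T3: the homotopy of a module modulo the kernel of a point

* `MQ E N` : the even homotopy of the module `N` over `R`, as a module over `HRing E R`;
* `Vq c N = MQ E N / (ker χ)`, `Vz c N` : its part in the degrees divisible by `N`.
-/

open CategoryTheory MonoidalCategory Limits Pretriangulated MonObj
open scoped DirectSum

set_option linter.unusedSectionVars false

universe v u

noncomputable section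

namespace Vale.Agent.P261Z.T3

open Vale.Agent.P251 Vale.Agent.P251.T Vale.Agent.P251.M Vale.Agent.P251.M.EvenSpheres
  Vale.Agent.P251.S Vale.Agent.P251.X

section basic

variable {T : Type u} [Category.{v} T] [Preadditive T] [MonoidalCategory T]
  [MonoidalPreadditive T] [SymmetricCategory T] {E : EvenSpheres T} {R : T} [MonObj R]
  {X Y Z : T} {N : ModStr R X} {N' : ModStr R Y} {N'' : ModStr R Z}

/-- The even homotopy of a module. -/
def MQ (E : EvenSpheres T) (_N : ModStr R X) : Type v := HMod E X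

instance : AddCommGroup (MQ E N) := inferInstanceAs (AddCommGroup (HMod E X))

instance : Module (HRing E R) (MQ E N) := hModule N

namespace MQ

/-- The homogeneous elements. -/
def of (E : EvenSpheres T) (N : ModStr R X) (j : ℤ) : (E.S j ⟶ X) →+ MQ E N :=
  DirectSum.of (E.Gr X) j

theorem smul_of {i j k : ℤ} (h : i + j = k) (a : E.S i ⟶ R) (x : E.S j ⟶ X) :
    HRing.of E R i a • of E N j x = of E N k (gsmul N h a x) :=
  of_smul_of N h a x

theorem ind {motive : MQ E N → Prop} (x : MQ E N) (zero : motive 0)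
    (of : ∀ j x, motive (of E N j x)) (add : ∀ x y, motive x → motive y → motive (x + y)) :
    motive x :=
  DirectSum.induction_on (motive := motive) x zero of add

/-- additive maps out of `MQ` -/
def lift {B : Type*} [AddCommGroup B] (f : ∀ j, (E.S j ⟶ X) →+ B) : MQ E N →+ B :=
  DirectSum.toAddMonoid (β := E.Gr X) f

theorem lift_of {B : Type*} [AddCommGroup B] (f : ∀ j, (E.S j ⟶ X) →+ B) (j : ℤ)
    (x : E.S j ⟶ X) : lift f (of E N j x) = f j x :=
  DirectSum.toAddMonoid_of (β := E.Gr X) f j x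

/-- an additive map which is linear on homogeneous elements is linear -/
def mkLin {B : Type*} [AddCommGroup B] [Module (HRing E R) B] (f : MQ E N →+ B)
    (h : ∀ (i j : ℤ) (a : E.S i ⟶ R) (x : E.S j ⟶ X),
      f (of E N (i + j) (gsmul N rfl a x)) = HRing.of E R i a • f (of E N j x)) :
    MQ E N →ₗ[HRing E R] B where
  toFun := f
  map_add' := map_add f
  map_smul' a x := by
    rw [RingHom.id_apply]
    induction a using DirectSum.induction_on with
    | zero => rw [zero_smul, map_zero, zero_smul]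
    | of i a =>
      refine ind (motive := fun x => f (HRing.of E R i a • x) = HRing.of E R i a • f x) x ?_ ?_ ?_
      · rw [smul_zero, map_zero, smul_zero]
      · intro j x
        rw [smul_of (k := i + j) rfl, h]
      · intro x y hx hy
        rw [smul_add, map_add, map_add, hx, hy, smul_add]
    | add a b ha hb => rw [add_smul, map_add, ha, hb, add_smul]

/-- the map induced by a linear map -/
def map (E : EvenSpheres T) (f : X ⟶ Y) (hf : N.IsLinear N' f) :
    MQ E N →ₗ[HRing E R] MQ E N' :=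
  mkLin (lift fun j => (of E N' j).comp (Preadditive.rightComp _ f)) fun i j a x => by
    rw [lift_of, lift_of]
    change of E N' (i + j) (gsmul N rfl a x ≫ f) = HRing.of E R i a • of E N' j (x ≫ f)
    rw [smul_of (k := i + j) rfl, gsmul_comp _ _ hf]

theorem map_of (f : X ⟶ Y) (hf : N.IsLinear N' f) (j : ℤ) (x : E.S j ⟶ X) :
    map E f hf (of E N j x) = of E N' j (x ≫ f) :=
  lift_of (N := N) (fun j => (of E N' j).comp (Preadditive.rightComp _ f)) j x

theorem lin_ext {B : Type*} [AddCommGroup B] [Module (HRing E R) B]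
    {f g : MQ E N →ₗ[HRing E R] B} (h : ∀ j x, f (of E N j x) = g (of E N j x)) (x : MQ E N) :
    f x = g x := by
  refine ind (motive := fun x => f x = g x) x ?_ h ?_
  · rw [map_zero, map_zero]
  · intro x y hx hy
    rw [map_add, map_add, hx, hy]

theorem map_mem {B : Type*} [AddCommGroup B] [Module (HRing E R) B] (I : Ideal (HRing E R))
    {A : Type*} [AddCommGroup A] [Module (HRing E R) A] (f : A →ₗ[HRing E R] B) {x : A}
    (hx : x ∈ I • (⊤ : Submodule (HRing E R) A)) : f x ∈ I • (⊤ : Submodule (HRing E R) B) := by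
  have h1 : f x ∈ (I • (⊤ : Submodule (HRing E R) A)).map f := ⟨x, hx, rfl⟩
  rw [Submodule.map_smul''] at h1
  exact Submodule.smul_mono le_rfl le_top h1

end MQ

variable {p d : ℕ} (c : Pt E R p d)

/-- The homotopy modulo the kernel of the point. -/
def Vq (N : ModStr R X) : Type v := MQ E N ⧸ (c.I • (⊤ : Submodule (HRing E R) (MQ E N)))

instance : AddCommGroup (Vq c N) :=
  inferInstanceAs (AddCommGroup (MQ E N ⧸ (c.I • (⊤ : Submodule (HRing E R) (MQ E N)))))

namespace Vq

variable {c}

/-- the class of an element -/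
def mk (c : Pt E R p d) (N : ModStr R X) : MQ E N →+ Vq c N :=
  (Submodule.mkQ (c.I • (⊤ : Submodule (HRing E R) (MQ E N)))).toAddMonoidHom

theorem mk_surjective : Function.Surjective (mk c N) := Submodule.mkQ_surjective _

theorem mk_eq_zero {x : MQ E N} :
    mk c N x = 0 ↔ x ∈ c.I • (⊤ : Submodule (HRing E R) (MQ E N)) :=
  Submodule.Quotient.mk_eq_zero _

theorem mk_eq {x y : MQ E N} :
    mk c N x = mk c N y ↔ x - y ∈ c.I • (⊤ : Submodule (HRing E R) (MQ E N)) :=
  Submodule.Quotient.eq _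

/-- additive maps out of `Vq` -/
def desc {B : Type*} [AddCommGroup B] (f : MQ E N →+ B)
    (h : ∀ x ∈ c.I • (⊤ : Submodule (HRing E R) (MQ E N)), f x = 0) : Vq c N →+ B :=
  QuotientAddGroup.lift (c.I • (⊤ : Submodule (HRing E R) (MQ E N))).toAddSubgroup f
    fun x hx => h x hx

theorem smul_mem {z : HRing E R} (hz : c.χ z = 0) (x : MQ E N) :
    z • x ∈ c.I • (⊤ : Submodule (HRing E R) (MQ E N)) :=
  Submodule.smul_mem_smul (c.mem_I.2 hz) trivial

theorem nsmul_eq_zero (x : Vq c N) : p • x = 0 := by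
  obtain ⟨x, rfl⟩ := mk_surjective x
  rw [← map_nsmul, mk_eq_zero, ← Nat.cast_smul_eq_nsmul (HRing E R)]
  refine smul_mem ?_ x
  rw [map_natCast]
  exact ZMod.natCast_self p

instance : Module (ZMod p) (Vq c N) := AddCommGroup.zmodModule nsmul_eq_zero

theorem zmod_smul [NeZero p] (a : ZMod p) (x : Vq c N) : a • x = a.val • x := by
  conv_lhs => rw [← ZMod.natCast_zmod_val a]
  exact Nat.cast_smul_eq_nsmul (ZMod p) a.val x

/-- the homotopy ring acts through `χ` -/
theorem mk_smul [NeZero p] (z : HRing E R) (x : MQ E N) :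
    mk c N (z • x) = c.χ z • mk c N x := by
  rw [zmod_smul, ← map_nsmul, mk_eq, ← Nat.cast_smul_eq_nsmul (HRing E R), ← sub_smul]
  refine smul_mem ?_ x
  rw [map_sub, map_natCast, ZMod.natCast_zmod_val, sub_self]

/-- the map induced by a map of modules over the homotopy ring -/
def mapL (c : Pt E R p d) (f : MQ E N →ₗ[HRing E R] MQ E N') : Vq c N →ₗ[ZMod p] Vq c N' :=
  AddMonoidHom.toZModLinearMap p (desc ((mk c N').comp f.toAddMonoidHom)
    (fun _ hx => mk_eq_zero.2 (MQ.map_mem c.I f hx)))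

theorem mapL_mk (f : MQ E N →ₗ[HRing E R] MQ E N') (x : MQ E N) :
    mapL c f (mk c N x) = mk c N' (f x) := rfl

/-- the class of a homogeneous element -/
def cls (c : Pt E R p d) (N : ModStr R X) (j : ℤ) : (E.S j ⟶ X) →+ Vq c N :=
  (mk c N).comp (MQ.of E N j)

theorem cls_eq (j : ℤ) (x : E.S j ⟶ X) : cls c N j x = mk c N (MQ.of E N j x) := rfl

theorem ind {motive : Vq c N → Prop} (x : Vq c N) (zero : motive 0)
    (of : ∀ j x, motive (cls c N j x)) (add : ∀ x y, motive x → motive y → motive (x + y)) :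
    motive x := by
  obtain ⟨x, rfl⟩ := mk_surjective x
  refine MQ.ind (motive := fun x => motive (mk c N x)) x ?_ of ?_
  · rw [map_zero]
    exact zero
  · intro x y hx hy
    rw [map_add]
    exact add _ _ hx hy

theorem hom_ext {B : Type*} [AddCommGroup B] [Module (ZMod p) B]
    {f g : Vq c N →ₗ[ZMod p] B} (h : ∀ j x, f (cls c N j x) = g (cls c N j x)) : f = g := by
  refine LinearMap.ext fun x => ind (motive := fun x => f x = g x) x ?_ h ?_
  · rw [map_zero, map_zero]
  · intro x y hx hy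
    rw [map_add, map_add, hx, hy]

/-- the map induced by a linear map -/
def map (c : Pt E R p d) (f : X ⟶ Y) (hf : N.IsLinear N' f) : Vq c N →ₗ[ZMod p] Vq c N' :=
  mapL c (MQ.map E f hf)

theorem map_cls (f : X ⟶ Y) (hf : N.IsLinear N' f) (j : ℤ) (x : E.S j ⟶ X) :
    map c f hf (cls c N j x) = cls c N' j (x ≫ f) :=
  congrArg (mk c N') (MQ.map_of f hf j x)

theorem map_map (f : X ⟶ Y) (hf : N.IsLinear N' f) (g : Y ⟶ Z) (hg : N'.IsLinear N'' g)
    (x : Vq c N) : map c g hg (map c f hf x) = map c (f ≫ g) (hf.comp hg) x := by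
  refine DFunLike.congr_fun (hom_ext (f := (map c g hg).comp (map c f hf)) fun j x => ?_) x
  rw [LinearMap.comp_apply, map_cls, map_cls, map_cls, Category.assoc]

theorem map_congr {f g : X ⟶ Y} (h : f = g) (hf : N.IsLinear N' f) (hg : N.IsLinear N' g) :
    map c f hf = map c g hg := by
  subst h
  rfl

theorem map_eq_id {f : X ⟶ X} (h : f = 𝟙 X) (hf : N.IsLinear N f) (x : Vq c N) :
    map c f hf x = x := by
  subst h
  refine DFunLike.congr_fun (hom_ext (g := LinearMap.id) fun j x => ?_) x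
  rw [map_cls, Category.comp_id, LinearMap.id_apply]

theorem map_eq_zero {f : X ⟶ Y} (h : f = 0) (hf : N.IsLinear N' f) (x : Vq c N) :
    map c f hf x = 0 := by
  subst h
  refine DFunLike.congr_fun (hom_ext (g := 0) fun j x => ?_) x
  rw [map_cls, comp_zero, map_zero, LinearMap.zero_apply]

variable [IsCommMonObj R]

/-- The projector to the degrees divisible by `d`. -/
def pr (c : Pt E R p d) (N : ModStr R X) : Vq c N →ₗ[ZMod p] Vq c N :=
  AddMonoidHom.toZModLinearMap p
    (desc ((mk c N).comp (prC d 0 X)) fun x hx =>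
      mk_eq_zero.2 (prC_mem N c.χ d (fun j z hj => c.χ_of j hj z) 0 x hx))

theorem pr_cls_dvd {j : ℤ} (hj : (d : ℤ) ∣ j) (x : E.S j ⟶ X) :
    pr c N (cls c N j x) = cls c N j x :=
  congrArg (mk c N) (prC_of_dvd (by rwa [sub_zero]) x)

theorem pr_cls_not {j : ℤ} (hj : ¬ (d : ℤ) ∣ j) (x : E.S j ⟶ X) :
    pr c N (cls c N j x) = 0 :=
  (congrArg (mk c N) (prC_of_not (by rwa [sub_zero]) x)).trans (map_zero _)

theorem pr_pr (x : Vq c N) : pr c N (pr c N x) = pr c N x := by
  refine DFunLike.congr_fun (hom_ext (f := (pr c N).comp (pr c N)) fun j x => ?_) x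
  rw [LinearMap.comp_apply]
  by_cases hj : (d : ℤ) ∣ j
  · rw [pr_cls_dvd hj, pr_cls_dvd hj]
  · rw [pr_cls_not hj, map_zero]

theorem pr_map (f : X ⟶ Y) (hf : N.IsLinear N' f) (x : Vq c N) :
    pr c N' (map c f hf x) = map c f hf (pr c N x) := by
  refine DFunLike.congr_fun (hom_ext (f := (pr c N').comp (map c f hf))
    (g := (map c f hf).comp (pr c N)) fun j x => ?_) x
  rw [LinearMap.comp_apply, LinearMap.comp_apply, map_cls]
  by_cases hj : (d : ℤ) ∣ j
  · rw [pr_cls_dvd hj, pr_cls_dvd hj, map_cls]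
  · rw [pr_cls_not hj, pr_cls_not hj, map_zero]

end Vq

variable [IsCommMonObj R]

/-- The part in the degrees divisible by `d`. -/
def Vz (N : ModStr R X) : Submodule (ZMod p) (Vq c N) := LinearMap.range (Vq.pr c N)

namespace Vz

variable {c}

theorem pr_eq {x : Vq c N} (hx : x ∈ Vz c N) : Vq.pr c N x = x := by
  obtain ⟨y, rfl⟩ := hx
  exact Vq.pr_pr y

theorem map_mem (f : X ⟶ Y) (hf : N.IsLinear N' f) {x : Vq c N} (hx : x ∈ Vz c N) :
    Vq.map c f hf x ∈ Vz c N' := ⟨Vq.map c f hf x, by rw [Vq.pr_map, pr_eq hx]⟩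

/-- the map induced by a linear map -/
def map (c : Pt E R p d) (f : X ⟶ Y) (hf : N.IsLinear N' f) : Vz c N →ₗ[ZMod p] Vz c N' :=
  (Vq.map c f hf).restrict fun _ hx => map_mem f hf hx

theorem coe_map (f : X ⟶ Y) (hf : N.IsLinear N' f) (x : Vz c N) :
    (map c f hf x : Vq c N') = Vq.map c f hf x := rfl

theorem map_map (f : X ⟶ Y) (hf : N.IsLinear N' f) (g : Y ⟶ Z) (hg : N'.IsLinear N'' g)
    (x : Vz c N) : map c g hg (map c f hf x) = map c (f ≫ g) (hf.comp hg) x :=
  Subtype.ext (Vq.map_map (c := c) f hf g hg x.1)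

theorem map_congr {f g : X ⟶ Y} (h : f = g) (hf : N.IsLinear N' f) (hg : N.IsLinear N' g) :
    map c f hf = map c g hg := by
  subst h
  rfl

theorem map_eq_zero {f : X ⟶ Y} (h : f = 0) (hf : N.IsLinear N' f) (x : Vz c N) :
    map c f hf x = 0 := Subtype.ext (Vq.map_eq_zero (c := c) h hf x.1)

theorem bijective_map (f : X ⟶ Y) (hf : N.IsLinear N' f)
    (h : Function.Bijective (Vq.map c f hf)) : Function.Bijective (map c f hf) := by
  refine ⟨fun x y hxy => Subtype.ext (h.1 (congrArg Subtype.val hxy)), fun y => ?_⟩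
  obtain ⟨x, hx⟩ := h.2 y
  refine ⟨⟨Vq.pr c N x, x, rfl⟩, Subtype.ext ?_⟩
  change Vq.map c f hf (Vq.pr c N x) = y
  rw [← Vq.pr_map, hx, pr_eq y.2]

end Vz

theorem small_Vz [LocallySmall.{0} T] (N : ModStr R X) : Small.{0} (Vz c N) := by
  have h : ∀ j : ℤ, Small.{0} (E.Gr X j) := fun j => inferInstanceAs (Small.{0} (E.S j ⟶ X))
  have h2 : Small.{0} (∀ j : ℤ, E.Gr X j) := inferInstance
  have h3 : Small.{0} (MQ E N) := by
    change Small.{0} (DirectSum ℤ (E.Gr X))
    exact small_of_injective (β := ∀ j : ℤ, E.Gr X j)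
      (f := fun (x : DirectSum ℤ (E.Gr X)) j => x j) DFunLike.coe_injective
  have h4 : Small.{0} (Vq c N) := small_of_surjective (Vq.mk_surjective (c := c) (N := N))
  exact small_of_injective (β := Vq c N) (f := fun x : Vz c N => (x : Vq c N))
    Subtype.val_injective

end basic

section theory

variable {T : Type u} [Category.{v} T] [Preadditive T] [HasZeroObject T]
    [HasShift T ℤ] [∀ n : ℤ, (shiftFunctor T n).Additive] [Pretriangulated T] [IsTriangulated T]
    [MonoidalCategory T] [SymmetricCategory T] [TensorTriangulated T] [MonoidalClosed T]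
    [HasCoproducts.{0} T] [HasProducts.{0} T] [StableCat T]
  {E : EvenSpheres T} {R P : T} [MonObj R] {p d : ℕ} [Fact p.Prime] (c : Pt E R p d)
  (M : ModStr R P)

/-- the map induced by `f : X ⟶ Y` -/
def wmap {X Y : T} (f : X ⟶ Y) : Vq c (M.tensorRight X) →ₗ[ZMod p] Vq c (M.tensorRight Y) :=
  Vq.map c (P ◁ f) (M.isLinear_whiskerLeft f)

theorem wmap_cls {X Y : T} (f : X ⟶ Y) (j : ℤ) (x : E.S j ⟶ P ⊗ X) :
    wmap c M f (Vq.cls c _ j x) = Vq.cls c _ j (x ≫ P ◁ f) := Vq.map_cls _ _ _ _

theorem wmap_coprod (hE : ∀ j, IsSphere (E.S j)) {I : Type} [DecidableEq I] (X : I → T) :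
    Function.Bijective (DirectSum.toModule (ZMod p) I (Vq c (M.tensorRight (∐ X)))
      fun i => wmap c M (Sigma.ι X i)) := by
  constructor
  · rw [injective_iff_map_eq_zero]
    intro x hx
    have h1 : ∀ i, (wmap c M (sproj X i)).comp
        (DirectSum.toModule (ZMod p) I (Vq c (M.tensorRight (∐ X)))
          fun i => wmap c M (Sigma.ι X i)) =
        DirectSum.component (ZMod p) I (fun i => Vq c (M.tensorRight (X i))) i := by
      intro i
      apply DirectSum.linearMap_ext
      intro j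
      apply LinearMap.ext
      intro y
      simp only [LinearMap.comp_apply, DirectSum.toModule_lof]
      unfold wmap
      rw [Vq.map_map]
      by_cases h : j = i
      · subst h
        rw [Vq.map_eq_id, DirectSum.component.lof_self]
        rw [← MonoidalCategory.whiskerLeft_comp, ι_sproj_self, whiskerLeft_id]
      · rw [Vq.map_eq_zero, DirectSum.component.of, dif_neg h]
        rw [← MonoidalCategory.whiskerLeft_comp, ι_sproj_ne X h,
          MonoidalPreadditive.whiskerLeft_zero]
    refine DFinsupp.ext fun i => ?_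
    have h2 := DFunLike.congr_fun (h1 i) x
    rw [LinearMap.comp_apply, hx, map_zero] at h2
    exact h2.symm
  · intro y
    refine Vq.ind (motive := fun y => ∃ x, DirectSum.toModule (ZMod p) I
      (Vq c (M.tensorRight (∐ X))) (fun i => wmap c M (Sigma.ι X i)) x = y) y ⟨0, map_zero _⟩ ?_ ?_
    · intro j f
      obtain ⟨s, g, rfl⟩ := compact_sumL P X (hE j) f
      refine ⟨∑ i ∈ s, DirectSum.lof (ZMod p) I (fun i => Vq c (M.tensorRight (X i))) i
        (Vq.cls c _ j (g i)), ?_⟩
      rw [map_sum, map_sum]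
      refine Finset.sum_congr rfl fun i _ => ?_
      rw [DirectSum.toModule_lof, wmap_cls]
    · rintro _ _ ⟨x, rfl⟩ ⟨y, rfl⟩
      exact ⟨x + y, map_add _ _ _⟩

/-- Exactness of `W ↦ Vq c (M ⊗ W)`. -/
def ExactQ : Prop :=
  ∀ {X Y Z : T} {f : X ⟶ Y} {g : Y ⟶ Z} {h : Z ⟶ X⟦(1 : ℤ)⟧},
    Triangle.mk f g h ∈ distTriang T → ∀ y, wmap c M g y = 0 → ∃ x, wmap c M f x = y

/-- The homology theory `W ↦ Vq c (M ⊗ W)`. -/
def totQ (hc : ExactQ c M) (hE : ∀ j, IsSphere (E.S j)) : HomTh.{v} (ZMod p) T where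
  V W := Vq c (M.tensorRight W)
  map f := wmap c M f
  map_id X := LinearMap.ext fun x => Vq.map_eq_id (whiskerLeft_id _ _) _ x
  map_comp f g := LinearMap.ext fun x => by
    unfold wmap
    rw [LinearMap.comp_apply, Vq.map_map, Vq.map_congr (MonoidalCategory.whiskerLeft_comp _ _ _)]
  map_add f g := Vq.hom_ext fun j x => by
    rw [LinearMap.add_apply, wmap_cls, wmap_cls, wmap_cls, ← map_add,
      MonoidalPreadditive.whiskerLeft_add, Preadditive.comp_add]
  exact D y hy := hc D y hy
  coprod X := wmap_coprod c M hE X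

variable [IsCommMonObj R]

/-- **The homology theory `W ↦ Vz c (M ⊗ W)`.** -/
def thQ (hc : ExactQ c M) (hE : ∀ j, IsSphere (E.S j)) : HomTh.{v} (ZMod p) T :=
  (totQ c M hc hE).sub (fun W => Vz c (M.tensorRight W))
    (fun f _ hx => Vz.map_mem (P ◁ f) (M.isLinear_whiskerLeft f) hx)
    (fun W => Vq.pr c (M.tensorRight W)) (fun _ x => ⟨x, rfl⟩) (fun hx => Vz.pr_eq hx)
    (fun f x => Vq.pr_map (P ◁ f) (M.isLinear_whiskerLeft f) x)

end theory

end Vale.Agent.P261Z.T3
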