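import Vale.Agent.P261Z.T3.GCl
import Vale.Agent.P261Z.D.Top

/-!
# P261, T3: the top degree, relative to the class `Cl`
-/

set_option linter.unusedSectionVars false

namespace Vale.Agent.P261Z.T3

open Vale.Agent.P251 Vale.Agent.P251.C Vale.Agent.P261Z.D Vale.Agent.P261Z.D.TopH

variable {G : Type} [Group G] [TopologicalSpace G] {A C I : Type} [AddCommGroup A]
  [DistribMulAction G A] [AddCommGroup C] [DistribMulAction G C] [AddCommGroup I]
  [DistribMulAction G I] {p d : ℕ}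

variable (G) in
/-- Vanishing in degree `d + 1` on the class. -/
def CDc (p d : ℕ) : Prop :=
  ∀ (M : Type) [AddCommGroup M] [DistribMulAction G M] [DiscMod G M],
    (∀ m : M, p • m = 0) → Cl p G M → HZero G M (d + 1)

/-- The cocycles of trace zero. -/
def TrZ (V : Subgroup G) [Finite (G ⧸ V)] (φ : A →+[G] I) (d : ℕ) :
    AddSubgroup ((Fin (d + 1) → G) → A) where
  carrier := {F | ∃ Y ∈ ZZ G (Fn (G ⧸ V) A) d, F - tot G (G ⧸ V) A ∘ Y ∈ BB G A d ∧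
    Fn.map (G ⧸ V) φ ∘ Y ∈ BB G _ d}
  add_mem' := by
    rintro F F' ⟨Y, h1, h2, h3⟩ ⟨Y', h1', h2', h3'⟩
    refine ⟨Y + Y', add_mem h1 h1', ?_, by rw [comp_add_G]; exact add_mem h3 h3'⟩
    rw [comp_add_G, add_sub_add_comm]
    exact add_mem h2 h2'
  zero_mem' := ⟨0, zero_mem _, by rw [comp_zero_G, sub_zero]; exact zero_mem _,
    by rw [comp_zero_G]; exact zero_mem _⟩
  neg_mem' := by
    rintro F ⟨Y, h1, h2, h3⟩
    refine ⟨0 - Y, sub_mem (zero_mem _) h1, ?_, ?_⟩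
    · rw [comp_sub_G, comp_zero_G, zero_sub, neg_sub_neg, ← neg_sub]
      exact neg_mem h2
    · rw [comp_sub_G, comp_zero_G]
      exact sub_mem (zero_mem _) h3

variable (G I) in
/-- the translations act trivially in degree `d` -/
def Rho (V : Subgroup G) [V.Normal] (d : ℕ) : Prop :=
  ∀ X ∈ ZZ G (Fn (G ⧸ V) I) d, ∀ g, rho V I g ∘ X - X ∈ BB G _ d

variable {V : Subgroup G} [Finite (G ⧸ V)]

theorem TrZ.of_bb (φ : A →+[G] I) {F : (Fin (d + 1) → G) → A} (h : F ∈ BB G A d) :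
    F ∈ TrZ V φ d :=
  ⟨0, zero_mem _, by rwa [comp_zero_G, sub_zero], by rw [comp_zero_G]; exact zero_mem _⟩

theorem TrZ.map {φ : A →+[G] I} {φ' : C →+[G] I} (j : A →+[G] C) (e : ∀ a, φ' (j a) = φ a)
    {F : (Fin (d + 1) → G) → A} (h : F ∈ TrZ V φ d) : j ∘ F ∈ TrZ V φ' d := by
  obtain ⟨Y, h1, h2, h3⟩ := h
  refine ⟨_, ZZ.map h1 (Fn.map _ j), ?_, ?_⟩
  · have h4 := BB.map h2 j
    rw [comp_sub_G] at h4
    exact (funext fun x => tot_map j (Y x) : tot G (G ⧸ V) C ∘ Fn.map _ j ∘ Y = _) ▸ h4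
  · rwa [show Fn.map _ φ' ∘ Fn.map _ j ∘ Y = Fn.map _ φ ∘ Y from
      funext fun x => Fn.ext fun c => e _]

variable [IsTopologicalGroup G] [Fact p.Prime]

theorem liftc (hcd : CDc G p d) [DiscMod G A] (hA : ∀ a : A, p • a = 0) (cA : Cl p G A)
    (cC : Cl p G C) (q : A →+[G] C) (hq : Function.Surjective q) {F : (Fin (d + 1) → G) → C}
    (hF : F ∈ ZZ G C d) : ∃ Y ∈ ZZ G A d, q ∘ Y = F :=
  lift_cocycle (Ker.inc q) q (Ker.inc_injective q) hq (Ker.map_inc q) (Ker.exact q)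
    (hcd _ (Ker.nsmul_eq_zero q hA) (cA.ker cC hA q hq)) hF

variable [V.Normal]

theorem keyc (hcd : CDc G p d) [DiscMod G A] (hA : ∀ a : A, p • a = 0) (cA : Cl p G A)
    (hV : IsOpen (V : Set G)) (h : Rho G I V d) (φ : A →+[G] I)
    {Y : (Fin (d + 1) → G) → Fn (G ⧸ V) A} (hY : Y ∈ ZZ G _ d)
    (h0 : tot G (G ⧸ V) A ∘ Y ∈ BB G A d) : Fn.map (G ⧸ V) φ ∘ Y ∈ BB G _ d := by
  have := Fintype.ofFinite (G ⧸ V)
  have : DiscMod G (Fn (G ⧸ V) A) := discMod_FnQ hV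
  have : DiscMod G (G ⧸ V → Fn (G ⧸ V) A) := discMod_pi
  obtain ⟨y, h1, h2⟩ := exact_mid (Ker.inc _) _ (Ker.inc_injective _) tot_surjective (Ker.exact _)
    hY h0
  obtain ⟨X, h3, rfl⟩ := liftc hcd (fun f => funext fun c => Fn.nsmul_eq_zero hA (f c)) cA.fn.pi
    (cA.fn.ker cA (Fn.nsmul_eq_zero hA) _ tot_surjective) (toKer (sig V A) _ (tot_sig V))
    (fun z => by
      obtain ⟨f, hf⟩ := sig_onto V _ (Ker.map_inc _ z)
      exact ⟨f, Ker.inc_injective _ hf⟩) h1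
  have h4 : Fn.map (G ⧸ V) φ ∘ Ker.inc _ ∘ (toKer (sig V A) _ (tot_sig V) ∘ X) =
      ∑ c, (rho V I c.out ∘ (Fn.map (G ⧸ V) φ ∘ prj G _ c ∘ X) -
        Fn.map (G ⧸ V) φ ∘ prj G _ c ∘ X) := funext fun x => by
    rw [Finset.sum_apply]
    exact (map_sum (Fn.map (G ⧸ V) φ) _ _).trans
      (Finset.sum_congr rfl fun c _ => map_sub (Fn.map (G ⧸ V) φ) _ _)
  have h5 := BB.map h2 (Fn.map (G ⧸ V) φ)
  rw [comp_sub_G, h4] at h5
  have h6 := add_mem h5 (sum_mem fun c (_ : c ∈ Finset.univ) =>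
    h _ (ZZ.map (ZZ.map h3 (prj G _ c)) (Fn.map (G ⧸ V) φ)) c.out)
  rwa [sub_add_cancel] at h6

theorem TrZ.reflect (hcd : CDc G p d) [DiscMod G A] [DiscMod G C] (hA : ∀ a : A, p • a = 0)
    (cA : Cl p G A) (hC : ∀ a : C, p • a = 0) (cC : Cl p G C) (hV : IsOpen (V : Set G))
    (h : Rho G I V d) {φ : A →+[G] I} {φ' : C →+[G] I} (j : A →+[G] C) (e : ∀ a, φ' (j a) = φ a)
    {F : (Fin (d + 1) → G) → A} (hF : F ∈ ZZ G A d) (h0 : j ∘ F ∈ TrZ V φ' d) : F ∈ TrZ V φ d := by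
  have : DiscMod G (Fn (G ⧸ V) A) := discMod_FnQ hV
  obtain ⟨Y, hY, rfl⟩ :=
    liftc hcd (Fn.nsmul_eq_zero hA) cA.fn cA (tot G (G ⧸ V) A) tot_surjective hF
  obtain ⟨Y', h1, h2, h3⟩ := h0
  refine ⟨Y, hY, by rw [sub_self]; exact zero_mem _, ?_⟩
  have h4 := add_mem (keyc hcd hC cC hV h φ' (sub_mem (ZZ.map hY (Fn.map _ j)) h1) (by
    rw [comp_sub_G]
    exact (funext fun x => tot_map j (Y x) : tot G (G ⧸ V) C ∘ Fn.map _ j ∘ Y = _) ▸ h2)) h3
  rw [comp_sub_G, sub_add_cancel] at h4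
  rwa [show Fn.map _ φ' ∘ Fn.map _ j ∘ Y = Fn.map _ φ ∘ Y from
    funext fun x => Fn.ext fun c => e _] at h4

variable (G) in
/-- Classes in the top degree are detected by their traces. -/
def Basec (d : ℕ) (χ : G →* (ZMod p)ˣ) (V : Subgroup G) [Finite (G ⧸ V)] : Prop :=
  ∀ (M : Type) [AddCommGroup M] [DistribMulAction G M] [DiscMod G M] [Finite M],
    (∀ m : M, p • m = 0) → Cl p G M → ∀ F ∈ ZZ G M d,
      (∀ φ : M →+[G] Tw χ, F ∈ TrZ V φ d) → F ∈ BB G M d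

theorem topc [CompactSpace G] [T2Space G] [TotallyDisconnectedSpace G] {U : Subgroup G}
    (hU : IsOpen (U : Set G)) (tf : Tf p U) (hcd : CDc G p d) (hT : Top1 G p d U) :
    ∃ χ : G →* (ZMod p)ˣ, IsOpen (χ.ker : Set G) ∧ ∃ (V : Subgroup G) (_ : V.Normal)
      (_ : Finite (G ⧸ V)), IsOpen (V : Set G) ∧ Rho G (Tw χ) V d ∧ Basec G d χ V := by
  by_cases hA : ∀ (V : Subgroup G) [V.Normal], IsOpen (V : Set G) → V ≤ U →
      ZZ G (Fn (G ⧸ V) (Triv G p)) d ≤ BB G _ d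
  · obtain ⟨V₀, _, o₀, u₀, -⟩ := exists_normal_triv U hU (Triv G p)
    refine ⟨1, by simp, V₀, inferInstance, Subgroup.quotient_finite_of_isOpen _ o₀, o₀,
      fun X hX g => hA V₀ o₀ u₀ (sub_mem (ZZ.map hX _) hX), fun M _ _ _ _ hM cM F hF _ => ?_⟩
    obtain ⟨_⟩ : Nonempty (Module (ZMod p) M) := ⟨AddCommGroup.zmodModule hM⟩
    obtain ⟨V, _, h1, h2, h3⟩ := exists_normal_triv U hU M
    have : Finite (G ⧸ V) := Subgroup.quotient_finite_of_isOpen _ h1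
    have : DiscMod G (Fn (G ⧸ V) M) := discMod_FnQ h1
    obtain ⟨Y, hY, rfl⟩ :=
      liftc hcd (Fn.nsmul_eq_zero hM) cM.fn cM (tot G (G ⧸ V) M) tot_surjective hF
    obtain ⟨n, ⟨b⟩⟩ := ex_basis p M
    refine BB.map ?_ _
    rw [comp_dec h3 b Y]
    exact sum_mem fun i _ => BB.map (hA V h1 h2 (ZZ.map hY _)) _
  push Not at hA
  obtain ⟨V₀, _, o₀, u₀, hA⟩ := hA
  have : Finite (G ⧸ V₀) := Subgroup.quotient_finite_of_isOpen _ o₀
  obtain ⟨w₀, z₀, n₀⟩ := SetLike.not_le_iff_exists.1 hA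
  have d₀ := dim (p := p) (hT V₀ o₀ u₀) z₀ n₀
  choose c hc using fun g => d₀ _ (ZZ.map z₀ (rho V₀ (Triv G p) g))
  have c1 : ∀ g ∈ V₀, c g = 1 := fun g hg => uniq n₀ (hc g) (by
    rw [show rho V₀ (Triv G p) g ∘ w₀ = w₀ from funext fun x => rho_mem hg _, one_smul, sub_self]
    exact zero_mem _)
  let χ₀ : G →* ZMod p :=
    { toFun := c
      map_one' := c1 1 V₀.one_mem
      map_mul' := fun g g' => uniq n₀ (hc (g * g')) (by
        have h1 := add_mem (BB.map (hc g') (rho V₀ (Triv G p) g)) (ZMod.smul_mem (hc g) (c g'))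
        rw [comp_sub_G, comp_sc, smul_sub, sub_add_sub_cancel, smul_smul, mul_comm] at h1
        exact (funext fun x => rho_mul g g' (w₀ x) : rho V₀ (Triv G p) (g * g') ∘ w₀ = _) ▸ h1) }
  let χ : G →* (ZMod p)ˣ := χ₀.toHomUnits⁻¹
  have hχ : ∀ g, c g * (χ g : ZMod p) = 1 := fun g => (χ₀.toHomUnits g).mul_inv
  have hk : V₀ ≤ χ.ker := fun g hg => Units.ext (by simpa [c1 g hg] using hχ g)
  have oχ : IsOpen (χ.ker : Set G) := Subgroup.isOpen_mono hk o₀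
  have hI : Tr V₀ (Tw χ) := fun v hv a => (Tw.val χ).injective (by
    rw [Tw.val_smul, MonoidHom.mem_ker.1 (hk hv), Units.val_one, one_mul])
  have hR : Rho G (Tw χ) V₀ d := fun X hX g => by
    obtain ⟨a, ha⟩ := rep hI d₀ hX
    have h4 := rho_JJ hI (hc g) a
    rw [show c g • g • a = a from (valL χ).injective (by
      change c g * (χ g * valL χ a) = _
      rw [← mul_assoc, hχ, one_mul])] at h4
    have h5 := sub_mem (add_mem (BB.map ha (rho V₀ (Tw χ) g)) h4) ha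
    rwa [comp_sub_G, sub_add_sub_cancel, sub_sub_sub_cancel_right] at h5
  refine ⟨χ, oχ, V₀, inferInstance, inferInstance, o₀, hR, fun M _ _ _ _ hM cM F hF hφ => ?_⟩
  obtain ⟨_⟩ : Nonempty (Module (ZMod p) M) := ⟨AddCommGroup.zmodModule hM⟩
  obtain ⟨V, _, h1, h2, h3⟩ := exists_normal_triv V₀ o₀ M
  have : Finite (G ⧸ V) := Subgroup.quotient_finite_of_isOpen _ h1
  have : DiscMod G (Fn (G ⧸ V) M) := discMod_FnQ h1
  have : DiscMod G (Fn (G ⧸ V) (Triv G p)) := discMod_FnQ h1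
  obtain ⟨w, z, e⟩ := liftc hcd (Fn.nsmul_eq_zero (Tw.nsmul_eq_zero _)) (Cl.quot tf (h2.trans u₀))
    (Cl.quot tf u₀) (pushQ h2 (Triv G p)) (pushQ_surjective h2) z₀
  have n : w ∉ BB G _ d := fun h => n₀ (e ▸ BB.map h _)
  have dm := dim (p := p) (hT V h1 (h2.trans u₀)) z n
  have hw : ∀ g, rho V (Triv G p) g ∘ w - c g • w ∈ BB G _ d := fun g => by
    obtain ⟨a, ha⟩ := dm _ (ZZ.map z (rho V (Triv G p) g))
    have h4 := BB.map ha (pushQ h2 (Triv G p))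
    rw [comp_sub_G, comp_sc, e, show pushQ h2 (Triv G p) ∘ rho V (Triv G p) g ∘ w =
      rho V₀ (Triv G p) g ∘ pushQ h2 (Triv G p) ∘ w from funext fun x => push_rho h2 g _, e] at h4
    rwa [uniq n₀ (hc g) h4]
  obtain ⟨Y, hY, rfl⟩ :=
    liftc hcd (Fn.nsmul_eq_zero hM) cM.fn cM (tot G (G ⧸ V) M) tot_surjective hF
  obtain ⟨m, hm⟩ := rep h3 dm hY
  let N : Submodule (ZMod p) M :=
    { carrier := {m | tot G (G ⧸ V) M ∘ JJ h3 w m ∈ BB G M d}
      zero_mem' := by simp only [Set.mem_ofPred_eq, map_zero, comp_zero_G, zero_mem]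
      add_mem' := fun k k' => by
        simpa only [Set.mem_ofPred_eq, map_add, comp_add_G] using add_mem k k'
      smul_mem' := fun a _ k => by
        simpa only [Set.mem_ofPred_eq, map_smul, comp_sc] using ZMod.smul_mem k a }
  have hm' := BB.map hm (tot G (G ⧸ V) M)
  rw [comp_sub_G] at hm'
  by_cases hN : m ∈ N
  · simpa using add_mem hm' hN
  exfalso
  obtain ⟨l, l1, l2⟩ := N.exists_dual_map_eq_bot_of_notMem hN inferInstance
  have l3 : ∀ (g : G) (x : M), l (g • x) = χ g * l x := fun g x => by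
    have h4 := BB.map (rho_JJ h3 (hw g) x) (tot G (G ⧸ V) M)
    rw [comp_sub_G, show tot G (G ⧸ V) M ∘ rho V M g ∘ JJ h3 w x = tot G (G ⧸ V) M ∘ JJ h3 w x from
      funext fun y => tot_rho g _, ← comp_sub_G, ← map_sub] at h4
    have h5 : l (x - c g • g • x) = 0 := (Submodule.eq_bot_iff _).1 l2 _ ⟨_, h4, rfl⟩
    rw [map_sub, map_smul, smul_eq_mul, sub_eq_zero] at h5
    rw [h5, ← mul_assoc, mul_comm _ (c g), hχ, one_mul]
  let φ : M →+[G] Tw χ :=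
    { toFun := fun x => (valL χ).symm (l x)
      map_smul' := l3
      map_zero' := map_zero l
      map_add' := map_add l }
  obtain ⟨Y', k0, k1, k2⟩ := hφ φ
  have k3 := add_mem (keyc hcd hM cM o₀ hR φ
    (sub_mem (ZZ.map (ZZ.map z (jm h3 m)) (pushQ h2 M)) k0) (by
      have h4 := sub_mem k1 hm'
      rw [sub_sub_sub_cancel_left] at h4
      rw [comp_sub_G]
      exact (funext fun x => tot_pushQ h2 _ :
        tot G (G ⧸ V₀) M ∘ pushQ h2 M ∘ jm h3 m ∘ w = _) ▸ h4)) k2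
  rw [comp_sub_G, sub_add_cancel] at k3
  have k4 := BB.map k3 (kap hI ((l m)⁻¹ • (valL χ).toLinearMap))
  have k5 : kap hI ((l m)⁻¹ • (valL χ).toLinearMap) ∘ Fn.map (G ⧸ V₀) φ ∘ pushQ h2 M ∘ jm h3 m ∘ w =
      pushQ h2 (Triv G p) ∘ w := funext fun y => by
    classical
    have := Fintype.ofFinite (G ⧸ V)
    have h6 : Fn.map (G ⧸ V₀) φ (pushQ h2 M (jm h3 m (w y))) =
        pushQ h2 _ (Fn.map (G ⧸ V) φ (jm h3 m (w y))) := Fn.ext fun x => by
      rw [Fn.map_apply, pushQ, pushQ, push_apply, push_apply, map_sum]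
      refine Finset.sum_congr rfl fun b _ => ?_
      split_ifs
      · rfl
      · exact map_zero φ
    simp only [Function.comp_apply]
    rw [h6, map_jm h3 (hI.mono h2), push_jm hI h2]
    exact kap_jm hI ((l m)⁻¹ • (valL χ).toLinearMap) (m := φ m) (inv_mul_cancel₀ l1) _
  exact n₀ (e ▸ k5 ▸ k4)

end Vale.Agent.P261Z.T3
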