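import Vale.Agent.P251.C.Main

/-!
# P261, T3: uniform groups at every prime

`IsUnifS p d U`: coordinates with `x * y = x + y + p ^ 2 B(x, y)`. Such groups have the weighted
filtration and the finite resolution of part C of P251 at every prime `p`.
-/

open Function

namespace Vale.Agent.P261Z.T3

open Vale.Agent.P251 Vale.Agent.P251.C Vale.Agent.P251.I Vale.Agent.P251.C.Unif

/-- Coordinates with `x * y = x + y + p ^ 2 B(x, y)`. -/
def IsUnifS (p d : ℕ) [Fact p.Prime] (U : Type*) [Group U] [TopologicalSpace U] : Prop :=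
  ∃ (B : (Fin d → ℤ_[p]) →ₗ[ℤ_[p]] (Fin d → ℤ_[p]) →ₗ[ℤ_[p]] (Fin d → ℤ_[p]))
    (e : U ≃ₜ (Fin d → ℤ_[p])),
    ∀ x y : U, e (x * y) = e x + e y + (p : ℤ_[p]) ^ 2 • B (e x) (e y)

section lev

variable {p d : ℕ} [Fact p.Prime] {U : Type*} [Group U] [TopologicalSpace U]

theorem IsUnifS.exists (h : IsUnifS p d U) :
    ∃ (B : (Fin d → ℤ_[p]) →ₗ[ℤ_[p]] (Fin d → ℤ_[p]) →ₗ[ℤ_[p]] (Fin d → ℤ_[p]))
      (e : U ≃ₜ (Fin d → ℤ_[p])),
      (∀ x y : U, e (x * y) = e x + e y + (p : ℤ_[p]) • B (e x) (e y)) ∧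
      ∀ l m v w, v ∈ P p d l → w ∈ P p d m → B v w ∈ P p d (l + m + 1) := by
  obtain ⟨B, e, he⟩ := h
  refine ⟨(p : ℤ_[p]) • B, e, fun x y => ?_, fun l m v w hv hw => p_smul_P (B_both B hv hw)⟩
  rw [he, LinearMap.smul_apply, LinearMap.smul_apply, smul_smul, pow_two]

theorem IsUnifS.isUnif (h : IsUnifS p d U) : IsUnif p d U :=
  let ⟨B, e, he, _⟩ := h.exists
  ⟨B, e, he⟩

theorem IsUnifS.of_equiv {V : Type*} [Group V] [TopologicalSpace V] (h : IsUnifS p d U)
    (φ : V ≃* U) (h1 : Continuous φ) (h2 : Continuous φ.symm) : IsUnifS p d V := by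
  obtain ⟨B, e, he⟩ := h
  refine ⟨B, (Homeomorph.mk φ.toEquiv h1 h2).trans e, fun x y => ?_⟩
  have := he (φ x) (φ y)
  rw [← map_mul] at this
  exact this

variable {B : (Fin d → ℤ_[p]) →ₗ[ℤ_[p]] (Fin d → ℤ_[p]) →ₗ[ℤ_[p]] (Fin d → ℤ_[p])}
  {e : U ≃ₜ (Fin d → ℤ_[p])}
  (he : ∀ x y : U, e (x * y) = e x + e y + (p : ℤ_[p]) • B (e x) (e y))
include he

theorem lev_commS (hB : ∀ l m v w, v ∈ P p d l → w ∈ P p d m → B v w ∈ P p d (l + m + 1))
    {l m : ℕ} {x y : U} (hx : x ∈ Lev he l) (hy : y ∈ Lev he m) :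
    x * y * x⁻¹ * y⁻¹ ∈ Lev he (l + m + 1 + 1) := by
  set c := x * y * x⁻¹ * y⁻¹ with hc
  have h1 : c * (y * x) = x * y := by
    rw [hc]; group
  have h2 := he c (y * x)
  rw [h1, he x y, he y x] at h2
  rw [mem_Lev]
  apply step_left B (z := e y + e x + (p : ℤ_[p]) • B (e y) (e x))
  have h3 : e c + (p : ℤ_[p]) • B (e c) (e y + e x + (p : ℤ_[p]) • B (e y) (e x)) =
      (p : ℤ_[p]) • (B (e x) (e y) - B (e y) (e x)) := by
    rw [smul_sub]
    linear_combination (exp := 1) -h2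
  rw [h3]
  exact p_smul_P ((P p d _).sub_mem (hB _ _ _ _ hx hy)
    (by rw [add_comm l m]; exact hB _ _ _ _ hy hx))

theorem e_pow_pS (hB : ∀ l m v w, v ∈ P p d l → w ∈ P p d m → B v w ∈ P p d (l + m + 1))
    {l : ℕ} {x : U} (hx : x ∈ Lev he l) :
    e (x ^ p) - (p : ℤ_[p]) • e x ∈ P p d (l + 2) := by
  have h1 := P_anti (show l + 2 ≤ 3 * l + 2 by omega) (e_pow he hx p)
  have h2 : ((p.choose 2 : ℕ) : ℤ_[p]) • (p : ℤ_[p]) • B (e x) (e x) ∈ P p d (l + 2) :=
    (P p d _).smul_mem _ (P_anti (by omega) (p_smul_P (hB _ _ _ _ hx hx)))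
  have h5 := (P p d (l + 2)).add_mem h1 h2
  convert h5 using 1
  abel

/-- `p^j`-th powers, at the first order -/
theorem e_pow_powS (hp : ∀ l, ∀ x ∈ Lev he l, e (x ^ p) - (p : ℤ_[p]) • e x ∈ P p d (l + 2))
    (x : U) (j : ℕ) :
    e (x ^ p ^ j) - (p : ℤ_[p]) ^ j • e x ∈ P p d (j + 1) := by
  induction j with
  | zero => simp
  | succ j ih =>
    have hx : x ^ p ^ j ∈ Lev he j := by
      rw [mem_Lev]
      have h2 := (P p d j).add_mem (P_anti (Nat.le_succ j) ih)
        (show (p : ℤ_[p]) ^ j • e x ∈ P p d j from ⟨e x, rfl⟩)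
      rwa [sub_add_cancel] at h2
    have h1 := hp _ _ hx
    rw [← pow_mul, ← pow_succ] at h1
    have h2 := (P p d (j + 2)).add_mem h1 (p_smul_P ih)
    convert h2 using 1
    rw [smul_sub, ← mul_smul, ← pow_succ']
    abel

theorem pow_pow_memS (hp : ∀ l, ∀ x ∈ Lev he l, e (x ^ p) - (p : ℤ_[p]) • e x ∈ P p d (l + 2))
    (x : U) (j : ℕ) : x ^ p ^ j ∈ Lev he j := by
  rw [mem_Lev]
  have h2 := (P p d j).add_mem (P_anti (Nat.le_succ j) (e_pow_powS he hp x j))
    (show (p : ℤ_[p]) ^ j • e x ∈ P p d j from ⟨e x, rfl⟩)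
  rwa [sub_add_cancel] at h2

/-- generation of the levels -/
theorem gen_levS (hp : ∀ l, ∀ x ∈ Lev he l, e (x ^ p) - (p : ℤ_[p]) • e x ∈ P p d (l + 2))
    (j : ℕ) : Lev he j ≤
    Subgroup.closure {y | ∃ i : Fin d, y = (e.symm (Pi.single i 1)) ^ p ^ j} ⊔ Lev he (j + 1) := by
  classical
  intro x hx
  obtain ⟨v, hv⟩ := hx
  -- natural number representatives
  have h1 : ∀ i, ∃ a : ℕ, ∃ c : ℤ_[p], v i = a + p * c := by
    intro i
    refine ⟨(PadicInt.toZMod (v i)).val, ?_⟩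
    have h2 : v i - ((PadicInt.toZMod (v i)).val : ℤ_[p]) ∈
        RingHom.ker (PadicInt.toZMod (p := p)) := by
      rw [RingHom.mem_ker, map_sub, map_natCast, ZMod.natCast_zmod_val, sub_self]
    rw [PadicInt.ker_toZMod, PadicInt.maximalIdeal_eq_span_p, Ideal.mem_span_singleton] at h2
    obtain ⟨c, hc⟩ := h2
    exact ⟨c, by rw [← hc]; ring⟩
  choose a c hac using h1
  let f : Fin d → U := fun i => ((e.symm (Pi.single i 1)) ^ p ^ j) ^ a i
  have hf : ∀ i, f i ∈ Lev he j := fun i =>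
    (Lev he j).pow_mem (pow_pow_memS he hp _ j) _
  have h3 := e_prod_sub he (List.finRange d) f hf
  have h4 : ∀ i, e (f i) - (p : ℤ_[p]) ^ j • (a i : ℤ_[p]) • (Pi.single i 1 : Fin d → ℤ_[p]) ∈
      P p d (j + 1) := by
    intro i
    have h5 := e_pow_sub he (pow_pow_memS he hp (e.symm (Pi.single i 1)) j) (a i)
    have h6 := e_pow_powS he hp (e.symm (Pi.single i 1)) j
    have h7 := (P p d (j + 1)).add_mem h5 ((P p d (j + 1)).smul_mem (a i : ℤ_[p]) h6)
    convert h7 using 1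
    simp only [Homeomorph.apply_symm_apply, f]
    module
  have h8 : ((List.finRange d).map fun i => e (f i)).sum - (p : ℤ_[p]) ^ j • v ∈
      P p d (j + 1) := by
    have h9 : ((List.finRange d).map fun i => e (f i)).sum = ∑ i, e (f i) := by
      rw [← List.sum_ofFn, List.ofFn_eq_map]
    have h10 : v = ∑ i, (a i : ℤ_[p]) • (Pi.single i 1 : Fin d → ℤ_[p]) +
        (p : ℤ_[p]) • c := by
      funext k
      simp [hac, Finset.sum_apply, Pi.single_apply]
    rw [h9]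
    have h11 : ∑ i, e (f i) - (p : ℤ_[p]) ^ j • v = ∑ i, (e (f i) -
        (p : ℤ_[p]) ^ j • (a i : ℤ_[p]) • (Pi.single i 1 : Fin d → ℤ_[p])) -
        (p : ℤ_[p]) ^ (j + 1) • c := by
      rw [Finset.sum_sub_distrib, ← Finset.smul_sum]
      conv_lhs => rw [h10]
      module
    rw [h11]
    exact (P p d (j + 1)).sub_mem ((P p d (j + 1)).sum_mem fun i _ => h4 i)
      (mem_P.2 ⟨c, rfl⟩)
  set y := ((List.finRange d).map f).prod with hy
  have h12 : e x - e y ∈ P p d (j + 1) := by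
    have h13 := (P p d (j + 1)).add_mem h3.2 h8
    have h14 := (P p d (j + 1)).neg_mem h13
    convert h14 using 1
    rw [hv]
    abel
  have h15 : y⁻¹ * x ∈ Lev he (j + 1) := inv_mul_mem he h12
  have h16 : y ∈ Subgroup.closure {y | ∃ i : Fin d, y = (e.symm (Pi.single i 1)) ^ p ^ j} := by
    apply Subgroup.list_prod_mem
    intro z hz
    obtain ⟨i, _, rfl⟩ := List.mem_map.1 hz
    have h18 : (e.symm (Pi.single i 1)) ^ p ^ j ∈
        Subgroup.closure {y | ∃ i : Fin d, y = (e.symm (Pi.single i 1)) ^ p ^ j} :=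
      Subgroup.subset_closure ⟨i, rfl⟩
    exact Subgroup.pow_mem _ h18 _
  have h17 : x = y * (y⁻¹ * x) := by group
  rw [h17]
  exact Subgroup.mul_mem_sup h16 h15

end lev

/-- The weighted filtration of a uniform group. -/
theorem exists_npDataS {p d : ℕ} [Fact p.Prime] {U : Type*} [Group U]
    [TopologicalSpace U] (h : IsUnifS p d U) : ∃ D : NpData p d U,
      (∀ M, IsOpen (D.P M : Set U)) ∧ ∀ V ∈ nhds (1 : U), ∃ M, (D.P M : Set U) ⊆ V := by
  obtain ⟨B, e, he, hB⟩ := h.exists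
  have hp := fun l x hx => e_pow_pS he hB (l := l) (x := x) hx
  have hp1 : 1 < p := (Fact.out : p.Prime).one_lt
  have hp3 : 2 * 2 ≤ p * p := Nat.mul_le_mul hp1 hp1
  have hsucc : ∀ m, 1 ≤ m → (¬ ∃ j, p ^ j = m) → Nat.clog p (m + 1) = Nat.clog p m := by
    intro m hm hne
    apply le_antisymm
    · apply (Nat.clog_le_iff_le_pow hp1).2
      have h1 : m ≤ p ^ Nat.clog p m := Nat.le_pow_clog hp1 m
      have h2 : m ≠ p ^ Nat.clog p m := fun h => hne ⟨_, h.symm⟩
      omega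
    · exact Nat.clog_mono_right _ (Nat.le_succ m)
  have hsuccp : ∀ j, Nat.clog p (p ^ j + 1) = j + 1 := by
    intro j
    apply le_antisymm
    · apply (Nat.clog_le_iff_le_pow hp1).2
      rw [pow_succ]
      have : 1 ≤ p ^ j := Nat.one_le_pow _ _ (by omega)
      nlinarith
    · apply Nat.succ_le_of_lt
      rw [Nat.lt_clog_iff_pow_lt hp1]
      omega
  refine ⟨{
    P := fun m => Unif.Lev he (Nat.clog p m)
    P_one := by simp [Unif.lev_zero]
    anti := fun a b hab => Unif.lev_anti he (Nat.clog_mono_right p hab)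
    comm' := ?_
    g := fun i => e.symm (Pi.single i 1)
    wt := fun _ => 1
    wt_pos := fun _ => one_pos
    g_mem := fun i j => ?_
    gen := fun m hm => ?_
    index := fun m hm => ?_ }, ?_, ?_⟩
  · intro a b ha hb
    rw [Subgroup.commutator_le]
    intro x hx y hy
    rw [commutatorElement_def]
    refine Unif.lev_anti he ?_ (lev_commS he hB hx hy)
    apply (Nat.clog_le_iff_le_pow hp1).2
    have h1 : a ≤ p ^ Nat.clog p a := Nat.le_pow_clog hp1 a
    have h2 : b ≤ p ^ Nat.clog p b := Nat.le_pow_clog hp1 b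
    rw [pow_succ, pow_succ, pow_add, mul_assoc]
    set A := p ^ Nat.clog p a
    set C := p ^ Nat.clog p b
    have hA : 1 ≤ A := ha.trans h1
    have hC : 1 ≤ C := hb.trans h2
    nlinarith [Nat.mul_le_mul hA hC, Nat.mul_le_mul_left (A * C) hp3]
  · have := pow_pow_memS he hp (e.symm (Pi.single i 1)) j
    rw [mul_one, Nat.clog_pow p j hp1]
    exact this
  · by_cases hex : ∃ j, p ^ j = m
    · obtain ⟨j, rfl⟩ := hex
      rw [hsuccp, Nat.clog_pow p j hp1]
      refine (gen_levS he hp j).trans (sup_le_sup_right (Subgroup.closure_mono ?_) _)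
      rintro y ⟨i, rfl⟩
      exact ⟨i, j, by ring, rfl⟩
    · rw [hsucc m hm hex]
      exact le_sup_right
  · by_cases hex : ∃ j, p ^ j = m
    · obtain ⟨j, rfl⟩ := hex
      have h1 : {i : Fin d | ∃ j', p ^ j' * 1 = p ^ j} = Set.univ :=
        Set.eq_univ_of_forall fun i => ⟨j, mul_one _⟩
      rw [hsuccp, Nat.clog_pow p j hp1, Unif.relIndex_lev, h1, Set.ncard_univ, Nat.card_fin]
    · have h1 : {i : Fin d | ∃ j', p ^ j' * 1 = m} = ∅ := by
        apply Set.eq_empty_of_forall_notMem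
        rintro i ⟨j, hj⟩
        exact hex ⟨j, by rw [← hj, mul_one]⟩
      rw [hsucc m hm hex, h1, Set.ncard_empty, pow_zero, Subgroup.relIndex_self]
  · intro M
    exact Unif.isOpen_lev he _
  · intro V hV
    obtain ⟨l, hl⟩ := Unif.exists_lev_subset he hV
    refine ⟨p ^ l, ?_⟩
    change (Unif.Lev he (Nat.clog p (p ^ l)) : Set U) ⊆ V
    rw [Nat.clog_pow p l hp1]
    exact hl

/-- The resolution of length `d`. -/
theorem exists_resDataS {p d : ℕ} [Fact p.Prime] {U : Type*} [Group U]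
    [TopologicalSpace U] [IsTopologicalGroup U] [CompactSpace U] (h : IsUnifS p d U) :
    ∃ ρ : ResData (ZMod p) (NpData.KX d U), Equi ρ U ∧ ∀ x, ρ.deg x ≤ d := by
  obtain ⟨D, h1, h2⟩ := exists_npDataS h
  have hD : D.IsTop := ⟨h1, h2⟩
  obtain ⟨ρ, hρ, hdeg⟩ := hD.exists_resData
  refine ⟨ρ, hρ, fun x => ?_⟩
  rw [hdeg]
  have := Finset.card_le_univ x.1
  rwa [Fintype.card_fin] at this

theorem hasResS {p d : ℕ} [Fact p.Prime] {U : Type} [Group U] [TopologicalSpace U]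
    [IsTopologicalGroup U] (h : IsUnifS p d U) : HasRes p d U := by
  obtain ⟨B, e, -⟩ := id h
  have : CompactSpace U := e.symm.compactSpace
  have : T2Space U := e.symm.t2Space
  have : TotallyDisconnectedSpace U := e.symm.totallyDisconnectedSpace
  obtain ⟨ρ, hρ, hd⟩ := exists_resDataS h
  exact ⟨NpData.KX d U, inferInstance, inferInstance, inferInstance, inferInstance, inferInstance,
    inferInstance, ρ, hρ, hd, fun u z => NpData.free_KX u z⟩

end Vale.Agent.P261Z.T3
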