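import Vale.Agent.P251.Z.KFree

/-!
# P261, T3: algebra for Morava `K`-theory as a module

* `exists_chi` : a module `M` over a commutative ring `H` which is `𝔽_p[v, v⁻¹]` on a generator is
  free of rank one over `A = 𝔽_p[X, X⁻¹]`, and `H` acts through a ring map `χ : H ⟶ A`.
* `exists_Theta` : the same for the module `M[b_0, b_1, …]` over `H[b_0, b_1, …]`.
-/

namespace Vale.Agent.P261Z.T3

open Vale.Agent.P251.Z Polynomial

section rank

variable {p : ℕ} [Fact p.Prime] (A : Type*) [CommRing A] [Algebra (Polynomial (ZMod p)) A]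
  [IsLocalization.Away (Polynomial.X : Polynomial (ZMod p)) A]
  {H : Type*} [CommRing H] {M : Type*} [AddCommGroup M] [Module H M]

/-- the scalars as central endomorphisms -/
noncomputable def toCenter (H M : Type*) [CommRing H] [AddCommGroup M] [Module H M] :
    H →+* Subring.center (Module.End H M) :=
  (algebraMap H (Module.End H M)).codRestrict _ fun r => by
    rw [Subring.mem_center_iff]
    intro g
    exact (Algebra.commutes r g).symm

theorem toCenter_apply (r : H) (y : M) : (toCenter H M r : Module.End H M) y = r • y := rfl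

theorem isUnit_toCenter {v : H} (hv : Function.Bijective fun y : M => v • y) :
    IsUnit (toCenter H M v) := by
  let e : M ≃ₗ[H] M := LinearEquiv.ofBijective (algebraMap H (Module.End H M) v) hv
  have h1 : ∀ y, v • e.symm y = y := fun y => e.apply_symm_apply y
  refine IsUnit.of_mul_eq_one ⟨(e.symm : Module.End H M), ?_⟩ ?_
  · rw [Subring.mem_center_iff]
    intro g
    ext y
    apply hv.1
    change v • g (e.symm y) = v • e.symm (g y)
    rw [← map_smul, h1, h1]
  · ext y
    exact h1 y

theorem exists_chi (v : H) (hv : Function.Bijective fun y : M => v • y)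
    (hp : ∀ y : M, (p : H) • y = 0) (γ : M)
    (span : ∀ y : M, ∃ (k : ℕ) (f : Polynomial ℤ), v ^ k • y = aeval v f • γ)
    (indep : ∀ f : Polynomial ℤ, aeval v f • γ = 0 → ∀ i, (p : ℤ) ∣ f.coeff i) :
    ∃ (χ : H →+* A) (θ : A →+ M), Function.Bijective θ ∧ (∀ r a, θ (χ r * a) = r • θ a) ∧
      χ v = algebraMap (Polynomial (ZMod p)) A Polynomial.X := by
  have hL : (p : Subring.center (Module.End H M)) = 0 := by
    rw [← map_natCast (toCenter H M)]
    ext y
    exact hp y
  obtain ⟨ψ, hψ⟩ := exists_hom_of_unit (A := A) p hL (isUnit_toCenter hv)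
  let θ : A →+ M :=
    { toFun := fun a => (ψ a : Module.End H M) γ
      map_zero' := by rw [map_zero]; rfl
      map_add' := fun a b => by rw [map_add]; rfl }
  have hθ : ∀ a b, θ (a * b) = (ψ a : Module.End H M) (θ b) := fun a b => by
    change (ψ (a * b) : Module.End H M) γ = _
    rw [map_mul]
    rfl
  have hs : ∀ (r : H) a, r • θ a = (ψ a : Module.End H M) (r • γ) := fun r a =>
    (map_smul (ψ a : Module.End H M) r γ).symm
  have hf : ∀ f : Polynomial ℤ, ψ (algebraMap (Polynomial (ZMod p)) A
      (f.map (Int.castRingHom (ZMod p)))) = toCenter H M (aeval v f) := by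
    have h1 : (ψ.comp (algebraMap (Polynomial (ZMod p)) A)).comp
        (mapRingHom (Int.castRingHom (ZMod p))) =
        (toCenter H M).comp (aeval v : Polynomial ℤ →ₐ[ℤ] H).toRingHom := by
      refine Polynomial.ringHom_ext' (Subsingleton.elim _ _) ?_
      simp only [RingHom.comp_apply, coe_mapRingHom, Polynomial.map_X, hψ]
      congr 1
      exact (aeval_X v).symm
    exact fun f => congrFun (congrArg DFunLike.coe h1) f
  have hX : ∀ (k : ℕ) a, θ (algebraMap (Polynomial (ZMod p)) A Polynomial.X ^ k * a) =
      v ^ k • θ a := fun k a => by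
    rw [hθ, map_pow, hψ, ← map_pow]
    rfl
  have hvk : ∀ k : ℕ, Function.Injective fun y : M => v ^ k • y := by
    intro k
    induction k with
    | zero => intro x y h; simpa using h
    | succ k ih =>
      intro x y h
      apply ih
      apply hv.1
      simpa only [pow_succ', mul_smul] using h
  have hθf : ∀ f : Polynomial ℤ, θ (algebraMap (Polynomial (ZMod p)) A
      (f.map (Int.castRingHom (ZMod p)))) = aeval v f • γ := fun f => by
    change (ψ _ : Module.End H M) γ = _
    rw [hf]
    rfl
  have hu : IsUnit (algebraMap (Polynomial (ZMod p)) A Polynomial.X) :=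
    IsLocalization.Away.algebraMap_isUnit _
  have hb : Function.Bijective θ := by
    constructor
    · rw [injective_iff_map_eq_zero]
      intro a ha
      obtain ⟨k, f, hkf⟩ := IsLocalization.Away.surj (S := A)
        (Polynomial.X : Polynomial (ZMod p)) a
      obtain ⟨f, rfl⟩ := Polynomial.map_surjective (Int.castRingHom (ZMod p))
        (ZMod.intCast_surjective) f
      have h1 : aeval v f • γ = 0 := by
        rw [← hθf, ← hkf, mul_comm, hX, ha, smul_zero]
      have h2 : f.map (Int.castRingHom (ZMod p)) = 0 := by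
        ext i
        rw [coeff_map, coeff_zero]
        exact (ZMod.intCast_zmod_eq_zero_iff_dvd _ _).2 (indep f h1 i)
      rw [h2, map_zero] at hkf
      exact ((hu.pow k).mul_left_eq_zero).1 hkf
    · intro y
      obtain ⟨k, f, hkf⟩ := span y
      obtain ⟨w, hw⟩ := (hu.pow k).exists_right_inv
      refine ⟨w * algebraMap (Polynomial (ZMod p)) A (f.map (Int.castRingHom (ZMod p))), ?_⟩
      apply hvk k
      change v ^ k • θ _ = v ^ k • y
      rw [← hX, ← mul_assoc, hw, one_mul, hθf, hkf]
  let e : A ≃+ M := AddEquiv.ofBijective θ hb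
  have he : ∀ y, θ (e.symm y) = y := fun y => e.apply_symm_apply y
  have key : ∀ (r : H) a, θ (e.symm (r • γ) * a) = r • θ a := fun r a => by
    rw [mul_comm, hθ, he, hs]
  have h1 : θ 1 = γ := by
    change (ψ 1 : Module.End H M) γ = γ
    rw [map_one]
    rfl
  let χ : H →+* A :=
    { toFun := fun r => e.symm (r • γ)
      map_one' := hb.1 (by rw [he, one_smul, h1])
      map_mul' := fun r s => hb.1 (by rw [key, he, he, mul_smul])
      map_zero' := hb.1 (by rw [he, zero_smul, map_zero])
      map_add' := fun r s => hb.1 (by rw [map_add, he, he, he, add_smul]) }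
  refine ⟨χ, θ, hb, key, hb.1 ?_⟩
  have h2 := hX 1 1
  rw [pow_one, pow_one, mul_one, h1] at h2
  rw [h2]
  exact he _

end rank

section poly

variable {H A M Y : Type*} [CommRing H] [CommRing A] [AddCommGroup M] [Module H M]
  [AddCommGroup Y] [Module (MvPolynomial ℕ H) Y]

theorem exists_Theta (j : M →+ Y) (hj : ∀ (r : H) x, j (r • x) = (MvPolynomial.C r :
      MvPolynomial ℕ H) • j x)
    (f : (ℕ →₀ ℕ) → M →+ Y)
    (hf : ∀ a x, f a x = (MvPolynomial.monomial a 1 : MvPolynomial ℕ H) • j x)
    (hK : Function.Bijective (Finsupp.liftAddHom f))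
    (χ : H →+* A) (θ : A →+ M) (hθ : Function.Bijective θ) (hχ : ∀ r a, θ (χ r * a) = r • θ a) :
    ∃ Θ : MvPolynomial ℕ A →+ Y, Function.Bijective Θ ∧
      ∀ z y, Θ (MvPolynomial.map χ z * y) = z • Θ y := by
  classical
  let c : MvPolynomial ℕ A ≃+ ((ℕ →₀ ℕ) →₀ A) :=
    (MvPolynomial.basisMonomials ℕ A).repr.toAddEquiv
  have hc : ∀ a x, c (MvPolynomial.monomial a x) = Finsupp.single a x := fun a x => by
    have h1 : (MvPolynomial.monomial a x : MvPolynomial ℕ A) =
        x • MvPolynomial.basisMonomials ℕ A a := by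
      rw [MvPolynomial.coe_basisMonomials, MvPolynomial.smul_monomial, smul_eq_mul, mul_one]
    rw [h1]
    refine ((MvPolynomial.basisMonomials ℕ A).repr.map_smul x _).trans ?_
    rw [Module.Basis.repr_self, Finsupp.smul_single, smul_eq_mul, mul_one]
  let Θ : MvPolynomial ℕ A →+ Y := (Finsupp.liftAddHom f).comp
    ((Finsupp.mapRange.addEquiv (AddEquiv.ofBijective θ hθ)).toAddMonoidHom.comp c.toAddMonoidHom)
  have hΘ : ∀ a x, Θ (MvPolynomial.monomial a x) = f a (θ x) := fun a x => by
    change Finsupp.liftAddHom f (Finsupp.mapRange.addEquiv (AddEquiv.ofBijective θ hθ) (c _)) = _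
    rw [hc, Finsupp.mapRange.addEquiv_apply, Finsupp.mapRange_single,
      Finsupp.liftAddHom_apply_single]
    rfl
  refine ⟨Θ, hK.comp ((Finsupp.mapRange.addEquiv (AddEquiv.ofBijective θ hθ)).bijective.comp
    c.bijective), fun z y => ?_⟩
  induction z using MvPolynomial.induction_on' with
  | add z z' hz hz' => rw [map_add, add_mul, map_add, hz, hz', add_smul]
  | monomial s r =>
    induction y using MvPolynomial.induction_on' with
    | add y y' hy hy' => rw [mul_add, map_add, hy, hy', map_add, smul_add]
    | monomial t a =>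
      rw [MvPolynomial.map_monomial, MvPolynomial.monomial_mul, hΘ, hΘ, hχ, hf, hf, hj, smul_smul,
        smul_smul, mul_comm, MvPolynomial.C_mul_monomial, MvPolynomial.monomial_mul, mul_one]

end poly

end Vale.Agent.P261Z.T3
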