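import Vale.Agent.P261Z.T3.KPer
import Vale.Agent.P261Z.T3.KAlg
import Vale.Agent.P261Z.T3.At
import Vale.Agent.P251.Z.MoravaP

/-!
# P261, T3: Morava `K`-theory as a module over `MU`

`KMod D p n M g` : the `MU`-module `K` has `π_* K = 𝔽_p[v_n, v_n⁻¹] g`, the `v_i`, `i < n`, act by
zero and `v_n` acts by an isomorphism.

* `KMod.acyclic_of_kos` : Koszul acyclic objects are `K`-acyclic.
* `KMod.exists_chi` : the homotopy of `K` is free of rank one over `𝔽_p[X, X⁻¹]`.
-/

open CategoryTheory MonoidalCategory MonObj Limits Pretriangulated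

set_option linter.unusedSectionVars false

universe v u

namespace Vale.Agent.P261Z.T3

open Vale.Agent.P251 Vale.Agent.P251.M Vale.Agent.P251.M.EvenSpheres Vale.Agent.P251.F
  Vale.Agent.P251.T Vale.Agent.P251.S Vale.Agent.P251.Z Vale.Agent.P251.I
  Vale.Agent.P251.I.MUData

section graded

variable {T : Type u} [Category.{v} T] [MonoidalCategory T] [SymmetricCategory T]
  [Preadditive T] [MonoidalPreadditive T] {E : EvenSpheres T}

/-- The projection to the degree `2 m`. -/
noncomputable def cmpM (E : EvenSpheres T) (K : T) (m : ℤ) : HMod E K →+ HMod E K :=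
  (DirectSum.of (E.Gr K) m).comp
    (DFinsupp.evalAddMonoidHom m : (Π₀ i, E.Gr K i) →+ E.Gr K m)

theorem cmpM_same {K : T} (m : ℤ) (f : E.S m ⟶ K) :
    cmpM E K m (DirectSum.of (E.Gr K) m f) = DirectSum.of (E.Gr K) m f := by
  change DirectSum.of (E.Gr K) m ((DirectSum.of (E.Gr K) m f) m) = _
  rw [DirectSum.of_eq_same]

theorem cmpM_ne {K : T} (m n : ℤ) (h : n ≠ m) (f : E.S n ⟶ K) :
    cmpM E K m (DirectSum.of (E.Gr K) n f) = 0 := by
  change DirectSum.of (E.Gr K) m ((DirectSum.of (E.Gr K) n f) m) = _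
  have h1 : (DirectSum.of (E.Gr K) n f) m = 0 := DirectSum.of_eq_of_ne _ _ _ h.symm
  rw [h1, map_zero]

theorem cmpM_eq {K : T} (m : ℤ) (y : HMod E K) :
    ∃ f : E.S m ⟶ K, cmpM E K m y = DirectSum.of (E.Gr K) m f := ⟨y m, rfl⟩

variable {R K : T} [MonObj R] (M : ModStr R K)

theorem cmpM_smul {d m q : ℤ} (h : d + m = q) (a : E.S d ⟶ R) (y : HMod E K) :
    letI := hModule (E := E) M
    cmpM E K q (HRing.of E R d a • y) = HRing.of E R d a • cmpM E K m y := by
  letI := hModule (E := E) M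
  induction y using DirectSum.induction_on with
  | zero => rw [smul_zero, map_zero, map_zero, smul_zero]
  | add x y hx hy => rw [smul_add, map_add, hx, hy, map_add, smul_add]
  | of l x =>
    by_cases hl : l = m
    · subst hl
      rw [cmpM_same, of_smul_of M h, cmpM_same]
    · rw [of_smul_of M (p := d + l) rfl, cmpM_ne _ _ (by omega), cmpM_ne _ _ hl, smul_zero]

theorem exists_of_pow {d : ℤ} (a : E.S d ⟶ R) (k : ℕ) : ∃ f : E.S (k * d) ⟶ R,
    HRing.of E R d a ^ k = HRing.of E R (k * d) f := by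
  induction k with
  | zero =>
    have h : ((0 : ℕ) : ℤ) * d = 0 := by simp
    exact ⟨(E.castIso _ 0 h).hom ≫ E.zero.inv ≫ η[R], by rw [pow_zero, of_cast h]; rfl⟩
  | succ k ih =>
    obtain ⟨f, hf⟩ := ih
    have h : (k * d : ℤ) + d = ((k + 1 : ℕ) : ℤ) * d := by push_cast; ring
    exact ⟨gmul h f a, by rw [pow_succ, hf, of_mul_of h]⟩

variable [MonoidalClosed T] [HasCoproducts.{0} T] [IsCommMonObj R]

/-- the action of the homotopy ring on `K ⊗ PS` -/
noncomputable def sigP (E : EvenSpheres T) (M : ModStr R K) : HRing E R →+* End (K ⊗ E.PS) :=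
  (M.tens (ModStr.self E.PS)).smr.comp (sharpHom R)

theorem sigP_of {d : ℤ} (a : E.S d ⟶ R) :
    sigP E M (HRing.of E R d a) = (M.tens (ModStr.self E.PS)).smul (sharp a) := by
  unfold sigP
  rw [RingHom.comp_apply, sharpHom_of]
  rfl

theorem sharpTot_smul (r : HRing E R) (y : HMod E K) :
    letI := hModule (E := E) M
    sharpTot E K (r • y) = sharpTot E K y ≫ (sigP E M r : K ⊗ E.PS ⟶ K ⊗ E.PS) := by
  letI := hModule (E := E) M
  induction r using DirectSum.induction_on with
  | zero => rw [zero_smul, map_zero, map_zero]; exact comp_zero.symm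
  | add r s hr hs =>
    rw [add_smul, map_add, hr, hs, map_add]
    exact (Preadditive.comp_add _ _ _ _ _ _).symm
  | of d a =>
    induction y using DirectSum.induction_on with
    | zero => rw [smul_zero, map_zero, zero_comp]
    | add x y hx hy => rw [smul_add, map_add, hx, hy, map_add, Preadditive.add_comp]
    | of l x =>
      rw [of_smul_of M (p := d + l) rfl, sharpTot_of, sharpTot_of, sigP_of, sharp_smul M rfl]

end graded

variable {T : Type u} [Category.{v} T] [Preadditive T] [HasZeroObject T]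
    [HasShift T ℤ] [∀ n : ℤ, (shiftFunctor T n).Additive] [Pretriangulated T] [IsTriangulated T]
    [MonoidalCategory T] [SymmetricCategory T] [TensorTriangulated T] [MonoidalClosed T]
    [HasCoproducts.{0} T] [HasProducts.{0} T] [StableCat T]

/-- The module `K` over `MU` is a Morava `K`-theory of height `n` at `p`, with generator `g`. -/
structure KMod (D : MUData T) (p n : ℕ) {K : T} (M : ModStr D.R K) (g : 𝟙_ T ⟶ K) : Prop where
  sparse (k : ℤ) (f : (𝟙_ T)⟦k⟧ ⟶ K) : ¬ 2 * ((p : ℤ) ^ n - 1) ∣ k → f = 0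
  ne : g ≠ 0
  gen (f : 𝟙_ T ⟶ K) : ∃ a : ℤ, f = a • g
  low : ∀ i < n, D.vel p i ▷ K ≫ M.act = 0
  top : IsIso (D.vel p n ▷ K ≫ M.act)

namespace KMod

variable {D : MUData T} {p n : ℕ} {K : T} {M : ModStr D.R K} {g : 𝟙_ T ⟶ K} (H : KMod D p n M g)

include H

theorem sigP_low {i : ℕ} (hi : i < n) : sigP (stdEven T) M (vv p i D.law) = 0 := by
  rw [D.vel_spec, sigP_of]
  exact smul_sharp_zero M _ (H.low i hi)

theorem sigP_top : IsIso (sigP (stdEven T) M (vv p n D.law) :
    K ⊗ (stdEven T).PS ⟶ K ⊗ (stdEven T).PS) := by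
  rw [D.vel_spec, sigP_of]
  exact isIso_smul_sharp M _ H.top

theorem odd (l : ℤ) (f : (𝟙_ T)⟦2 * l + 1⟧ ⟶ K) : f = 0 := by
  refine H.sparse _ f fun hd => ?_
  have h4 : (2 : ℤ) ∣ 2 * l + 1 := (Dvd.intro _ rfl).trans hd
  omega

theorem sparse_even {m : ℤ} (hm : ¬ ((p : ℤ) ^ n - 1) ∣ m) (f : (stdEven T).S m ⟶ K) : f = 0 := by
  have e := (stdEven T).sphIso (Iso.refl _) m
  rw [← cancel_epi e.inv, comp_zero]
  refine H.sparse _ _ fun hd => hm ?_
  exact Int.dvd_of_mul_dvd_mul_left two_ne_zero hd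

theorem char (hn : 1 ≤ n) : (p : ℤ) • 𝟙 K = 0 := by
  have h1 := H.sigP_low (i := 0) hn
  rw [vv_zero, map_natCast] at h1
  have h2 : (p : ℤ) • 𝟙 (K ⊗ (stdEven T).PS) = 0 := by
    have h3 : ((p : ℕ) : End (K ⊗ (stdEven T).PS)) = (p : ℤ) • (1 : End (K ⊗ (stdEven T).PS)) := by
      rw [zsmul_one]
      norm_cast
    exact h3.symm.trans h1
  have h4 : ((stdEven T).inPS 0 ≫ (stdEven T).pr 0) = 𝟙 _ := by
    rw [(stdEven T).inPS_pr 0 0 rfl, EvenSpheres.castIso_refl, Iso.refl_hom]
  have h5 : (K ◁ (stdEven T).inPS 0) ≫ (K ◁ (stdEven T).pr 0) = 𝟙 (K ⊗ (stdEven T).S 0) := by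
    rw [← MonoidalCategory.whiskerLeft_comp, h4, MonoidalCategory.whiskerLeft_id]
  have h6 : (p : ℤ) • 𝟙 (K ⊗ (stdEven T).S 0) = 0 := by
    rw [← h5, ← Category.id_comp (K ◁ (stdEven T).pr 0), ← Preadditive.comp_zsmul,
      ← Preadditive.zsmul_comp, h2, zero_comp, comp_zero]
  have h7 : (p : ℤ) • 𝟙 (K ⊗ 𝟙_ T) = 0 := h6
  have h8 : 𝟙 K = (ρ_ K).inv ≫ 𝟙 (K ⊗ 𝟙_ T) ≫ (ρ_ K).hom := by simp
  rw [h8, ← Preadditive.comp_zsmul, ← Preadditive.zsmul_comp, h7, zero_comp, comp_zero]

/-- **Comparison (a)** for modules. -/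
theorem acyclic_of_kos [Fact p.Prime] (hn : 1 ≤ n) (Z : KosData D.P (p : ℤ) n (D.vs p)) {W : T}
    (hW : Acyclic Z.K W) : Acyclic K W := by
  have h0 : ∀ i, (M.tens (ModStr.self (stdEven T).PS)).smul (D.vs p i) =
      sigP (stdEven T) M (vv p i D.law) := fun i => by
    rw [D.vel_spec, sigP_of]
    rfl
  refine acyclic_of_acyclic_PS (stdEven T) (acyclic_of_acyclic_K Z
    (M.tens (ModStr.self (stdEven T).PS)) (D.invData p n) hn (fun i hi => ?_) ?_ hW)
  · have h1 : (M.tens (ModStr.self (stdEven T).PS)).sm (D.vs p i) = 0 :=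
      (h0 i).trans (H.sigP_low hi)
    rw [h1]
    exact IsNilpotent.zero
  · rw [h0]
    exact H.sigP_top

/-- **The homotopy of `K` is free of rank one over `𝔽_p[X, X⁻¹]`.** -/
theorem exists_chi [Fact p.Prime] (hn : 1 ≤ n) (A : Type*) [CommRing A]
    [Algebra (Polynomial (ZMod p)) A]
    [IsLocalization.Away (Polynomial.X : Polynomial (ZMod p)) A] :
    ∃ (χ : HRing (stdEven T) D.R →+* A) (θ : A →+ HM (sigP (stdEven T) M) (𝟙_ T)),
      Function.Bijective θ ∧ (∀ r a, θ (χ r * a) = r • θ a) ∧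
      χ (vv p n D.law) = algebraMap (Polynomial (ZMod p)) A Polynomial.X := by
  letI := hModule (E := stdEven T) M
  have hp : p.Prime := Fact.out
  have hN : (p : ℤ) ^ n - 1 ≠ 0 := by
    have h1 : 1 < p ^ n := Nat.one_lt_pow (by omega) hp.one_lt
    have h2 : (1 : ℤ) < (p : ℤ) ^ n := by exact_mod_cast h1
    omega
  have hb := sharpTot_bijective (E := stdEven T) K
  have hv : Function.Bijective fun y : HMod (stdEven T) K => vv p n D.law • y := by
    have := H.sigP_top
    constructor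
    · intro x y hxy
      apply hb.1
      have h1 := congrArg (sharpTot (stdEven T) K) hxy
      simp only [sharpTot_smul] at h1
      exact (cancel_mono _).1 h1
    · intro y
      obtain ⟨x, hx⟩ := hb.2 (sharpTot (stdEven T) K y ≫ inv (sigP (stdEven T) M (vv p n D.law) :
        K ⊗ (stdEven T).PS ⟶ K ⊗ (stdEven T).PS))
      refine ⟨x, hb.1 ?_⟩
      simp only [sharpTot_smul]
      rw [hx, Category.assoc, IsIso.inv_hom_id, Category.comp_id]
  have hvk : ∀ k : ℕ, Function.Bijective fun y : HMod (stdEven T) K => vv p n D.law ^ k • y := by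
    intro k
    induction k with
    | zero =>
      simp only [pow_zero, one_smul]
      exact Function.bijective_id
    | succ k ih =>
      simp only [pow_succ', mul_smul]
      exact hv.comp ih
  have hchar : ∀ y : HMod (stdEven T) K, (p : HRing (stdEven T) D.R) • y = 0 := by
    intro y
    apply hb.1
    rw [sharpTot_smul, ← vv_zero p D.law, H.sigP_low hn, map_zero]
    exact comp_zero
  set g0 : HMod (stdEven T) K := DirectSum.of ((stdEven T).Gr K) 0 ((stdEven T).zero.inv ≫ g)
    with hg0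
  have hzero : ∀ f : (stdEven T).S 0 ⟶ K, ∃ a : ℤ,
      (DirectSum.of ((stdEven T).Gr K) 0 f : HMod (stdEven T) K) = a • g0 := by
    intro f
    obtain ⟨a, ha⟩ := H.gen ((stdEven T).zero.hom ≫ f)
    refine ⟨a, ?_⟩
    have h1 : f = a • ((stdEven T).zero.inv ≫ g) := by
      rw [← Preadditive.comp_zsmul, ← ha, Iso.inv_hom_id_assoc]
    rw [h1]
    exact (DirectSum.of ((stdEven T).Gr K) 0).map_zsmul a _
  have hpow : ∀ k : ℕ, ∃ f : (stdEven T).S (k * ((p : ℤ) ^ n - 1)) ⟶ D.R,
      vv p n D.law ^ k = HRing.of (stdEven T) D.R _ f := fun k => by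
    rw [D.vel_spec]
    exact exists_of_pow _ k
  have hC : ∀ (a : ℤ) (y : HMod (stdEven T) K),
      Polynomial.aeval (vv p n D.law) (Polynomial.C a) • y = a • y := fun a y => by
    rw [Polynomial.aeval_C, eq_intCast, Int.cast_smul_eq_zsmul]
  have span : ∀ y : HMod (stdEven T) K, ∃ (k : ℕ) (f : Polynomial ℤ),
      vv p n D.law ^ k • y = Polynomial.aeval (vv p n D.law) f • g0 := by
    intro y
    induction y using DirectSum.induction_on with
    | zero => exact ⟨0, 0, by simp⟩
    | add x y hx hy =>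
      obtain ⟨k, f, hf⟩ := hx
      obtain ⟨l, f', hf'⟩ := hy
      refine ⟨k + l, Polynomial.X ^ l * f + Polynomial.X ^ k * f', ?_⟩
      rw [map_add, map_mul, map_mul, map_pow, map_pow, Polynomial.aeval_X, add_smul, mul_smul,
        mul_smul, ← hf, ← hf', smul_add, smul_smul, smul_smul, ← pow_add, ← pow_add, add_comm l k]
    | of m x =>
      by_cases hm : ((p : ℤ) ^ n - 1) ∣ m
      · obtain ⟨j, rfl⟩ := hm
        obtain ⟨k, rfl | rfl⟩ := j.eq_nat_or_neg
        · obtain ⟨y, hy⟩ := (hvk k).2 (DirectSum.of ((stdEven T).Gr K) _ x)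
          obtain ⟨f, hf⟩ := hpow k
          have h1 := cmpM_smul M (show k * ((p : ℤ) ^ n - 1) + 0 = ((p : ℤ) ^ n - 1) * k by ring)
            f y
          obtain ⟨y0, hy0⟩ := cmpM_eq (E := stdEven T) 0 y
          obtain ⟨a, ha⟩ := hzero y0
          dsimp only at hy
          rw [← hf, hy, cmpM_same, hy0, ha] at h1
          refine ⟨0, Polynomial.X ^ k * Polynomial.C a, ?_⟩
          rw [pow_zero, one_smul, map_mul, mul_smul, hC, map_pow, Polynomial.aeval_X]
          exact h1
        · obtain ⟨f, hf⟩ := hpow k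
          obtain ⟨a, ha⟩ := hzero (gsmul M
            (show k * ((p : ℤ) ^ n - 1) + ((p : ℤ) ^ n - 1) * -(k : ℤ) = 0 by ring) f x)
          refine ⟨k, Polynomial.C a, ?_⟩
          rw [hC, ← ha, hf]
          exact of_smul_of M _ f x
      · refine ⟨0, 0, ?_⟩
        rw [H.sparse_even hm x]
        simp
  have indep : ∀ f : Polynomial ℤ, Polynomial.aeval (vv p n D.law) f • g0 = 0 →
      ∀ i, (p : ℤ) ∣ f.coeff i := by
    have h1 : ∀ (f : Polynomial ℤ) (i : ℕ), cmpM (stdEven T) K (i * ((p : ℤ) ^ n - 1))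
        (Polynomial.aeval (vv p n D.law) f • g0) = vv p n D.law ^ i • (f.coeff i • g0) := by
      intro f i
      induction f using Polynomial.induction_on' with
      | add f f' hf hf' =>
        rw [map_add, add_smul, map_add, hf, hf', Polynomial.coeff_add, add_smul, smul_add]
      | monomial k c =>
        obtain ⟨a, ha⟩ := hpow k
        have h2 : Polynomial.aeval (vv p n D.law) (Polynomial.monomial k c) • g0 =
            vv p n D.law ^ k • (c • g0) := by
          rw [← Polynomial.C_mul_X_pow_eq_monomial, mul_comm, map_mul, mul_smul, hC, map_pow,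
            Polynomial.aeval_X]
        have h3 : c • g0 = DirectSum.of ((stdEven T).Gr K) 0 (c • ((stdEven T).zero.inv ≫ g)) :=
          ((DirectSum.of ((stdEven T).Gr K) 0).map_zsmul c _).symm
        rw [h2, Polynomial.coeff_monomial]
        by_cases hki : k = i
        · subst hki
          rw [if_pos rfl, ha, h3, of_smul_of M (add_zero _), cmpM_same]
        · rw [if_neg hki, zero_smul, smul_zero, ha, h3, of_smul_of M (add_zero _), cmpM_ne]
          intro h
          apply hki
          exact_mod_cast mul_right_cancel₀ hN h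
    intro f hf i
    have h2 := h1 f i
    rw [hf, map_zero] at h2
    have h3 : f.coeff i • g0 = 0 := (hvk i).1 (h2.symm.trans (smul_zero _).symm)
    have h4 : f.coeff i • g = 0 := by
      have h5 : (DirectSum.of ((stdEven T).Gr K) 0 (f.coeff i • ((stdEven T).zero.inv ≫ g)) :
          HMod (stdEven T) K) = DirectSum.of ((stdEven T).Gr K) 0 0 :=
        (((DirectSum.of ((stdEven T).Gr K) 0).map_zsmul _ _).trans h3).trans (map_zero _).symm
      have h6 : f.coeff i • ((stdEven T).zero.inv ≫ g) = 0 :=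
        DirectSum.of_injective (β := (stdEven T).Gr K) 0 h5
      rw [← cancel_epi (stdEven T).zero.inv, Preadditive.comp_zsmul, h6, comp_zero]
    have h7 : (p : ℤ) • g = 0 := by
      rw [← Category.comp_id g, ← Preadditive.comp_zsmul, H.char hn, comp_zero]
    by_contra hd
    have hc : IsCoprime (p : ℤ) (f.coeff i) :=
      ((Nat.prime_iff_prime_int.1 hp).irreducible.coprime_iff_not_dvd).2 hd
    obtain ⟨a, b, hab⟩ := hc
    apply H.ne
    rw [← one_zsmul g, ← hab, add_zsmul, mul_zsmul, mul_zsmul, h4, h7, zsmul_zero, zsmul_zero,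
      add_zero]
  obtain ⟨χ, θ, hθ, hχ, hX⟩ := T3.exists_chi A (vv p n D.law) hv hchar g0 span indep
  refine ⟨χ, (sharpTot (stdEven T) K).comp θ, hb.comp hθ, fun r a => ?_, hX⟩
  change sharpTot (stdEven T) K (θ (χ r * a)) = _
  rw [hχ, sharpTot_smul]
  rfl

end KMod

end Vale.Agent.P261Z.T3
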