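import Vale.Agent.P251.Z.KMor

/-!
# P261, T3: modules and the periodic even sphere

Module versions of `smul_per`, `sharp_mul` and of the base change of bases.
-/

open CategoryTheory MonoidalCategory Limits Pretriangulated MonObj

set_option linter.unusedSectionVars false

universe v u

namespace Vale.Agent.P261Z.T3

open Vale.Agent.P251 Vale.Agent.P251.M Vale.Agent.P251.M.EvenSpheres Vale.Agent.P251.S
  Vale.Agent.P251.T Vale.Agent.P251.Z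

section mon

variable {T : Type u} [Category.{v} T] [MonoidalCategory T] [SymmetricCategory T]

/-- `f` is linear along `u`. -/
def LinA {R R' N N' : T} [MonObj R] [MonObj R'] (M : ModStr R N) (M' : ModStr R' N')
    (u : R ⟶ R') (f : N ⟶ N') : Prop := M.act ≫ f = (u ⊗ₘ f) ≫ M'.act

theorem LinA.smul {R R' N N' : T} [MonObj R] [MonObj R'] {M : ModStr R N} {M' : ModStr R' N'}
    {u : R ⟶ R'} {f : N ⟶ N'} (h : LinA M M' u f) (a : 𝟙_ T ⟶ R) :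
    M.smul a ≫ f = f ≫ M'.smul (a ≫ u) := by
  unfold ModStr.smul
  rw [Category.assoc, Category.assoc, h, leftUnitor_inv_naturality_assoc, whisker_exchange_assoc,
    comp_whiskerRight_assoc, tensorHom_def, Category.assoc]

theorem LinA.tens {R R' N N' B X : T} [MonObj R] [MonObj R'] [MonObj B] {M : ModStr R N}
    {M' : ModStr R' N'} {u : R ⟶ R'} {f : N ⟶ N'} (h : LinA M M' u f) (Q : ModStr B X) :
    LinA (M.tens Q) (M'.tens Q) (u ▷ B) (f ▷ X) := by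
  change (tensorμ R B N X ≫ (M.act ⊗ₘ Q.act)) ≫ f ▷ X =
    (u ▷ B ⊗ₘ f ▷ X) ≫ tensorμ R' B N' X ≫ (M'.act ⊗ₘ Q.act)
  rw [← tensorHom_id u, ← tensorHom_id f, tensorμ_natural_assoc, Category.assoc,
    tensorHom_comp_tensorHom, tensorHom_comp_tensorHom, h]
  simp

theorem linA_assoc {R₁ R₂ R₃ N₁ N₂ N₃ : T} [MonObj R₁] [MonObj R₂] [MonObj R₃]
    (M₁ : ModStr R₁ N₁) (M₂ : ModStr R₂ N₂) (M₃ : ModStr R₃ N₃) :
    LinA ((M₁.tens M₂).tens M₃) (M₁.tens (M₂.tens M₃)) (α_ R₁ R₂ R₃).hom (α_ N₁ N₂ N₃).hom := by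
  change (tensorμ (R₁ ⊗ R₂) R₃ (N₁ ⊗ N₂) N₃ ≫
      ((tensorμ R₁ R₂ N₁ N₂ ≫ (M₁.act ⊗ₘ M₂.act)) ⊗ₘ M₃.act)) ≫ (α_ N₁ N₂ N₃).hom =
    ((α_ R₁ R₂ R₃).hom ⊗ₘ (α_ N₁ N₂ N₃).hom) ≫ tensorμ R₁ (R₂ ⊗ R₃) N₁ (N₂ ⊗ N₃) ≫
      (M₁.act ⊗ₘ (tensorμ R₂ R₃ N₂ N₃ ≫ (M₂.act ⊗ₘ M₃.act)))
  have h1 : (tensorμ R₁ R₂ N₁ N₂ ≫ (M₁.act ⊗ₘ M₂.act)) ⊗ₘ M₃.act =
      (tensorμ R₁ R₂ N₁ N₂ ▷ (R₃ ⊗ N₃)) ≫ ((M₁.act ⊗ₘ M₂.act) ⊗ₘ M₃.act) := by
    rw [← tensorHom_id, tensorHom_comp_tensorHom, Category.id_comp]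
  have h2 : M₁.act ⊗ₘ (tensorμ R₂ R₃ N₂ N₃ ≫ (M₂.act ⊗ₘ M₃.act)) =
      ((R₁ ⊗ N₁) ◁ tensorμ R₂ R₃ N₂ N₃) ≫ (M₁.act ⊗ₘ (M₂.act ⊗ₘ M₃.act)) := by
    rw [← id_tensorHom, tensorHom_comp_tensorHom, Category.id_comp]
  rw [h1, h2, Category.assoc, Category.assoc, associator_naturality,
    reassoc_of% (associator_monoidal R₁ R₂ R₃ N₁ N₂ N₃)]

/-- the map `K ⟶ K ⊗ Y` defined by the unit -/
def unY (K Y : T) [MonObj Y] : K ⟶ K ⊗ Y := (ρ_ K).inv ≫ K ◁ η[Y]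

theorem unY_act {R K Y : T} [MonObj R] [MonObj Y] (M : ModStr R K) :
    ((R ⊗ Y) ◁ unY K Y) ≫ (M.tens (ModStr.self Y)).act =
      (α_ R Y K).hom ≫ R ◁ (β_ Y K).hom ≫ (α_ R K Y).inv ≫ M.act ▷ Y := by
  change ((R ⊗ Y) ◁ ((ρ_ K).inv ≫ K ◁ η[Y])) ≫ tensorμ R Y K Y ≫ (M.act ⊗ₘ μ[Y]) = _
  have h1 : ((R ⊗ Y) ◁ (K ◁ η[Y])) ≫ tensorμ R Y K Y =
      tensorμ R Y K (𝟙_ T) ≫ ((R ⊗ K) ◁ (Y ◁ η[Y])) := by
    have := tensorμ_natural (𝟙 R) (𝟙 Y) (𝟙 K) η[Y]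
    simpa using this
  rw [MonoidalCategory.whiskerLeft_comp, Category.assoc, reassoc_of% h1]
  have h2 : ((R ⊗ K) ◁ (Y ◁ η[Y])) ≫ (M.act ⊗ₘ μ[Y]) = (M.act ⊗ₘ (ρ_ Y).hom) := by
    rw [← id_tensorHom, tensorHom_comp_tensorHom, Category.id_comp, MonObj.mul_one]
  rw [h2, tensorHom_def']
  have h3 : ((R ⊗ Y) ◁ (ρ_ K).inv) ≫ tensorμ R Y K (𝟙_ T) ≫ ((R ⊗ K) ◁ (ρ_ Y).hom) =
      (α_ R Y K).hom ≫ R ◁ (β_ Y K).hom ≫ (α_ R K Y).inv := by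
    unfold tensorμ
    monoidal
  rw [reassoc_of% h3]

theorem linA_unY {R K Y : T} [MonObj R] [MonObj Y] (M : ModStr R K) :
    LinA M (M.tens (ModStr.self Y)) (inlM R Y) (unY K Y) := by
  unfold LinA
  rw [tensorHom_def, Category.assoc, unY_act]
  unfold unY inlM
  rw [rightUnitor_inv_naturality_assoc, ← whisker_exchange, comp_whiskerRight, Category.assoc,
    associator_naturality_middle_assoc, ← MonoidalCategory.whiskerLeft_comp_assoc,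
    BraidedCategory.braiding_naturality_left, MonoidalCategory.whiskerLeft_comp_assoc,
    associator_inv_naturality_right_assoc, braiding_tensorUnit_left]
  monoidal

/-- the Kuenneth map of a module -/
theorem kun_eq {R K Y X : T} [MonObj R] [MonObj Y] (M : ModStr R K) (w : X ⟶ R ⊗ Y) :
    (β_ K X).hom ≫ (w ⊗ₘ unY K Y) ≫ (M.tens (ModStr.self Y)).act =
      K ◁ w ≫ (α_ K R Y).inv ≫ ract M ▷ Y := by
  rw [tensorHom_def, Category.assoc, unY_act, ← BraidedCategory.braiding_naturality_right_assoc,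
    BraidedCategory.braiding_tensor_right_hom, ract, comp_whiskerRight]
  simp only [Category.assoc, Iso.inv_hom_id_assoc]
  rw [← MonoidalCategory.whiskerLeft_comp_assoc, SymmetricCategory.symmetry,
    MonoidalCategory.whiskerLeft_id, Category.id_comp, Iso.hom_inv_id_assoc]

end mon

section per

variable {T : Type u} [Category.{v} T] [MonoidalCategory T] [SymmetricCategory T]
  [MonoidalClosed T] [HasCoproducts.{0} T] {E : EvenSpheres T}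

/-- Multiplication by the scalar `sharp b` on `N ⊗ PS`. -/
theorem smul_per_mod {B N X : T} [MonObj B] (M : ModStr B N) (φ : X ⟶ N) {k : ℤ}
    (b : E.S k ⟶ B) :
    (φ ▷ E.PS) ≫ (M.tens (ModStr.self E.PS)).smul (sharp b) =
      (X ◁ E.twInv k) ≫ (α_ X (E.S k) E.PS).inv ≫
        (((β_ X (E.S k)).hom ≫ (b ⊗ₘ φ) ≫ M.act) ▷ E.PS) := by
  have hb : (b ⊗ₘ φ) ≫ M.act =
      (β_ (E.S k) X).hom ≫ (β_ X (E.S k)).hom ≫ (b ⊗ₘ φ) ≫ M.act := by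
    rw [SymmetricCategory.symmetry_assoc]
  have lhs : (φ ▷ E.PS) ≫ (M.tens (ModStr.self E.PS)).smul (sharp b) =
      ((λ_ (X ⊗ E.PS)).inv ≫ ((E.unitIso k).hom ▷ (X ⊗ E.PS)) ≫ tensorμ (E.S k) (E.S (-k)) X E.PS ≫
        (β_ (E.S k) X).hom ▷ (E.S (-k) ⊗ E.PS)) ≫
          (((β_ X (E.S k)).hom ≫ (b ⊗ₘ φ) ≫ M.act) ⊗ₘ E.tw (-k)) := by
    have hs : (M.tens (ModStr.self E.PS)).smul (sharp b) = (λ_ (N ⊗ E.PS)).inv ≫
        (sharp b ▷ (N ⊗ E.PS)) ≫ tensorμ B E.PS N E.PS ≫ (M.act ⊗ₘ μ[E.PS]) := rfl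
    have hp : sharp b = (E.unitIso k).hom ≫ (b ⊗ₘ E.inPS (-k)) := sharp_eq_unitIso k b
    rw [hs, hp, leftUnitor_inv_naturality_assoc,
      whisker_exchange_assoc, comp_whiskerRight_assoc]
    have h1 : ((b ⊗ₘ E.inPS (-k)) ▷ (X ⊗ E.PS)) ≫ ((B ⊗ E.PS) ◁ (φ ▷ E.PS)) ≫
        tensorμ B E.PS N E.PS = tensorμ (E.S k) (E.S (-k)) X E.PS ≫
          ((b ⊗ₘ φ) ⊗ₘ (E.inPS (-k) ▷ E.PS)) := by
      have h := tensorμ_natural b (E.inPS (-k)) φ (𝟙 E.PS)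
      rw [tensorHom_id, tensorHom_id] at h
      rw [← h, tensorHom_def ((b ⊗ₘ E.inPS (-k))), Category.assoc]
    rw [reassoc_of% h1, tensorHom_comp_tensorHom]
    conv_lhs => rw [hb]
    simp only [Category.assoc]
    rw [← tensorHom_id (β_ (E.S k) X).hom, tensorHom_comp_tensorHom, Category.id_comp]
    rfl
  have rhs : (X ◁ E.twInv k) ≫ (α_ X (E.S k) E.PS).inv ≫
        (((β_ X (E.S k)).hom ≫ (b ⊗ₘ φ) ≫ M.act) ▷ E.PS) =
      ((X ◁ ((λ_ E.PS).inv ≫ ((E.unitIso k).hom ▷ E.PS) ≫ (α_ (E.S k) (E.S (-k)) E.PS).hom)) ≫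
        (α_ X (E.S k) (E.S (-k) ⊗ E.PS)).inv) ≫
          (((β_ X (E.S k)).hom ≫ (b ⊗ₘ φ) ≫ M.act) ⊗ₘ E.tw (-k)) := by
    unfold twInv
    rw [MonoidalCategory.whiskerLeft_comp, Category.assoc, Category.assoc,
      associator_inv_naturality_right_assoc,
      tensorHom_def' ((β_ X (E.S k)).hom ≫ (b ⊗ₘ φ) ≫ M.act)]
  rw [lhs, rhs, coh_key]

theorem smul_sharp_zero [Preadditive T] [MonoidalPreadditive T] {B N : T} [MonObj B]
    (M : ModStr B N) {k : ℤ} (b : E.S k ⟶ B) (h : b ▷ N ≫ M.act = 0) :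
    (M.tens (ModStr.self E.PS)).smul (sharp b) = 0 := by
  have h1 := smul_per_mod M (𝟙 N) b
  rw [id_whiskerRight, Category.id_comp, tensorHom_id, h] at h1
  rw [h1]
  simp

theorem isIso_smul_sharp {B N : T} [MonObj B]
    (M : ModStr B N) {k : ℤ} (b : E.S k ⟶ B) (h : IsIso (b ▷ N ≫ M.act)) :
    IsIso ((M.tens (ModStr.self E.PS)).smul (sharp b)) := by
  have h1 := smul_per_mod M (𝟙 N) b
  rw [id_whiskerRight, Category.id_comp, tensorHom_id] at h1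
  rw [h1]
  infer_instance

theorem sharp_smul {R N : T} [MonObj R] (M : ModStr R N) {k l p : ℤ} (h : k + l = p)
    (a : E.S k ⟶ R) (x : E.S l ⟶ N) :
    sharp x ≫ (M.tens (ModStr.self E.PS)).smul (sharp a) = sharp (gsmul M h a x) := by
  have hs : (M.tens (ModStr.self E.PS)).smul (sharp a) = (λ_ (N ⊗ E.PS)).inv ≫
      (sharp a ▷ (N ⊗ E.PS)) ≫ tensorμ R E.PS N E.PS ≫ (M.act ⊗ₘ μ[E.PS]) := rfl
  rw [hs, leftUnitor_inv_naturality_assoc, ← tensorHom_def'_assoc,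
    reassoc_of% (E.lam_tensor_eq_ext (sharp a) (sharp x)), sharp_eq (add_neg_cancel k),
    sharp_eq (add_neg_cancel l), sharp_eq (add_neg_cancel p), Iso.inv_hom_id_assoc,
    Iso.inv_hom_id_assoc,
    reassoc_of% (E.ext_tensorμ (add_neg_cancel k) (add_neg_cancel l) (zero_add 0) h
      (show -k + -l = -p by omega) (add_neg_cancel p) a (E.inPS (-k)) x (E.inPS (-l))),
    ← ext_comp]
  congr 2
  exact gmul_inPS _ _ _ _

/-- **The Kuenneth isomorphism** for a module. -/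
theorem isIso_kun {R K Y : T} [MonObj R] [IsCommMonObj R] [MonObj Y] (M : ModStr R K) {J : Type}
    (X : J → T) (w : ∀ j, X j ⟶ R ⊗ Y)
    (h : IsIso (Sigma.desc fun j => (inlM R Y ⊗ₘ w j) ≫ μ[R ⊗ Y])) :
    IsIso (Sigma.desc fun j => K ◁ w j ≫ (α_ K R Y).inv ≫ ract M ▷ Y) := by
  have : (tensorLeft R).IsLeftAdjoint := ⟨_, ⟨ihom.adjunction R⟩⟩
  have : (tensorLeft K).IsLeftAdjoint := ⟨_, ⟨ihom.adjunction K⟩⟩
  have e0 : (fun j => (inlM R Y ⊗ₘ w j) ≫ μ[R ⊗ Y]) =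
      fun j => (FM.bind (w j) : R ⊗ X j ⟶ R ⊗ Y) := funext fun j => inlM_tensor_mul _
  rw [e0] at h
  have e1 : (Sigma.desc fun j => (FM.bind (w j) : R ⊗ X j ⟶ R ⊗ Y)) =
      sigmaComparison (tensorLeft R) X ≫ FM.bind (Sigma.desc w) := by
    apply Sigma.hom_ext
    intro j
    have e2 : Sigma.ι (fun j => R ⊗ X j) j ≫ sigmaComparison (tensorLeft R) X =
        R ◁ Sigma.ι X j := ι_comp_sigmaComparison (tensorLeft R) X j
    rw [Sigma.ι_desc, reassoc_of% e2]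
    rw [FM.bind, FM.bind, ← MonoidalCategory.whiskerLeft_comp_assoc, Sigma.ι_desc]
  have h1 : IsIso (FM.bind (Sigma.desc w)) := by
    rw [e1] at h
    exact IsIso.of_isIso_comp_left (sigmaComparison (tensorLeft R) X) _
  have h2 := isIso_ten_module M (Sigma.desc w)
  have e3 : (Sigma.desc fun j => K ◁ w j ≫ (α_ K R Y).inv ≫ ract M ▷ Y) =
      sigmaComparison (tensorLeft K) X ≫ K ◁ Sigma.desc w ≫ (α_ K R Y).inv ≫ ract M ▷ Y := by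
    apply Sigma.hom_ext
    intro j
    have e2 : Sigma.ι (fun j => K ⊗ X j) j ≫ sigmaComparison (tensorLeft K) X =
        K ◁ Sigma.ι X j := ι_comp_sigmaComparison (tensorLeft K) X j
    rw [Sigma.ι_desc, reassoc_of% e2, ← MonoidalCategory.whiskerLeft_comp_assoc, Sigma.ι_desc]
  rw [e3]
  infer_instance

/-- the map `K ⊗ PS ⟶ K ⊗ (Y ⊗ PS)` -/
noncomputable def jP (E : EvenSpheres T) (K Y : T) [MonObj Y] : K ⊗ E.PS ⟶ K ⊗ (Y ⊗ E.PS) :=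
  unY K Y ▷ E.PS ≫ (α_ K Y E.PS).hom

theorem jP_smul {R K Y : T} [MonObj R] [MonObj Y] (M : ModStr R K) (s : 𝟙_ T ⟶ R ⊗ E.PS) :
    (M.tens (ModStr.self E.PS)).smul s ≫ jP E K Y =
      jP E K Y ≫ (M.tens (ModStr.self (Y ⊗ E.PS))).smul
        ((s ≫ inlM R Y ▷ E.PS) ≫ (α_ R Y E.PS).hom) := by
  unfold jP
  rw [← Category.assoc, ((linA_unY M).tens (ModStr.self E.PS)).smul s, Category.assoc,
    (linA_assoc M (ModStr.self Y) (ModStr.self E.PS)).smul,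
    Category.assoc (unY K Y ▷ E.PS)]
  rfl

/-- **The Kuenneth isomorphism** over the periodic sphere. -/
theorem isIso_kun_per {R K Y : T} [MonObj R] [IsCommMonObj R] [MonObj Y] (M : ModStr R K)
    {J : Type} (k : J → ℤ) (w : ∀ j, E.S (k j) ⟶ R ⊗ Y)
    (h : IsIso (Sigma.desc fun j => (inlM R Y ⊗ₘ w j) ≫ μ[R ⊗ Y])) :
    IsIso (Sigma.desc fun j => jP E K Y ≫ (M.tens (ModStr.self (Y ⊗ E.PS))).smul
      (sharp (w j) ≫ (α_ R Y E.PS).hom)) := by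
  have h1 := isIso_desc_whiskerRight _ (isIso_kun M _ w h) E.PS
  have h2 := isIso_desc_comp _ (fun j => (K ◁ E.twInv (k j)) ≫ (α_ K (E.S (k j)) E.PS).inv) h1
  have h3 : (Sigma.desc fun j => jP E K Y ≫ (M.tens (ModStr.self (Y ⊗ E.PS))).smul
      (sharp (w j) ≫ (α_ R Y E.PS).hom)) =
      (Sigma.desc fun j => ((K ◁ E.twInv (k j)) ≫ (α_ K (E.S (k j)) E.PS).inv) ≫
        (K ◁ w j ≫ (α_ K R Y).inv ≫ ract M ▷ Y) ▷ E.PS) ≫ (α_ K Y E.PS).hom := by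
    apply Sigma.hom_ext
    intro j
    rw [Sigma.ι_desc, Sigma.ι_desc_assoc, ← kun_eq, Category.assoc (K ◁ E.twInv (k j)),
      ← smul_per_mod, Category.assoc,
      (linA_assoc M (ModStr.self Y) (ModStr.self E.PS)).smul, jP, Category.assoc]
    rfl
  rw [h3]
  infer_instance

end per

end Vale.Agent.P261Z.T3
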