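import Vale.Agent.P251.Q.Main

/-!
# P261, block T3: the theorem of Quillen modulo every prime

`hasPowers_two` : the power operations for `p = 2`; `qData_all` : part Q for every prime.
-/

open CategoryTheory MonoidalCategory OnePoint Topology
open Vale.Agent.P251.G Vale.Agent.P251.G.LC Vale.Agent.P251.F

universe v

namespace Vale.Agent.P261Z.T3

open Vale.Agent.P251 Vale.Agent.P251.Q Vale.Agent.P251.Q.MultTheory

variable {C : Type} [CommRing C] (E : ThomTheory.{v})

/-- The power operations exist for `p = 2`. -/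
theorem hasPowers_two {D : CoeffData E.toMultTheory C} (L : LensData E.toMultTheory D (1 + 1))
    (hGr : ∀ (m : ℕ) (I : Type) [Fintype I], E.toMultTheory.Good (LC.of (Gr m I)))
    (H : ∀ k, FrameData E.o L 1 k) : E.HasPowers L := by
  intro X hX h3 q y hy
  rcases Nat.eq_zero_or_pos q with rfl | hq
  · have hy0 : y ∈ E.deg X 0 := by simpa using hy
    have hyy : y * y ∈ E.deg X 0 := by simpa using mul_deg hy0 hy0
    have hx : y + y * y ∈ E.deg X (-((0 : ℕ) : ℤ)) := by simpa using add_mem hy0 hyy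
    have hxx : (y + y * y) * (y + y * y) = y * y := by
      rw [mul_add, add_mul, add_mul, h3, ← mul_assoc, h3, ← mul_assoc, h3, add_zero, add_zero,
        add_zero]
    obtain ⟨N, m, hmN, hP⟩ := power_exists E hGr hx
    refine ⟨m, fun k => ?_⟩
    have hB := (H k).goodB
    obtain ⟨P, hPdeg, hPpt, T, hT, x', e, c, hx', he, hc, hkey⟩ :=
      hP (H k).F ((H k).good N) (H k).rank (H k).eq_sum (H k).pos (H k).s_eq
        (fun m I _ => (H k).euler m I)
    refine ⟨P - pull E.toMultTheory (L.B k) X (y * y), ?_, ?_, ?_⟩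
    · refine sub_mem hPdeg ?_
      have h1 := cross_deg (oneU_deg (E := E.toMultTheory) (X := L.B k)) hyy
      have h2 : (0 : ℤ) + 0 = -(((1 + 1 : ℕ) : ℤ) * ((0 : ℕ) : ℤ)) := by simp
      rw [h2] at h1
      exact h1
    · intro _
      rw [map_sub, LensData.ptRes_pull, sub_eq_zero]
      exact (hPpt (L.b k)).trans hxx
    · have hN : m + 0 = N := hmN
      have h1 : E.act (fstC (L.B k) X) (D.ev k (L.v k) (wSeries D.F (1 + 1)) ^ (m + 0))
          (P - pull E.toMultTheory (L.B k) X (y * y)) -
          E.cross (D.ev k (L.v k) (wSeries D.F (1 + 1)) ^ m) y = ∑ t, E.cross (c t) (x' t) := by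
        have hN' : m = N := hN
        rw [map_sub, act_pull, sub_sub, add_zero, ← map_add, add_comm (y * y) y,
          sub_eq_iff_eq_add]
        subst hN'
        exact hkey.trans (add_comm _ _)
      rw [h1]
      exact sum_mem fun t _ => D.cross_mem_posPoly (L.v k) (hc t) (he t) (hx' t)
  · obtain ⟨N, m, hmN, hP⟩ := power_exists E hGr hy
    refine ⟨m, fun k => ?_⟩
    have hB := (H k).goodB
    obtain ⟨P, hPdeg, hPpt, T, hT, x', e, c, hx', he, hc, hkey⟩ :=
      hP (H k).F ((H k).good N) (H k).rank (H k).eq_sum (H k).pos (H k).s_eq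
        (fun m I _ => (H k).euler m I)
    refine ⟨P, hPdeg, fun h => absurd h hq.ne', ?_⟩
    have hN : m + q = N := hmN
    have h1 : E.act (fstC (L.B k) X) (D.ev k (L.v k) (wSeries D.F (1 + 1)) ^ (m + q)) P -
        E.cross (D.ev k (L.v k) (wSeries D.F (1 + 1)) ^ m) y = ∑ t, E.cross (c t) (x' t) := by
      rw [hN, sub_eq_iff_eq_add]
      exact hkey.trans (add_comm _ _)
    rw [h1]
    exact sum_mem fun t _ => D.cross_mem_posPoly (L.v k) (hc t) (he t) (hx' t)

/-- Part Q for every prime. -/
theorem qData_all {p : ℕ} (hp : p.Prime)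
    (H : ∀ r, p = r + 1 → ∀ k, LensEuler E.o E.o.coeff r k (Idx k))
    (h1 : ∀ a : ℤ, p • a • E.one = 0 → a • E.one = 0) : QData E.toMultTheory E.o.law p := by
  by_cases hp2 : p = 2
  · subst hp2
    have hpow : E.HasPowers (E.o.lensTower (Nat.succ_ne_zero 1)) :=
      hasPowers_two E _ (fun m I _ => inferInstance)
        (fun k => frameData E.o E.o.coeff (hasLaw_coeff E.o) k (H 1 rfl k))
    obtain ⟨hg, ht, hd, hot⟩ := E.quillen hp _ hpow h1
    exact ⟨gen_homog (homPS_law E.o) hg, ht, hd, hot⟩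
  · exact E.qData_of_euler hp hp2 H h1

end Vale.Agent.P261Z.T3
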