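import Vale.Agent.P257.H702.StatementP

/-!
# P261, statement layer: Morava `K`-theories as module spectra (all primes)

At the prime `2` the Morava `K`-theory `K(n)` has no homotopy commutative multiplication, but it is
a module over the complex oriented commutative ring spectrum `MU`.

* `ModSp R` : module spectra over the ring spectrum `R` (in the homotopy category).
* `IsMoravaMod p n o c K` : the module `K` is a Morava `K`-theory of height `n ≥ 1` at `p`.
* `IsK S p n K` : the spectrum `K` is such a module over some complex oriented ring spectrum.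
-/

open CategoryTheory MonoidalCategory

noncomputable section

namespace Vale.Agent.P261Z.St

open Vale.Agent.P251.St Vale.Agent.P251.St.SHCat Vale.Agent.P257.St

variable {T : SHCat} {S : Susp T} {R : RingSp T}

/-- A module spectrum over the ring spectrum `R`. -/
structure ModSp (R : RingSp T) where
  /-- the underlying spectrum -/
  obj : T.C
  /-- the action -/
  act : Hom (ten R.obj obj) obj
  one_act : comp (tenR R.unit obj) act = leftUnit obj
  mul_act : comp (tenR R.mul obj) act = comp (assoc R.obj R.obj obj) (comp (tenL R.obj act) act)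

/-- The multiplication `A ⊗ K ⟶ R ⊗ K ⟶ K` by `a : A ⟶ R` on the module `K`. -/
def ModSp.mulBy (K : ModSp R) {A : T.C} (a : Hom A R.obj) : Hom (ten A K.obj) K.obj :=
  comp (tenR a K.obj) K.act

/-- The module `K` over the complex oriented ring spectrum `R` is a Morava `K`-theory of height `n`
at the prime `p`. Here `[p](x) = ∑ c_k x ^ (k + 1)` is the `p`-series of the orientation, and
`v_i = c_{p ^ i - 1} ∈ π_{2 (p ^ i - 1)} R` is the coefficient of `x ^ (p ^ i)` (`v_0 = p`):
`π_k K = 0` unless `2 (p ^ n - 1)` divides `k`, `π_0 K` is cyclic of order `p`, the elements `v_i`,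
`i < n`, act on `K` by zero and `v_n` acts by an isomorphism. Thus
`π_* K = 𝔽_p[v_n, v_n⁻¹]`. -/
structure IsMoravaMod (p n : ℕ) (o : Oriented S R) (c : ∀ k : ℕ, Hom (S.obj (Cn k)) R.obj)
    (K : ModSp R) : Prop where
  series : IsPSeries p o c
  sparse : ∀ (k : ℤ) (f : Hom (sphere T k) K.obj), ¬ 2 * ((p : ℤ) ^ n - 1) ∣ k → f = 0
  field : ∃ g : Hom T.one K.obj, g ≠ 0 ∧ zmul p g = 0 ∧
    ∀ f : Hom T.one K.obj, ∃ a : ℤ, f = zmul a g
  low : ∀ i < n, K.mulBy (c (p ^ i - 1)) = 0
  top : IsIso (K.mulBy (c (p ^ n - 1)))

/-- The spectrum `K` is a Morava `K`-theory of height `n ≥ 1` at the prime `p`: it underlies a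
module as above over some complex oriented commutative ring spectrum (for instance `MU`). -/
def IsK (S : Susp T) (p n : ℕ) (K : T.C) : Prop :=
  ∃ (R : RingSp T) (o : Oriented S R) (c : ∀ k : ℕ, Hom (S.obj (Cn k)) R.obj) (M : ModSp R),
    M.obj = K ∧ IsMoravaMod p n o c M

end Vale.Agent.P261Z.St
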